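import Crest.Agent.R2.Basic

/-! # Row 2: the weighted bipartite Balog-Szemerédi-Gowers lemma -/

set_option autoImplicit false

open Finset
open scoped Pointwise Classical

namespace Crest.Agent.R2

namespace BSG

lemma exists_ge {Y : Type} {t : Finset Y} {b f : Y → ℝ} {c : ℝ} (hb : ∀ y ∈ t, 0 ≤ b y)
    (h1 : ∑ y ∈ t, b y ≤ 1) (hc : 0 < c) (h : c ≤ ∑ y ∈ t, b y * f y) : ∃ y ∈ t, c ≤ f y := by
  rcases t.eq_empty_or_nonempty with rfl | ht
  · simp at h; linarith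
  obtain ⟨y, hy, hm⟩ := t.exists_max_image f ht
  refine ⟨y, hy, ?_⟩
  have h2 : ∑ y' ∈ t, b y' * f y' ≤ (∑ y' ∈ t, b y') * f y := by
    rw [sum_mul]
    exact sum_le_sum fun y' hy' => mul_le_mul_of_nonneg_left (hm y' hy') (hb y' hy')
  have h3 : 0 ≤ ∑ y' ∈ t, b y' := sum_nonneg hb
  by_contra hlt
  push Not at hlt
  rcases le_total 0 (f y) with h0 | h0 <;> nlinarith

/-- removing the points where `f` is small loses at most `c` -/
lemma sum_filter_ge {Y : Type} {t : Finset Y} {b f : Y → ℝ} {c : ℝ} (hb : ∀ y ∈ t, 0 ≤ b y)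
    (h1 : ∑ y ∈ t, b y ≤ 1) (hc : 0 ≤ c) :
    ∑ y ∈ t, b y * f y - c ≤ ∑ y ∈ t with c ≤ f y, b y * f y := by
  rw [← sum_filter_add_sum_filter_not t (fun y => c ≤ f y)]
  have h2 : ∑ y ∈ t with ¬c ≤ f y, b y * f y ≤ ∑ y ∈ t with ¬c ≤ f y, b y * c :=
    sum_le_sum fun y hy => mul_le_mul_of_nonneg_left (not_le.1 (mem_filter.1 hy).2).le
      (hb y (mem_filter.1 hy).1)
  have h3 : ∑ y ∈ t with ¬c ≤ f y, b y ≤ ∑ y ∈ t, b y :=
    sum_le_sum_of_subset_of_nonneg (filter_subset _ _) fun y hy _ => hb y hy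
  rw [← sum_mul] at h2
  nlinarith

/-- Markov -/
lemma markov {Y : Type} {t : Finset Y} {b f : Y → ℝ} {c : ℝ} (hb : ∀ y ∈ t, 0 ≤ b y)
    (hf : ∀ y ∈ t, 0 ≤ f y) :
    c * ∑ y ∈ t, b y - ∑ y ∈ t, b y * f y ≤ c * ∑ y ∈ t with f y ≤ c, b y := by
  rw [← sum_filter_add_sum_filter_not t (fun y => f y ≤ c) b,
    ← sum_filter_add_sum_filter_not t (fun y => f y ≤ c) fun y => b y * f y]
  have h2 : ∑ y ∈ t with ¬f y ≤ c, b y * c ≤ ∑ y ∈ t with ¬f y ≤ c, b y * f y :=
    sum_le_sum fun y hy => mul_le_mul_of_nonneg_left (not_le.1 (mem_filter.1 hy).2).le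
      (hb y (mem_filter.1 hy).1)
  have h3 : 0 ≤ ∑ y ∈ t with f y ≤ c, b y * f y :=
    sum_nonneg fun y hy => mul_nonneg (hb y (mem_filter.1 hy).1) (hf y (mem_filter.1 hy).1)
  rw [← sum_mul] at h2
  nlinarith

lemma core {X Y : Type} (s : Finset X) (t : Finset Y) (a : X → ℝ) (b : Y → ℝ) (g : X → Y → ℝ)
    (K : ℝ) (hK : 0 < K) (ha : ∀ x ∈ s, 0 ≤ a x) (hb : ∀ y ∈ t, 0 ≤ b y) (hg : ∀ x y, 0 ≤ g x y)
    (hg1 : ∀ x y, g x y ≤ 1) (sa : ∑ x ∈ s, a x ≤ 1) (sb : ∑ y ∈ t, b y ≤ 1)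
    (h : 1 / K ≤ ∑ x ∈ s, a x * ∑ y ∈ t, b y * g x y) (h01 : ∀ x y, g x y ≠ 0 → g x y = 1) :
    ∃ A ⊆ s, ∃ B ⊆ t, 1 / (24 * K ^ 2) ≤ ∑ y ∈ B, b y * ∑ x ∈ A, a x * g x y ∧
      ∀ x ∈ A, ∀ y ∈ B, 1 / (2 ^ 14 * K ^ 5) ≤
        ∑ x' ∈ s, a x' * g x' y * ∑ y' ∈ t, b y' * (g x y' * g x' y') := by
  set deg : X → ℝ := fun x => ∑ y ∈ t, b y * g x y with hdeg
  set cod : X → X → ℝ := fun x x' => ∑ y ∈ t, b y * (g x y * g x' y) with hcod
  have cod0 : ∀ x x', 0 ≤ cod x x' := fun x x' =>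
    sum_nonneg fun y hy => mul_nonneg (hb y hy) (mul_nonneg (hg _ _) (hg _ _))
  set X1 := s.filter fun x => 1 / (2 * K) ≤ deg x with hX1
  have hX1s : X1 ⊆ s := filter_subset _ _
  have ha1 : ∀ x ∈ X1, 0 ≤ a x := fun x hx => ha x (hX1s hx)
  have sa1 : ∑ x ∈ X1, a x ≤ 1 :=
    (sum_le_sum_of_subset_of_nonneg hX1s fun x hx _ => ha x hx).trans sa
  have e1 : 1 / (2 * K) ≤ ∑ x ∈ X1, a x * deg x := by
    have := sum_filter_ge (f := deg) (c := 1 / (2 * K)) ha sa (by positivity)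
    have e : 1 / K = 1 / (2 * K) + 1 / (2 * K) := by field_simp; norm_num
    linarith
  set m : Y → ℝ := fun y => ∑ x ∈ X1, a x * g x y with hm
  have e2 : ∑ x ∈ X1, a x * deg x = ∑ y ∈ t, b y * m y := by
    simp only [hdeg, hm, mul_sum]
    rw [sum_comm]
    exact sum_congr rfl fun y _ => sum_congr rfl fun x _ => by ring
  have e3 : 1 / (4 * K ^ 2) ≤ ∑ y ∈ t, b y * m y ^ 2 := by
    have h1 := sum_sq_le_sum_mul_sum_of_sq_le_mul t (r := fun y => b y * m y) (f := b)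
      (g := fun y => b y * m y ^ 2) hb (fun y hy => mul_nonneg (hb y hy) (sq_nonneg _))
      fun y _ => le_of_eq (by ring)
    have h2 : (1 / (2 * K)) ^ 2 ≤ (∑ y ∈ t, b y * m y) ^ 2 := by
      rw [← e2]; gcongr
    have h3 : 0 ≤ ∑ y ∈ t, b y * m y ^ 2 := sum_nonneg fun y hy => mul_nonneg (hb y hy) (sq_nonneg _)
    have e : 1 / (4 * K ^ 2) = (1 / (2 * K)) ^ 2 := by field_simp; norm_num
    nlinarith
  set θ := 1 / (256 * K ^ 3) with hθ
  have hθ0 : 0 < θ := by positivity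
  set bd : X → X → ℝ := fun x x' => if cod x x' < θ then 1 else 0 with hbd
  have bd0 : ∀ x x', 0 ≤ bd x x' := fun x x' => by simp only [hbd]; split_ifs <;> norm_num
  set bad : Y → ℝ := fun y => ∑ x ∈ X1, a x * g x y * ∑ x' ∈ X1, a x' * g x' y * bd x x' with hbad
  have e4 : ∑ y ∈ t, b y * bad y ≤ θ := by
    have e : ∑ y ∈ t, b y * bad y = ∑ x ∈ X1, a x * ∑ x' ∈ X1, a x' * (bd x x' * cod x x') := by
      simp only [hbad, hcod, mul_sum]
      rw [sum_comm]
      refine sum_congr rfl fun x _ => ?_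
      rw [sum_comm]
      exact sum_congr rfl fun x' _ => sum_congr rfl fun y _ => by ring
    have h1 : ∀ x x', bd x x' * cod x x' ≤ θ := fun x x' => by
      simp only [hbd]
      split_ifs with h
      · linarith
      · linarith
    have h2 : ∀ x, ∑ x' ∈ X1, a x' * (bd x x' * cod x x') ≤ θ := fun x => by
      refine (sum_le_sum fun x' hx' => mul_le_mul_of_nonneg_left (h1 x x') (ha1 x' hx')).trans ?_
      rw [← sum_mul]
      nlinarith
    rw [e]
    refine (sum_le_sum fun x hx => mul_le_mul_of_nonneg_left (h2 x) (ha1 x hx)).trans ?_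
    rw [← sum_mul]
    nlinarith
  obtain ⟨y0, hy0, e5⟩ := exists_ge (f := fun y => m y ^ 2 - 32 * K * bad y) (c := 1 / (8 * K ^ 2))
    hb sb (by positivity) (by
      have e : ∑ y ∈ t, b y * (m y ^ 2 - 32 * K * bad y) =
          ∑ y ∈ t, b y * m y ^ 2 - 32 * K * ∑ y ∈ t, b y * bad y := by
        rw [mul_sum, ← sum_sub_distrib]
        exact sum_congr rfl fun y _ => by ring
      have e' : 1 / (8 * K ^ 2) = 1 / (4 * K ^ 2) - 32 * K * θ := by
        rw [hθ]; field_simp; norm_num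
      rw [e, e']
      gcongr)
  set M := m y0 with hM
  have hag : ∀ y, ∀ x ∈ X1, 0 ≤ a x * g x y := fun y x hx => mul_nonneg (ha1 x hx) (hg _ _)
  set β : X → ℝ := fun x => ∑ x' ∈ X1, a x' * g x' y0 * bd x x' with hβ
  have β0 : ∀ x, 0 ≤ β x := fun x => sum_nonneg fun x' hx' => mul_nonneg (hag _ _ hx') (bd0 _ _)
  have bad0 : 0 ≤ bad y0 := sum_nonneg fun x hx => mul_nonneg (hag _ _ hx) (β0 x)
  have M0 : 0 ≤ M := sum_nonneg (hag y0)
  have M1 : 1 / (3 * K) ≤ M := by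
    refine (abs_le_of_sq_le_sq' ?_ M0).2
    have e : (1 / (3 * K)) ^ 2 ≤ 1 / (8 * K ^ 2) := by
      rw [div_pow, one_pow, mul_pow]
      gcongr
      norm_num
    nlinarith
  have Mpos : 0 < M := lt_of_lt_of_le (by positivity) M1
  have e6 : 32 * K * bad y0 ≤ M ^ 2 := by
    have : 0 < 1 / (8 * K ^ 2) := by positivity
    linarith
  set A := (X1.filter fun x => β x ≤ M / (16 * K)).filter fun x => g x y0 ≠ 0 with hA
  have hA1 : A ⊆ X1 := (filter_subset _ _).trans (filter_subset _ _)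
  have haA : ∀ x ∈ A, 0 ≤ a x := fun x hx => ha1 x (hA1 hx)
  have e7 : M / 2 ≤ ∑ x ∈ A, a x := by
    have h1 := markov (f := β) (c := M / (16 * K)) (hag y0) fun x _ => β0 x
    have h2 : ∑ x ∈ X1 with β x ≤ M / (16 * K), a x * g x y0 = ∑ x ∈ A, a x := by
      rw [hA, sum_filter (s := X1.filter _)]
      refine sum_congr rfl fun x _ => ?_
      split_ifs with h
      · rw [h01 _ _ h, mul_one]
      · rw [not_not.1 h, mul_zero]
    rw [h2] at h1
    change M / (16 * K) * M - bad y0 ≤ _ at h1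
    have h3 : bad y0 ≤ M / (16 * K) * (M / 2) := by
      rw [div_mul_div_comm, le_div_iff₀ (by positivity)]
      linarith
    have h4 : M / (16 * K) * (M / 2) ≤ M / (16 * K) * ∑ x ∈ A, a x := by linarith
    exact le_of_mul_le_mul_left h4 (by positivity)
  set n : Y → ℝ := fun y => ∑ x ∈ A, a x * g x y with hn
  refine ⟨A, hA1.trans hX1s, t.filter fun y => M / (8 * K) ≤ n y, filter_subset _ _, ?_, ?_⟩
  · have h1 := sum_filter_ge (f := n) (c := M / (8 * K)) hb sb (by positivity)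
    have h2 : ∑ y ∈ t, b y * n y = ∑ x ∈ A, a x * deg x := by
      simp only [hdeg, hn, mul_sum]
      rw [sum_comm]
      exact sum_congr rfl fun y _ => sum_congr rfl fun x _ => by ring
    have h3 : (∑ x ∈ A, a x) * (1 / (2 * K)) ≤ ∑ x ∈ A, a x * deg x := by
      rw [sum_mul]
      exact sum_le_sum fun x hx => mul_le_mul_of_nonneg_left (mem_filter.1 (hA1 hx)).2 (haA x hx)
    have h4 : M / 2 * (1 / (2 * K)) ≤ (∑ x ∈ A, a x) * (1 / (2 * K)) := by gcongr
    have h5 : M / 2 * (1 / (2 * K)) = M / (8 * K) + M / (8 * K) := by field_simp; norm_num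
    have h6 : 1 / (24 * K ^ 2) ≤ M / (8 * K) := by
      have : 1 / (24 * K ^ 2) = 1 / (3 * K) / (8 * K) := by field_simp; norm_num
      rw [this]
      gcongr
    change _ ≤ ∑ y ∈ t with M / (8 * K) ≤ n y, b y * n y
    linarith
  · intro x hx y hy
    have h1 : M / (8 * K) ≤ n y := (mem_filter.1 hy).2
    have h2 : β x ≤ M / (16 * K) := (mem_filter.1 (mem_filter.1 hx).1).2
    have h3 : ∑ x' ∈ A, a x' * g x' y * cod x x' ≤ ∑ x' ∈ s, a x' * g x' y * cod x x' :=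
      sum_le_sum_of_subset_of_nonneg (hA1.trans hX1s) fun x' hx' _ =>
        mul_nonneg (mul_nonneg (ha x' hx') (hg _ _)) (cod0 _ _)
    have h4 : ∑ x' ∈ A, a x' * g x' y0 * bd x x' ≤ β x :=
      sum_le_sum_of_subset_of_nonneg hA1 fun x' hx' _ => mul_nonneg (hag _ _ hx') (bd0 _ _)
    have h5 : θ * (n y - ∑ x' ∈ A, a x' * g x' y0 * bd x x') ≤
        ∑ x' ∈ A, a x' * g x' y * cod x x' := by
      simp only [hn]
      rw [← sum_sub_distrib, mul_sum]
      refine sum_le_sum fun x' hx' => ?_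
      rw [h01 _ _ (mem_filter.1 hx').2]
      have k1 := haA x' hx'
      have k2 := mul_nonneg k1 (hg x' y)
      have k3 := mul_le_mul_of_nonneg_left (hg1 x' y) k1
      simp only [hbd]
      split_ifs with hc
      · nlinarith [mul_nonneg k2 (cod0 x x')]
      · push Not at hc
        nlinarith
    have h6 : M / (8 * K) = M / (16 * K) + M / (16 * K) := by field_simp; norm_num
    have h7 : θ * (M / (16 * K)) ≤ θ * (n y - ∑ x' ∈ A, a x' * g x' y0 * bd x x') :=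
      mul_le_mul_of_nonneg_left (by linarith) hθ0.le
    have h8 : 1 / (2 ^ 14 * K ^ 5) ≤ θ * (M / (16 * K)) := by
      calc 1 / (2 ^ 14 * K ^ 5) ≤ 1 / (12288 * K ^ 5) := by gcongr; norm_num
        _ = θ * (1 / (3 * K) / (16 * K)) := by rw [hθ]; field_simp; norm_num
        _ ≤ _ := by gcongr
    change _ ≤ ∑ x' ∈ s, a x' * g x' y * cod x x'
    linarith

lemma count {X Y Γ : Type} [AddCommGroup Γ] [DecidableEq Γ] {s A : Finset X} {t B : Finset Y}
    (G : X → Y → Prop) (hA : A ⊆ s) (hB : B ⊆ t) {c : ℝ} (hc : 0 ≤ c)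
    (h : ∀ x ∈ A, ∀ y ∈ B,
      1 ≤ c * ((s ×ˢ t).filter fun p => G x p.2 ∧ G p.1 p.2 ∧ G p.1 y).card)
    (α : X → Γ) (β : Y → Γ) (D : Finset Γ) (hα : Set.InjOn α s) (hβ : Set.InjOn β t)
    (hD : ∀ x ∈ s, ∀ y ∈ t, G x y → α x + β y ∈ D) :
    ((A.image α + B.image β).card : ℝ) ≤ c * (D.card : ℝ) ^ 3 := by
  set S := A.image α + B.image β with hS
  have hrep : ∀ d : S, ∃ p : X × Y, p.1 ∈ A ∧ p.2 ∈ B ∧ α p.1 + β p.2 = d := fun d => by
    obtain ⟨u, hu, v, hv, e⟩ := mem_add.1 d.2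
    obtain ⟨x, hx, rfl⟩ := mem_image.1 hu
    obtain ⟨y, hy, rfl⟩ := mem_image.1 hv
    exact ⟨(x, y), hx, hy, e⟩
  choose r hr1 hr2 hr3 using hrep
  set P : S → Finset (X × Y) := fun d =>
    (s ×ˢ t).filter fun p => G (r d).1 p.2 ∧ G p.1 p.2 ∧ G p.1 (r d).2 with hP
  have h1 : (univ.sigma P).card ≤ (D ×ˢ D ×ˢ D).card := by
    refine card_le_card_of_injOn
      (fun z => (α (r z.1).1 + β z.2.2, α z.2.1 + β z.2.2, α z.2.1 + β (r z.1).2)) ?_ ?_
    · rintro ⟨d, x', y'⟩ hz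
      simp only [coe_sigma, Set.mem_sigma_iff, mem_coe, hP, mem_filter, mem_product] at hz
      obtain ⟨-, ⟨hx', hy'⟩, g1, g2, g3⟩ := hz
      simp only [mem_coe, mem_product]
      exact ⟨hD _ (hA (hr1 d)) _ hy' g1, hD _ hx' _ hy' g2, hD _ hx' _ (hB (hr2 d)) g3⟩
    · rintro ⟨d, x', y'⟩ hz ⟨d₂, x₂, y₂⟩ hz₂ e
      simp only [coe_sigma, Set.mem_sigma_iff, mem_coe, hP, mem_filter, mem_product] at hz hz₂
      simp only [Prod.mk.injEq] at e
      obtain ⟨e1, e2, e3⟩ := e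
      have hd : d = d₂ := by
        apply Subtype.ext
        rw [← hr3 d, ← hr3 d₂]
        have : α (r d).1 + β (r d).2 =
            (α (r d).1 + β y') - (α x' + β y') + (α x' + β (r d).2) := by abel
        rw [this, e1, e2, e3]
        abel
      subst hd
      rw [hα hz.2.1.1 hz₂.2.1.1 (add_right_cancel e3), hβ hz.2.1.2 hz₂.2.1.2 (add_left_cancel e1)]
  rw [card_sigma, card_product, card_product] at h1
  have h2 : (∑ d : S, ((P d).card : ℝ)) ≤ (D.card : ℝ) ^ 3 := by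
    have : ((∑ d : S, (P d).card : ℕ) : ℝ) ≤ (D.card * (D.card * D.card) : ℕ) := by exact_mod_cast h1
    push_cast at this
    linarith
  calc (S.card : ℝ) = ∑ _d : S, (1 : ℝ) := by simp
    _ ≤ ∑ d : S, c * (P d).card := sum_le_sum fun d _ => h _ (hr1 d) _ (hr2 d)
    _ ≤ _ := by rw [← mul_sum]; gcongr

end BSG

theorem bsg : BSGStmt := by
  intro X Y s t a b G K σ τ hK ha hb sa sb h
  have e : ∀ x y, (if G x y then a x * b y else 0) = a x * (b y * if G x y then 1 else 0) :=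
    fun x y => by split_ifs <;> simp
  obtain ⟨A, hA, B, hB, h1, h2⟩ := BSG.core s t a b (fun x y => if G x y then 1 else 0) K hK
    (fun x hx => (ha x hx).1) (fun y hy => (hb y hy).1)
    (fun x y => by split_ifs <;> norm_num) (fun x y => by split_ifs <;> norm_num) sa sb
    (by simpa only [e, mul_sum] using h) (fun x y => by split_ifs <;> simp)
  have hs : s.Nonempty := by
    rcases s.eq_empty_or_nonempty with rfl | hs
    · simp only [sum_empty] at h
      exact absurd h (not_le.2 (by positivity))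
    · exact hs
  have ht : t.Nonempty := by
    rcases t.eq_empty_or_nonempty with rfl | ht
    · simp only [sum_empty, sum_const_zero] at h
      exact absurd h (not_le.2 (by positivity))
    · exact ht
  have hσ : 0 ≤ σ := hs.elim fun x hx => (ha x hx).1.trans (ha x hx).2
  have hτ : 0 ≤ τ := ht.elim fun x hx => (hb x hx).1.trans (hb x hx).2
  refine ⟨A, hA, B, hB, h1.trans_eq ?_, fun α β D hα hβ hD => BSG.count G hA hB (by positivity)
    (fun x hx y hy => ?_) α β D hα hβ hD⟩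
  · simp only [e, mul_sum]
    rw [sum_comm]
    exact sum_congr rfl fun x _ => sum_congr rfl fun y _ => by ring
  · have h3 := h2 x hx y hy
    rw [div_le_iff₀ (by positivity)] at h3
    refine h3.trans ?_
    have h4 : ∑ x' ∈ s, (a x' * if G x' y then 1 else 0) * ∑ y' ∈ t, b y' *
        ((if G x y' then 1 else 0) * if G x' y' then 1 else 0) ≤
        σ * τ * ((s ×ˢ t).filter fun p => G x p.2 ∧ G p.1 p.2 ∧ G p.1 y).card := by
      rw [card_filter, Nat.cast_sum, mul_sum, sum_product]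
      refine sum_le_sum fun x' hx' => ?_
      rw [mul_sum]
      refine sum_le_sum fun y' hy' => ?_
      have k := mul_le_mul (ha x' hx').2 (hb y' hy').2 (hb y' hy').1 hσ
      by_cases g1 : G x y' <;> by_cases g2 : G x' y' <;> by_cases g3 : G x' y <;> simp [g1, g2, g3, k]
    calc _ ≤ σ * τ * ((s ×ˢ t).filter fun p => G x p.2 ∧ G p.1 p.2 ∧ G p.1 y).card *
          (2 ^ 14 * K ^ 5) := by gcongr
      _ = _ := by ring

end Crest.Agent.R2
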