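import Crest.Agent.R2.BSG

/-! # Row 2: BSG for a sub-probability weight -/

set_option autoImplicit false

open Finset
open scoped Pointwise Classical

namespace Crest.Agent.R2

theorem bsgW (h : BSGStmt) : BSGWStmt := by
  intro Γ _ _ _ ν K hK h0 h1 hs hr
  have hK0 : 0 < K := by linarith
  set s := ∑ x, ν x ^ 2 with hsdef
  set r : Γ → ℝ := fun d => ∑ x, ν (x + d) * ν x with hrdef
  have sν0 : 0 ≤ ∑ x, ν x := sum_nonneg fun x _ => h0 x
  have shift : ∀ (f : Γ → ℝ) (d : Γ), ∑ x, f (x + d) = ∑ x, f x := fun f d =>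
    Equiv.sum_comp (Equiv.addRight d) f
  have shift' : ∀ (f : Γ → ℝ) (d : Γ), ∑ x, f (d + x) = ∑ x, f x := fun f d =>
    Equiv.sum_comp (Equiv.addLeft d) f
  have r0 : ∀ d, 0 ≤ r d := fun d => sum_nonneg fun x _ => mul_nonneg (h0 _) (h0 _)
  have rs : ∀ d, r d ≤ s := fun d => by
    have h2 : 2 * r d ≤ ∑ x, (ν (x + d) ^ 2 + ν x ^ 2) := by
      rw [hrdef, mul_sum]
      exact sum_le_sum fun x _ => by nlinarith [sq_nonneg (ν (x + d) - ν x)]
    rw [sum_add_distrib, shift (fun x => ν x ^ 2)] at h2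
    linarith
  have sr : ∑ d, r d ≤ 1 := by
    simp only [hrdef]
    rw [sum_comm]
    simp only [← sum_mul, shift']
    rw [← mul_sum]
    nlinarith
  set D := univ.filter fun d => s / (2 * K) ≤ r d with hD
  have hD1 : 1 / (2 * K) ≤ ∑ d ∈ D, r d := by
    have h2 := BSG.sum_filter_ge (t := univ) (b := r) (f := r) (c := s / (2 * K))
      (fun d _ => r0 d) sr (by positivity)
    have h3 : ∑ d ∈ D, r d * r d ≤ (∑ d ∈ D, r d) * s := by
      rw [sum_mul]
      exact sum_le_sum fun d _ => mul_le_mul_of_nonneg_left (rs d) (r0 d)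
    have h4 : s / K ≤ ∑ d, r d * r d := by
      rw [div_le_iff₀' hK0]
      simpa only [sq] using hr
    have h5 : s / K = s / (2 * K) + s / (2 * K) := by field_simp; norm_num
    have h6 : 1 / (2 * K) * s ≤ (∑ d ∈ D, r d) * s := by
      rw [one_div_mul_eq_div]
      linarith
    exact le_of_mul_le_mul_right h6 hs
  have hD2 : (D.card : ℝ) ≤ 2 * K / s := by
    have h2 : (D.card : ℝ) * (s / (2 * K)) ≤ ∑ d ∈ D, r d := by
      rw [← nsmul_eq_mul]
      exact card_nsmul_le_sum _ _ _ fun d hd => (mem_filter.1 hd).2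
    have h3 : ∑ d ∈ D, r d ≤ ∑ d, r d :=
      sum_le_sum_of_subset_of_nonneg (subset_univ _) fun d _ _ => r0 d
    rw [le_div_iff₀ hs]
    rw [← mul_div_assoc, div_le_iff₀ (by positivity)] at h2
    nlinarith
  set V := univ.filter fun x => ν x ≤ 8 * K * s with hV
  have hVc : ∑ x with ¬ν x ≤ 8 * K * s, ν x ≤ 1 / (8 * K) := by
    have h2 : (∑ x with ¬ν x ≤ 8 * K * s, ν x) * (8 * K * s) ≤
        ∑ x with ¬ν x ≤ 8 * K * s, ν x ^ 2 := by
      rw [sum_mul]
      exact sum_le_sum fun x hx => by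
        rw [sq]
        exact mul_le_mul_of_nonneg_left (not_le.1 (mem_filter.1 hx).2).le (h0 x)
    have h3 : ∑ x with ¬ν x ≤ 8 * K * s, ν x ^ 2 ≤ s :=
      sum_le_sum_of_subset_of_nonneg (subset_univ _) fun x _ _ => sq_nonneg _
    rw [le_div_iff₀ (by positivity)]
    refine le_of_mul_le_mul_right ?_ hs
    linarith
  have sV : ∑ x ∈ V, ν x ≤ 1 :=
    (sum_le_sum_of_subset_of_nonneg (subset_univ _) fun x _ _ => h0 x).trans h1
  set w : Γ → Γ → ℝ := fun x y => if x - y ∈ D then ν x * ν y else 0 with hw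
  have w0 : ∀ x y, 0 ≤ w x y := fun x y => by
    simp only [hw]; split_ifs; exacts [mul_nonneg (h0 x) (h0 y), le_rfl]
  have w1 : ∀ x y, w x y ≤ ν x * ν y := fun x y => by
    simp only [hw]; split_ifs; exacts [le_rfl, mul_nonneg (h0 x) (h0 y)]
  have wAB : ∀ A B : Finset Γ, ∑ x ∈ A, ∑ y ∈ B, w x y ≤ (∑ x ∈ A, ν x) * ∑ y ∈ B, ν y :=
    fun A B => by
      rw [sum_mul_sum]
      exact sum_le_sum fun x _ => sum_le_sum fun y _ => w1 x y
  have hw1 : ∑ x, ∑ y, w x y = ∑ d ∈ D, r d := by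
    rw [sum_comm]
    simp only [hrdef]
    rw [sum_comm (s := D)]
    refine sum_congr rfl fun y _ => ?_
    rw [← shift' (fun x => w x y) y]
    simp only [hw, add_sub_cancel_left]
    rw [← sum_filter, filter_mem_eq_inter, univ_inter]
  have hw2 : 1 / (4 * K) ≤ ∑ x ∈ V, ∑ y ∈ V, w x y := by
    have h2 := sum_filter_add_sum_filter_not univ (fun x => ν x ≤ 8 * K * s) fun x => ∑ y, w x y
    have h3 : ∑ x ∈ V, ∑ y, w x y = ∑ x ∈ V, ∑ y ∈ V, w x y +
        ∑ x ∈ V, ∑ y with ¬ν y ≤ 8 * K * s, w x y := by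
      rw [← sum_add_distrib]
      exact sum_congr rfl fun x _ => (sum_filter_add_sum_filter_not univ _ _).symm
    have h4 := wAB V (univ.filter fun y => ¬ν y ≤ 8 * K * s)
    have h5 := wAB (univ.filter fun y => ¬ν y ≤ 8 * K * s) univ
    have h6 : 0 ≤ ∑ x with ¬ν x ≤ 8 * K * s, ν x := sum_nonneg fun x _ => h0 x
    have h7 : 1 / (2 * K) = 1 / (4 * K) + 1 / (8 * K) + 1 / (8 * K) := by field_simp; norm_num
    nlinarith
  obtain ⟨A, hA, B, hB, e1, e2⟩ := h V V ν ν (fun x y => x - y ∈ D) (4 * K) (8 * K * s) (8 * K * s)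
    (by positivity) (fun x hx => ⟨h0 x, (mem_filter.1 hx).2⟩)
    (fun x hx => ⟨h0 x, (mem_filter.1 hx).2⟩) sV sV (by convert hw2)
  have e3 := e2 id Neg.neg D (Set.injOn_id _) neg_injective.injOn
    fun x _ y _ hxy => by simpa only [id, ← sub_eq_add_neg] using hxy
  rw [image_id, ← neg_def, ← sub_eq_add_neg] at e3
  have e4 : 1 / (24 * (4 * K) ^ 2) ≤ (∑ x ∈ A, ν x) * ∑ y ∈ B, ν y := by
    refine e1.trans (le_trans (le_of_eq ?_) (wAB A B))
    exact sum_congr rfl fun x _ => sum_congr rfl fun y _ => by simp only [hw]; congr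
  have sub1 : ∀ A : Finset Γ, 0 ≤ ∑ x ∈ A, ν x ∧ ∑ x ∈ A, ν x ≤ 1 := fun A =>
    ⟨sum_nonneg fun x _ => h0 x,
      (sum_le_sum_of_subset_of_nonneg (subset_univ _) fun x _ _ => h0 x).trans h1⟩
  have e5 : 1 / (384 * K ^ 2) = 1 / (24 * (4 * K) ^ 2) := by ring
  have eA : 1 / (384 * K ^ 2) ≤ ∑ x ∈ A, ν x := by nlinarith [sub1 A, sub1 B]
  have eB : 1 / (384 * K ^ 2) ≤ ∑ x ∈ B, ν x := by nlinarith [sub1 A, sub1 B]
  have crd : ∀ A ⊆ V, 1 / (384 * K ^ 2) ≤ ∑ x ∈ A, ν x → 1 ≤ 2 ^ 12 * K ^ 3 * s * A.card :=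
    fun A hA e => by
      have h2 : ∑ x ∈ A, ν x ≤ A.card * (8 * K * s) := by
        rw [← nsmul_eq_mul]
        exact sum_le_card_nsmul _ _ _ fun x hx => (mem_filter.1 (hA hx)).2
      have h3 := e.trans h2
      rw [div_le_iff₀ (by positivity)] at h3
      have h4 : 0 ≤ K ^ 3 * s * A.card := by positivity
      nlinarith
  have cA := crd A hA eA
  have cB := crd B hB eB
  have ne : ∀ A : Finset Γ, 1 ≤ 2 ^ 12 * K ^ 3 * s * A.card → A.Nonempty := fun A hA => by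
    rcases A.eq_empty_or_nonempty with rfl | h
    · simp at hA; linarith
    · exact h
  have e6 : ((A - B).card : ℝ) * s ≤ 2 ^ 33 * K ^ 10 := by
    calc ((A - B).card : ℝ) * s ≤
        2 ^ 14 * (4 * K) ^ 5 * (8 * K * s) * (8 * K * s) * (2 * K / s) ^ 3 * s := by
          refine mul_le_mul_of_nonneg_right (e3.trans ?_) hs.le
          gcongr
      _ = _ := by field_simp; norm_num
  have pw : ∀ i j : ℕ, i ≤ 100 → j ≤ 100 → 2 ^ i * K ^ j ≤ (2 * K) ^ 100 := fun i j hi hj => by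
    rw [mul_pow]
    gcongr
    norm_num
  refine ⟨A, ne A cA, ?_, ?_, ?_⟩
  · rw [div_le_iff₀ (by positivity)] at eA
    have := pw 9 2 (by norm_num) (by norm_num)
    nlinarith [sub1 A, sq_nonneg K]
  · have h2 : ((A - A).card : ℝ) * B.card ≤ (A - B).card * (A - B).card := by
      exact_mod_cast ruzsa_triangle_inequality_sub_sub_sub A B A
    calc ((A - A).card : ℝ) = (A - A).card * 1 * 1 := by ring
      _ ≤ (A - A).card * (2 ^ 12 * K ^ 3 * s * B.card) * (2 ^ 12 * K ^ 3 * s * A.card) := by gcongr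
      _ = 2 ^ 24 * K ^ 6 * s ^ 2 * A.card * ((A - A).card * B.card) := by ring
      _ ≤ 2 ^ 24 * K ^ 6 * s ^ 2 * A.card * ((A - B).card * (A - B).card) := by gcongr
      _ = 2 ^ 24 * K ^ 6 * A.card * ((A - B).card * s) ^ 2 := by ring
      _ ≤ 2 ^ 24 * K ^ 6 * A.card * (2 ^ 33 * K ^ 10) ^ 2 := by gcongr
      _ = 2 ^ 90 * K ^ 26 * A.card := by ring
      _ ≤ _ := by gcongr; exact pw 90 26 (by norm_num) (by norm_num)
  · have h2 : (A.card : ℝ) ≤ (A - B).card := by exact_mod_cast card_le_card_sub_right (ne B cB)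
    calc (A.card : ℝ) * s ≤ (A - B).card * s := by gcongr
      _ ≤ _ := e6.trans (pw 33 10 (by norm_num) (by norm_num))

end Crest.Agent.R2
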