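import Crest.Agent.R2.Defs

/-! Basic lemmas for row 2: residues, paths, averages, larger sieve. -/

set_option autoImplicit false

open Finset
open scoped Pointwise Classical

namespace Crest.Agent.R2

/-! ### residues -/

theorem SPrime.two_le (p : SPrime) : 2 ≤ p.1 := p.2.1.two_le

theorem SPrime.pos (p : SPrime) : (0 : ℝ) < p.1 := by exact_mod_cast p.2.1.pos

theorem res_apply (p : SPrime) (v : GI) :
    res p v = (v.re : ZMod p.1) + (v.im : ZMod p.1) * p.exists_iota.choose := rfl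

theorem dvd_norm_of_res_eq_zero (p : SPrime) {v : GI} (h : res p v = 0) : (p.1 : ℤ) ∣ v.norm := by
  rw [← ZMod.intCast_zmod_eq_zero_iff_dvd]
  have h1 : res p (v.norm : GI) = 0 := by rw [Zsqrtd.norm_eq_mul_conj, map_mul, h, zero_mul]
  simpa using h1

theorem norm_nonneg' (v : GI) : 0 ≤ v.norm := GaussianInt.norm_nonneg v

theorem norm_pos' {v : GI} (h : v ≠ 0) : 0 < v.norm := GaussianInt.norm_pos.2 h

/-- the kernel of `res p` is generated by an element of norm `p` -/
theorem exists_pi (p : SPrime) : ∃ π : GI, π.norm = p.1 ∧ ∀ v, res p v = 0 ↔ π ∣ v := by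
  obtain ⟨a, b, hab⟩ := Nat.Prime.sq_add_sq (p := p.1) (by have := p.2.2; omega)
  -- one of the two conjugates is killed
  have key : ∀ π : GI, π.norm = p.1 → res p π = 0 → ∀ v, res p v = 0 ↔ π ∣ v := by
    intro π hπ h0 v
    have hirr : Irreducible π := by
      constructor
      · intro hu
        have := (Zsqrtd.norm_eq_one_iff' (by norm_num) π).2 hu
        have h2 := p.two_le
        omega
      · intro x y hxy
        have h1 : (p.1 : ℤ) = x.norm * y.norm := by rw [← hπ, hxy, Zsqrtd.norm_mul]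
        have h2 : p.1 = x.norm.natAbs * y.norm.natAbs := by
          have := congrArg Int.natAbs h1
          simpa [Int.natAbs_mul] using this
        rcases p.2.1.isUnit_or_isUnit h2 with h | h
        · left; exact (Zsqrtd.norm_eq_one_iff (x := x)).1 (Nat.isUnit_iff.1 h)
        · right; exact (Zsqrtd.norm_eq_one_iff (x := y)).1 (Nat.isUnit_iff.1 h)
    constructor
    · intro hv
      by_contra hnd
      obtain ⟨x, y, hxy⟩ := (hirr.coprime_iff_not_dvd).2 hnd
      have := congrArg (res p) hxy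
      simp [h0, hv] at this
    · rintro ⟨c, rfl⟩
      simp [h0]
  have hmul : res p (⟨a, b⟩ : GI) * res p (⟨a, -b⟩ : GI) = 0 := by
    rw [← map_mul]
    have : (⟨a, b⟩ : GI) * ⟨a, -b⟩ = ((p.1 : ℤ) : GI) := by
      have hab' : (p.1 : ℤ) = a ^ 2 + b ^ 2 := by exact_mod_cast hab.symm
      ext
      · rw [Zsqrtd.re_intCast, hab']; simp; ring
      · rw [Zsqrtd.im_intCast]; simp; ring
    rw [this]; simp
  rcases mul_eq_zero.1 hmul with h | h
  · have hn : (⟨a, b⟩ : GI).norm = p.1 := by simp [Zsqrtd.norm, ← hab]; ring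
    exact ⟨_, hn, key _ hn h⟩
  · have hn : (⟨a, -b⟩ : GI).norm = p.1 := by simp [Zsqrtd.norm, ← hab]; ring
    exact ⟨_, hn, key _ hn h⟩

/-- key fact: a nonzero element is killed by few primes of the scale -/
theorem pow_card_le_norm {P : ℕ} {S : Finset SPrime} (hS : ∀ p ∈ S, P ≤ p.1) {v : GI} (hv : v ≠ 0)
    (h : ∀ p ∈ S, res p v = 0) : (P : ℤ) ^ S.card ≤ v.norm := by
  have hd : (∏ p ∈ S, (p.1 : ℤ)) ∣ v.norm := by
    apply Finset.prod_dvd_of_coprime
    · intro p _ q _ hpq
      have : p.1 ≠ q.1 := fun h => hpq (Subtype.ext h)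
      exact Nat.isCoprime_iff_coprime.2 ((Nat.coprime_primes p.2.1 q.2.1).2 this)
    · intro p hp; exact dvd_norm_of_res_eq_zero p (h p hp)
  refine le_trans ?_ (Int.le_of_dvd (norm_pos' hv) hd)
  rw [← prod_const]
  exact prod_le_prod (fun _ _ => by positivity) (fun p hp => by exact_mod_cast hS p hp)

theorem card_kill_le {P : ℕ} (hP : 2 ≤ P) {S : Finset SPrime} (hS : InScale P S) {v : GI}
    (hv : v ≠ 0) {R : ℝ} (hR : (v.norm : ℝ) ≤ R) :
    ((S.filter (fun p => res p v = 0)).card : ℝ) ≤ Real.log R / Real.log P := by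
  have h1 := pow_card_le_norm (P := P) (S := S.filter (fun p => res p v = 0))
    (fun p hp => (hS p (mem_filter.1 hp).1).1) hv (fun p hp => (mem_filter.1 hp).2)
  have hP' : (1 : ℝ) < P := by exact_mod_cast hP
  have h2 : (P : ℝ) ^ (S.filter (fun p => res p v = 0)).card ≤ R :=
    le_trans (by exact_mod_cast h1) hR
  rw [le_div_iff₀ (Real.log_pos hP'), ← Real.log_pow]
  exact Real.log_le_log (by positivity) h2

theorem Good.nonempty {P : ℕ} {S : Finset SPrime} (h : Good P S) (hP : 1 ≤ P) : S.Nonempty := by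
  rw [← card_pos]
  by_contra h0
  have h1 : S.card = 0 := by omega
  have h2 := h.2
  rw [h1] at h2
  have : (1 : ℝ) ≤ P := by exact_mod_cast hP
  simp at h2; omega

theorem InScale.mono {P : ℕ} {S T : Finset SPrime} (h : InScale P S) (hT : T ⊆ S) : InScale P T :=
  fun p hp => h p (hT hp)

theorem InScale.card_le {P : ℕ} {S : Finset SPrime} (h : InScale P S) : S.card ≤ P + 1 := by
  have : S.card ≤ (Icc P (2 * P)).card :=
    card_le_card_of_injOn (fun p => p.1) (fun p hp => by simpa using h p hp)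
      (fun p _ q _ hpq => Subtype.ext hpq)
  simp at this; omega

theorem mem_scale {j : ℕ} {p : SPrime} : p ∈ scale j ↔ 2 ^ j ≤ p.1 ∧ p.1 < 2 ^ (j + 1) := by
  simp [scale]

theorem mem_upto {N : ℕ} {p : SPrime} : p ∈ upto N ↔ p.1 ≤ N := by
  simp [upto]

theorem sum_log_upto_le (N : ℕ) : ∑ p ∈ upto N, Real.log p.1 ≤ 2 * N := by
  have h1 : ∑ p ∈ upto N, Real.log p.1 ≤ Chebyshev.theta N := by
    rw [Chebyshev.theta_eq_sum_primesLE_log]
    rw [← sum_image (s := upto N) (g := fun p : SPrime => p.1) (f := fun n : ℕ => Real.log n)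
      (fun p _ q _ hpq => Subtype.ext hpq)]
    apply sum_le_sum_of_subset_of_nonneg
    · intro n hn
      obtain ⟨p, hp, rfl⟩ := mem_image.1 hn
      exact Nat.mem_primesLE.2 ⟨mem_upto.1 hp, p.2.1⟩
    · intro n _ _; exact Real.log_natCast_nonneg n
  have h2 := Chebyshev.theta_le_log4_mul_x (x := N) (Nat.cast_nonneg N)
  have h3 : Real.log 4 ≤ 2 := by
    have : Real.log 4 = 2 * Real.log 2 := by
      rw [show (4 : ℝ) = 2 ^ 2 by norm_num, Real.log_pow]; norm_num
    have := Real.log_two_lt_d9; linarith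
  have : (0 : ℝ) ≤ N := Nat.cast_nonneg N
  nlinarith

/-! ### norms and balls -/

theorem norm_add_le_of {v w : GI} {a b : ℝ} (ha : 0 ≤ a) (hb : 0 ≤ b) (hv : (v.norm : ℝ) ≤ a ^ 2)
    (hw : (w.norm : ℝ) ≤ b ^ 2) : ((v + w).norm : ℝ) ≤ (a + b) ^ 2 := by
  have e : ∀ x : GI, (x.norm : ℝ) = ‖(x : ℂ)‖ ^ 2 := fun x => by
    rw [← Complex.normSq_eq_norm_sq]; exact GaussianInt.intCast_real_norm x
  rw [e] at hv hw ⊢
  have h1 : ‖(v : ℂ)‖ ≤ a := (pow_le_pow_iff_left₀ (norm_nonneg _) ha two_ne_zero).1 hv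
  have h2 : ‖(w : ℂ)‖ ≤ b := (pow_le_pow_iff_left₀ (norm_nonneg _) hb two_ne_zero).1 hw
  apply pow_le_pow_left₀ (norm_nonneg _)
  rw [GaussianInt.toComplex_add]
  exact (norm_add_le _ _).trans (add_le_add h1 h2)

theorem norm_sub_le_of {v w : GI} {a b : ℝ} (ha : 0 ≤ a) (hb : 0 ≤ b) (hv : (v.norm : ℝ) ≤ a ^ 2)
    (hw : (w.norm : ℝ) ≤ b ^ 2) : ((v - w).norm : ℝ) ≤ (a + b) ^ 2 := by
  rw [sub_eq_add_neg]
  exact norm_add_le_of ha hb hv (by simpa [Zsqrtd.norm_neg] using hw)

theorem norm_sub_le_four {v w : GI} {R : ℝ} (hv : (v.norm : ℝ) ≤ R) (hw : (w.norm : ℝ) ≤ R) :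
    ((v - w).norm : ℝ) ≤ 4 * R := by
  have hR : 0 ≤ R := le_trans (by exact_mod_cast norm_nonneg' v) hv
  have := norm_sub_le_of (v := v) (Real.sqrt_nonneg R) (Real.sqrt_nonneg R)
    (by rwa [Real.sq_sqrt hR]) (show (w.norm : ℝ) ≤ √R ^ 2 by rwa [Real.sq_sqrt hR])
  nlinarith [Real.sq_sqrt hR]

theorem norm_add_le_four {v w : GI} {R : ℝ} (hv : (v.norm : ℝ) ≤ R) (hw : (w.norm : ℝ) ≤ R) :
    ((v + w).norm : ℝ) ≤ 4 * R := by
  have := norm_sub_le_four (w := -w) hv (by simpa [Zsqrtd.norm_neg] using hw)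
  simpa using this

theorem mem_ball_of_norm_le {R : ℕ} {v : GI} (h : v.norm ≤ (R : ℤ) ^ 2) : v ∈ ball R := by
  have h' : v.re * v.re + v.im * v.im ≤ (R : ℤ) ^ 2 := by simpa [Zsqrtd.norm] using h
  have hR : (0 : ℤ) ≤ R := by positivity
  refine mem_image.2 ⟨(v.re, v.im), ?_, rfl⟩
  simp only [mem_product, mem_Icc]
  refine ⟨abs_le.1 (abs_le_of_sq_le_sq' ?_ hR |> abs_le.2), abs_le.1 (abs_le_of_sq_le_sq' ?_ hR |> abs_le.2)⟩
  · nlinarith [mul_self_nonneg v.im]
  · nlinarith [mul_self_nonneg v.re]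

theorem card_ball (R : ℕ) : (ball R).card = (2 * R + 1) ^ 2 := by
  unfold ball
  rw [card_image_of_injective _ (fun x y h => by
    have := Zsqrtd.ext_iff.1 h
    exact Prod.ext this.1 this.2)]
  have : ((R : ℤ) + 1 - -(R : ℤ)).toNat = 2 * R + 1 := by omega
  simp only [card_product, Int.card_Icc, this]; ring

/-! ### paths -/

theorem IsPath.mono {E : ℕ} {z : ℕ → GI} {n m : ℕ} (h : IsPath E z n) (hm : m ≤ n) :
    IsPath E z m := fun i hi j hj => h i (by omega) j (by omega)

theorem IsPath.mono_left {E E' : ℕ} {z : ℕ → GI} {n : ℕ} (h : IsPath E z n) (hE : E ≤ E') :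
    IsPath E' z n := by
  intro i hi j hj
  refine ⟨(h i hi j hj).1, (h i hi j hj).2.trans ?_⟩
  rw [mul_pow, mul_pow]
  gcongr

theorem IsPath.shift {E : ℕ} {z : ℕ → GI} {n : ℕ} (h : IsPath E z n) (a m : ℕ) (hm : a + m ≤ n) :
    IsPath E (fun t => z (a + t)) m := by
  intro i hi j hj
  have := h (a + i) (by omega) (a + j) (by omega)
  refine ⟨fun e => by have := this.1 e; omega, ?_⟩
  simpa using this.2

/-- subsampling with step `c` -/
theorem IsPath.sub {E : ℕ} {z : ℕ → GI} {n : ℕ} (h : IsPath E z n) (c m : ℕ) (hc : 0 < c)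
    (hm : m * c ≤ n) : IsPath (E * c) (fun i => z (i * c)) m := by
  intro i hi j hj
  have hi' : i * c < n := lt_of_lt_of_le (Nat.mul_lt_mul_of_pos_right hi hc) hm
  have hj' : j * c < n := lt_of_lt_of_le (Nat.mul_lt_mul_of_pos_right hj hc) hm
  have := h _ hi' _ hj'
  refine ⟨fun e => Nat.eq_of_mul_eq_mul_right hc (this.1 e), this.2.trans (le_of_eq ?_)⟩
  push_cast; ring

theorem IsPath.injOn {E : ℕ} {z : ℕ → GI} {n : ℕ} (h : IsPath E z n) :
    Set.InjOn z (range n : Finset ℕ) := fun i hi j hj hij =>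
  (h i (by simpa using hi) j (by simpa using hj)).1 hij

/-- displacement between two times at distance at most `m` -/
theorem IsPath.norm_le {E : ℕ} {z : ℕ → GI} {n : ℕ} (h : IsPath E z n) {i j m : ℕ} (hi : i < n)
    (hj : j < n) (h1 : i ≤ j + m) (h2 : j ≤ i + m) : (z i - z j).norm ≤ ((E * m : ℕ) : ℤ) ^ 2 := by
  refine (h i hi j hj).2.trans ?_
  push_cast
  rw [mul_pow, mul_pow]
  gcongr ?_ * ?_
  apply sq_le_sq'
  · omega
  · omega

theorem IsPath.sub_mem_ball {E : ℕ} {z : ℕ → GI} {n : ℕ} (h : IsPath E z n) {i j m : ℕ} (hi : i < n)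
    (hj : j < n) (h1 : i ≤ j + m) (h2 : j ≤ i + m) : z i - z j ∈ ball (E * m) :=
  mem_ball_of_norm_le (h.norm_le hi hj h1 h2)

/-! ### averages -/

section avg
variable {ι κ : Type}

theorem avg_le_avg {s : Finset ι} {f g : ι → ℝ} (h : ∀ i ∈ s, f i ≤ g i) : avg s f ≤ avg s g :=
  div_le_div_of_nonneg_right (sum_le_sum h) (Nat.cast_nonneg _)

theorem avg_congr {s : Finset ι} {f g : ι → ℝ} (h : ∀ i ∈ s, f i = g i) : avg s f = avg s g := by
  unfold avg; rw [sum_congr rfl h]

theorem avg_nonneg {s : Finset ι} {f : ι → ℝ} (h : ∀ i ∈ s, 0 ≤ f i) : 0 ≤ avg s f :=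
  div_nonneg (sum_nonneg h) (Nat.cast_nonneg _)

theorem avg_const {s : Finset ι} (hs : s.Nonempty) (c : ℝ) : avg s (fun _ => c) = c := by
  have : (s.card : ℝ) ≠ 0 := by exact_mod_cast hs.card_pos.ne'
  simp [avg]; field_simp

theorem avg_le_of_le {s : Finset ι} (hs : s.Nonempty) {f : ι → ℝ} {c : ℝ} (h : ∀ i ∈ s, f i ≤ c) :
    avg s f ≤ c := (avg_le_avg h).trans (avg_const hs c).le

theorem le_avg_of_le {s : Finset ι} (hs : s.Nonempty) {f : ι → ℝ} {c : ℝ} (h : ∀ i ∈ s, c ≤ f i) :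
    c ≤ avg s f := (avg_const hs c).ge.trans (avg_le_avg h)

theorem avg_add (s : Finset ι) (f g : ι → ℝ) : avg s (fun i => f i + g i) = avg s f + avg s g := by
  simp [avg, sum_add_distrib, add_div]

theorem avg_sub (s : Finset ι) (f g : ι → ℝ) : avg s (fun i => f i - g i) = avg s f - avg s g := by
  simp [avg, sum_sub_distrib, sub_div]

theorem avg_mul_left (s : Finset ι) (c : ℝ) (f : ι → ℝ) :
    avg s (fun i => c * f i) = c * avg s f := by
  simp [avg, ← mul_sum, mul_div_assoc]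

theorem avg_mul_right (s : Finset ι) (c : ℝ) (f : ι → ℝ) :
    avg s (fun i => f i * c) = avg s f * c := by
  simp [avg, ← sum_mul, mul_div_right_comm]

theorem avg_sum (s : Finset ι) (t : Finset κ) (f : ι → κ → ℝ) :
    avg s (fun i => ∑ j ∈ t, f i j) = ∑ j ∈ t, avg s (fun i => f i j) := by
  simp only [avg]; rw [sum_comm, sum_div]

theorem avg_comm (s : Finset ι) (t : Finset κ) (f : ι → κ → ℝ) :
    avg s (fun i => avg t (fun j => f i j)) = avg t (fun j => avg s (fun i => f i j)) := by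
  simp only [avg, ← sum_div]; rw [sum_comm, div_right_comm]

theorem avg_product (s : Finset ι) (t : Finset κ) (f : ι × κ → ℝ) :
    avg (s ×ˢ t) f = avg s (fun i => avg t (fun j => f (i, j))) := by
  simp only [avg, ← sum_div, sum_product, card_product, Nat.cast_mul]
  rw [div_div, mul_comm]

theorem exists_le_avg {s : Finset ι} (hs : s.Nonempty) (f : ι → ℝ) : ∃ i ∈ s, f i ≤ avg s f := by
  by_contra h
  push Not at h
  have h1 : ∑ _i ∈ s, avg s f < ∑ i ∈ s, f i := sum_lt_sum_of_nonempty hs h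
  have : (s.card : ℝ) ≠ 0 := by exact_mod_cast hs.card_pos.ne'
  rw [sum_const, nsmul_eq_mul, avg, mul_div_cancel₀ _ this] at h1
  exact lt_irrefl _ h1

theorem exists_avg_le {s : Finset ι} (hs : s.Nonempty) (f : ι → ℝ) : ∃ i ∈ s, avg s f ≤ f i := by
  by_contra h
  push Not at h
  have h1 : ∑ i ∈ s, f i < ∑ _i ∈ s, avg s f := sum_lt_sum_of_nonempty hs h
  have : (s.card : ℝ) ≠ 0 := by exact_mod_cast hs.card_pos.ne'
  rw [sum_const, nsmul_eq_mul, avg, mul_div_cancel₀ _ this] at h1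
  exact lt_irrefl _ h1

/-- splitting `range (a * b)` into `a` consecutive blocks of length `b` -/
theorem sum_range_mul {M : Type} [AddCommMonoid M] (a b : ℕ) (f : ℕ → M) :
    ∑ n ∈ range (a * b), f n = ∑ i ∈ range a, ∑ t ∈ range b, f (i * b + t) := by
  induction a with
  | zero => simp
  | succ a ih => rw [Nat.succ_mul, sum_range_add, ih, sum_range_succ]

theorem avg_range_mul (a b : ℕ) (f : ℕ → ℝ) :
    avg (range (a * b)) f = avg (range a) (fun i => avg (range b) (fun t => f (i * b + t))) := by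
  simp only [avg, sum_range_mul, card_range, ← sum_div, Nat.cast_mul]
  rw [div_div, mul_comm (b : ℝ)]

theorem avg_range_pow {k b : ℕ} (h : b ≤ k) (f : ℕ → ℝ) :
    avg (range (2 ^ k)) f =
      avg (range (2 ^ (k - b))) (fun i => avg (range (2 ^ b)) (fun t => f (i * 2 ^ b + t))) := by
  rw [← avg_range_mul, ← pow_add, Nat.sub_add_cancel h]

/-- independence of the coordinates under the uniform measure on a product -/
theorem avg_piFinset_prod {J : Type} [Fintype J] [DecidableEq J] (t : J → Finset ι)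
    (f : J → ι → ℝ) :
    avg (Fintype.piFinset t) (fun ω => ∏ j, f j (ω j)) = ∏ j, avg (t j) (f j) := by
  simp only [avg, Fintype.card_piFinset, Nat.cast_prod]
  rw [← prod_univ_sum, prod_div_distrib]

theorem avg_piFinset_eval {J : Type} [Fintype J] [DecidableEq J] (t : J → Finset ι)
    (ht : ∀ j, (t j).Nonempty) (j : J) (f : ι → ℝ) :
    avg (Fintype.piFinset t) (fun ω => f (ω j)) = avg (t j) f := by
  have := avg_piFinset_prod t (fun j' x => if j' = j then f x else 1)
  simp only [prod_ite_eq', mem_univ, if_true] at this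
  rw [this, prod_eq_single j]
  · simp
  · intro j' _ hj'; simp [hj', avg_const (ht j')]
  · simp

theorem avg_piFinset_eval₂ {J : Type} [Fintype J] [DecidableEq J] (t : J → Finset ι)
    (ht : ∀ j, (t j).Nonempty) {j j' : J} (hj : j ≠ j') (f g : ι → ℝ) :
    avg (Fintype.piFinset t) (fun ω => f (ω j) * g (ω j')) = avg (t j) f * avg (t j') g := by
  have := avg_piFinset_prod t
    (fun i x => (if i = j then f x else 1) * (if i = j' then g x else 1))
  simp only [prod_mul_distrib, prod_ite_eq', mem_univ, if_true] at this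
  rw [this, ← prod_erase_mul _ _ (mem_univ j), ← prod_erase_mul _ _
    (mem_erase.2 ⟨hj.symm, mem_univ j'⟩), prod_eq_one]
  · simp [hj, hj.symm, mul_comm]
  · intro i hi
    have h1 : i ≠ j' := (mem_erase.1 hi).1
    have h2 : i ≠ j := (mem_erase.1 (mem_erase.1 hi).2).1
    simp [h1, h2, avg_const (ht i)]

/-- resampling inside the classes of `C` does not change averages of class-invariant functions -/
theorem avg_class (s : Finset ι) (C : ι → κ) (F : κ → ι → ℝ) :
    avg s (fun i => F (C i) i) =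
      avg s (fun i => avg (s.filter (fun i' => C i' = C i)) (fun i' => F (C i) i')) := by
  unfold avg
  congr 1
  rw [← sum_fiberwise_of_maps_to (g := C) (t := s.image C) (fun i hi => mem_image_of_mem C hi),
    ← sum_fiberwise_of_maps_to (g := C) (t := s.image C) (fun i hi => mem_image_of_mem C hi)]
  refine sum_congr rfl fun c hc => ?_
  have hne : ((s.filter (fun i => C i = c)).card : ℝ) ≠ 0 := by
    obtain ⟨i, hi, rfl⟩ := mem_image.1 hc
    have : (s.filter (fun j => C j = C i)).Nonempty := ⟨i, mem_filter.2 ⟨hi, rfl⟩⟩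
    exact_mod_cast this.card_pos.ne'
  rw [sum_congr rfl (g := fun i => F c i) (fun i hi => by rw [(mem_filter.1 hi).2])]
  symm
  rw [sum_congr rfl (g := fun _ => (∑ i ∈ s.filter (fun i => C i = c), F c i) /
      (s.filter (fun i => C i = c)).card) (fun i hi => by rw [(mem_filter.1 hi).2])]
  rw [sum_const, nsmul_eq_mul, mul_div_cancel₀ _ hne]

theorem avg_sq_le (s : Finset ι) (f : ι → ℝ) : avg s f ^ 2 ≤ avg s (fun i => f i ^ 2) := by
  rcases s.eq_empty_or_nonempty with rfl | hs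
  · simp [avg]
  have hc : (0 : ℝ) < s.card := by exact_mod_cast hs.card_pos
  unfold avg
  rw [div_pow, div_le_div_iff₀ (by positivity) hc]
  have := sq_sum_le_card_mul_sum_sq (s := s) (f := f)
  nlinarith

theorem exp_avg_le {s : Finset ι} (hs : s.Nonempty) (f : ι → ℝ) :
    Real.exp (avg s f) ≤ avg s (fun i => Real.exp (f i)) := by
  have h : ∀ i ∈ s, Real.exp (avg s f) * (1 + (f i - avg s f)) ≤ Real.exp (f i) := fun i _ => by
    have h1 := Real.add_one_le_exp (f i - avg s f)
    have h2 : Real.exp (f i) = Real.exp (avg s f) * Real.exp (f i - avg s f) := by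
      rw [← Real.exp_add]; congr 1; ring
    rw [h2]
    exact mul_le_mul_of_nonneg_left (by linarith) (Real.exp_pos _).le
  refine le_trans (le_of_eq ?_) (avg_le_avg h)
  rw [avg_mul_left, avg_add, avg_sub, avg_const hs, avg_const hs]; ring

theorem avg_log_le {s : Finset ι} (hs : s.Nonempty) {f : ι → ℝ} (hf : ∀ i ∈ s, 0 < f i) :
    avg s (fun i => Real.log (f i)) ≤ Real.log (avg s f) := by
  have h1 := exp_avg_le hs (fun i => Real.log (f i))
  rw [avg_congr (g := f) (fun i hi => Real.exp_log (hf i hi))] at h1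
  exact (Real.le_log_iff_exp_le (lt_of_lt_of_le (Real.exp_pos _) h1)).2 h1

theorem avg_min_le (s : Finset ι) (hs : s.Nonempty) (M : ℝ) (f : ι → ℝ) :
    avg s (fun i => min M (f i)) ≤ min M (avg s f) :=
  le_min (avg_le_of_le hs fun _ _ => min_le_left _ _) (avg_le_avg fun _ _ => min_le_right _ _)

end avg

/-! ### laws -/

theorem push_nonneg (p : SPrime) {ι : Type} {s : Finset ι} (u : ι → GI) {w : ι → ℝ}
    (hw : ∀ i ∈ s, 0 ≤ w i) (a : ZMod p.1) : 0 ≤ push p s u w a :=
  sum_nonneg fun i hi => hw i (mem_filter.1 hi).1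

theorem sum_push_mul (p : SPrime) {ι : Type} (s : Finset ι) (u : ι → GI) (w : ι → ℝ)
    (F : ZMod p.1 → ℝ) : ∑ a, push p s u w a * F a = ∑ i ∈ s, w i * F (res p (u i)) := by
  unfold push
  simp only [sum_mul]
  rw [← sum_fiberwise (s := s) (g := fun i => res p (u i))]
  refine sum_congr rfl fun a _ => sum_congr rfl fun i hi => ?_
  rw [(mem_filter.1 hi).2]

theorem sum_push (p : SPrime) {ι : Type} (s : Finset ι) (u : ι → GI) (w : ι → ℝ) :
    ∑ a, push p s u w a = ∑ i ∈ s, w i := by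
  simpa using sum_push_mul p s u w (fun _ => 1)

theorem law_eq_push (p : SPrime) {ι : Type} (s : Finset ι) (u : ι → GI) (a : ZMod p.1) :
    law p s u a = push p s u (fun _ => 1 / s.card) a := by
  simp [law, push, div_eq_mul_inv]

theorem law_nonneg (p : SPrime) {ι : Type} (s : Finset ι) (u : ι → GI) (a : ZMod p.1) :
    0 ≤ law p s u a := by unfold law; positivity

theorem sum_law_mul (p : SPrime) {ι : Type} (s : Finset ι) (u : ι → GI) (F : ZMod p.1 → ℝ) :
    ∑ a, law p s u a * F a = avg s (fun i => F (res p (u i))) := by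
  simp only [law_eq_push, sum_push_mul, avg, sum_div]
  exact sum_congr rfl fun i _ => by ring

theorem sum_law (p : SPrime) {ι : Type} {s : Finset ι} (hs : s.Nonempty) (u : ι → GI) :
    ∑ a, law p s u a = 1 := by
  simpa [avg_const hs] using sum_law_mul p s u (fun _ => 1)

/-- Gallagher's larger sieve, weighted form -/
theorem larger_sieve {P : ℕ} (hP : 2 ≤ P) {S : Finset SPrime} (hS : InScale P S) {ι : Type}
    (s : Finset ι) (u : ι → GI) (w : ι → ℝ) {R : ℝ} (hu : Set.InjOn u s) (hw : ∀ i ∈ s, 0 ≤ w i)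
    (hR1 : 1 ≤ R) (hR : ∀ i ∈ s, ∀ j ∈ s, ((u i - u j).norm : ℝ) ≤ R) :
    ∑ p ∈ S, ∑ a, push p s u w a ^ 2 ≤
      Real.log R / Real.log P * (∑ i ∈ s, w i) ^ 2 + S.card * ∑ i ∈ s, w i ^ 2 := by
  have h1 : ∀ p : SPrime, ∑ a, push p s u w a ^ 2 =
      ∑ i ∈ s, ∑ j ∈ s, if res p (u i - u j) = 0 then w i * w j else 0 := by
    intro p
    have := sum_push_mul p s u w (push p s u w)
    simp only [sq]
    rw [this]
    refine sum_congr rfl fun i _ => ?_
    unfold push
    rw [sum_filter, mul_sum]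
    refine sum_congr rfl fun j _ => ?_
    simp only [map_sub, sub_eq_zero]
    by_cases h : res p (u i) = res p (u j)
    · simp [h]
    · simp [h, Ne.symm h]
  simp only [h1]
  rw [sum_comm]
  have hL : 0 ≤ Real.log R / Real.log P :=
    div_nonneg (Real.log_nonneg hR1) (Real.log_natCast_nonneg P)
  have h2 : ∀ i ∈ s, ∑ p ∈ S, ∑ j ∈ s, (if res p (u i - u j) = 0 then w i * w j else 0) ≤
      ∑ j ∈ s, (Real.log R / Real.log P * (w i * w j) + if j = i then S.card * w i ^ 2 else 0) := by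
    intro i hi
    rw [sum_comm]
    refine sum_le_sum fun j hj => ?_
    have hww := mul_nonneg (hw i hi) (hw j hj)
    rw [← sum_filter, sum_const, nsmul_eq_mul]
    by_cases h : j = i
    · subst h
      have : ((S.filter (fun p => res p (u j - u j) = 0)).card : ℝ) ≤ S.card := by
        exact_mod_cast card_filter_le _ _
      simp only [if_true]
      nlinarith [mul_nonneg hL hww]
    · have hne : u i - u j ≠ 0 := fun e => h (hu hj hi (sub_eq_zero.1 e).symm)
      have := card_kill_le hP hS hne (hR i hi j hj)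
      simp only [h, if_false, add_zero]
      exact mul_le_mul_of_nonneg_right this hww
  refine (sum_le_sum h2).trans (le_of_eq ?_)
  simp only [sum_add_distrib, ← mul_sum, sum_ite_eq']
  rw [← sum_mul, ← sq]
  congr 1
  rw [mul_sum]
  exact sum_congr rfl fun i hi => by simp [hi]

theorem larger_sieve_law {P : ℕ} (hP : 2 ≤ P) {S : Finset SPrime} (hS : InScale P S) {ι : Type}
    (s : Finset ι) (u : ι → GI) {R : ℝ} (hu : Set.InjOn u s)
    (hR1 : 1 ≤ R) (hR : ∀ i ∈ s, ∀ j ∈ s, ((u i - u j).norm : ℝ) ≤ R) :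
    ∑ p ∈ S, ∑ a, law p s u a ^ 2 ≤ Real.log R / Real.log P + S.card / s.card := by
  have hL : 0 ≤ Real.log R / Real.log P :=
    div_nonneg (Real.log_nonneg hR1) (Real.log_natCast_nonneg P)
  rcases s.eq_empty_or_nonempty with rfl | hs
  · simpa [law] using hL
  have hc : (s.card : ℝ) ≠ 0 := by exact_mod_cast hs.card_pos.ne'
  have := larger_sieve hP hS s u (fun _ => 1 / s.card) hu (fun _ _ => by positivity) hR1 hR
  simp only [law_eq_push]
  refine this.trans (le_of_eq ?_)
  simp only [sum_const, nsmul_eq_mul]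
  field_simp

/-! ### characters -/

theorem chi_add (p : SPrime) (ξ : ZMod p.1) (v w : GI) :
    chi p ξ (v + w) = chi p ξ v * chi p ξ w := by
  simp [chi, mul_add, AddChar.map_add_eq_mul]

theorem norm_chi (p : SPrime) (ξ : ZMod p.1) (v : GI) : ‖chi p ξ v‖ = 1 := by
  simp [chi, ZMod.stdAddChar_apply]

theorem chi_neg (p : SPrime) (ξ : ZMod p.1) (v : GI) :
    chi p ξ (-v) = (starRingEnd ℂ) (chi p ξ v) := by
  unfold chi
  rw [map_neg, mul_neg, AddChar.map_neg_eq_conj]

theorem chi_sub (p : SPrime) (ξ : ZMod p.1) (v w : GI) :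
    chi p ξ (v - w) = chi p ξ v * (starRingEnd ℂ) (chi p ξ w) := by
  rw [sub_eq_add_neg, chi_add, chi_neg]

theorem sum_stdAddChar_mul (p : SPrime) {ξ : ZMod p.1} (hξ : ξ ≠ 0) :
    ∑ a : ZMod p.1, ZMod.stdAddChar (ξ * a) = 0 := by
  have := AddChar.sum_mulShift (ψ := (ZMod.stdAddChar : AddChar (ZMod p.1) ℂ)) ξ
    (ZMod.isPrimitive_stdAddChar p.1)
  simp only [mul_comm ξ]
  simpa [hξ] using this

end Crest.Agent.R2
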