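import Crest.Agent.R2.Bias2

/-! The bias bound: iteration of the step lemma and asymptotics. -/

set_option autoImplicit false

open Finset
open scoped Pointwise Classical

namespace Crest.Agent.R2.Bias

/-- the conclusion of `ECoreStmt` at a fixed `h`, `S` -/
def EC (h : ℝ) (S : Finset SPrime) : Prop :=
  ∀ T ⊆ S, Real.exp (-(4 * h ^ 5)) * S.card ≤ T.card → ∀ ρ : ℝ, h ^ 80 ≤ ρ →
    ρ ≤ Real.exp (4 * h ^ 5) → ∀ (ξ : (p : SPrime) → ZMod p.1) (e : SPrime → ℂ) (Z : Finset GI),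
    (∀ p ∈ T, ξ p ≠ 0 ∧ ‖e p‖ ≤ 1) → (∀ z ∈ Z, (z.norm : ℝ) ≤ Real.exp (2 * ρ)) →
    (∀ z ∈ Z, 1 / (2 * h ^ 10) ≤ avg T (fun p => (e p * chi p (ξ p) z).re)) →
    (Z.card : ℝ) ≤ Real.exp ((1 - 1 / h ^ 29) * ρ)

theorem step' {h y b2 : ℝ} {D l l' J : ℕ} {S : Finset SPrime} (hE : EC h S) (h100 : 100 ≤ h)
    (hD1 : 1 ≤ D) (hD : (D : ℝ) ≤ h) (hJ1 : 1 ≤ J) (hJ : (J : ℝ) ≤ h ^ 20 + 1)
    (hy0 : 0 ≤ y) (hy : y ≤ 3 * h ^ 5) (h1 : h ^ 50 * l ≤ l') (h2 : 2 * h ^ 80 ≤ l')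
    (h3 : l' ≤ Real.exp y) (hc : Claim D S l (Real.exp (4 * J * l)) b2) :
    Claim D S l' (Real.exp (4 * J * l'))
      ((1 / J + 2 * (1 / h ^ 10) ^ 2) * b2 + 4 * Real.exp (-y)) := by
  have hh1 : 1 ≤ h := by linarith
  have hh0 : 0 < h := by linarith
  have hl0 : (0 : ℝ) ≤ l := Nat.cast_nonneg l
  have hD0 : (1 : ℝ) ≤ D := by exact_mod_cast hD1
  have p50 : 1 ≤ h ^ 50 := one_le_pow₀ hh1
  have hl : l ≤ l' := by
    have : (l : ℝ) ≤ l' := by nlinarith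
    exact_mod_cast this
  have hlog2 := Real.log_two_lt_d9
  have hlog2' := Real.log_two_gt_d9
  have hlD : Real.log D ≤ h := (Real.log_le_self (by linarith)).trans hD
  have hlD0 : 0 ≤ Real.log D := Real.log_nonneg hD0
  set ρ := Real.log (D * 2 ^ l') with hρ
  have hρ1 : ρ = Real.log D + l' * Real.log 2 := by
    rw [hρ, Real.log_mul (by positivity) (by positivity), Real.log_pow]
  have hρ2 : Real.exp ρ = D * 2 ^ l' := Real.exp_log (by positivity)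
  have p80 : 100 * h ≤ h ^ 80 := by
    calc 100 * h ≤ h * h := by gcongr
      _ = h ^ 2 := by ring
      _ ≤ h ^ 80 := pow_le_pow_right₀ hh1 (by norm_num)
  have hl'0 : (0 : ℝ) ≤ l' := Nat.cast_nonneg l'
  have hρ3 : ρ + 2 ≤ l' := by nlinarith
  have hρ4 : (l' : ℝ) / 2 ≤ ρ := by nlinarith
  have p20 : 1 ≤ h ^ 20 := one_le_pow₀ hh1
  refine (step hc hl hJ1 (by positivity) (Real.exp_pos _).le (Real.exp_pos _) ?_).mono ?_ le_rfl
  · intro T hT hcard ξ e Z a1 a2 a3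
    have b1 : Real.exp (-(4 * h ^ 5)) * S.card ≤ T.card := by
      refine le_trans ?_ hcard
      have : 0 ≤ h ^ 5 := by positivity
      gcongr; linarith
    have b2 : ρ ≤ Real.exp (4 * h ^ 5) := by
      have : Real.exp y ≤ Real.exp (4 * h ^ 5) := by
        have : 0 ≤ h ^ 5 := by positivity
        gcongr; linarith
      linarith
    refine (hE T hT b1 ρ (by linarith) b2 ξ e Z a1 (fun z hz => ?_) (fun z hz => ?_)).trans_lt ?_
    · rw [two_mul, Real.exp_add, hρ2, ← pow_two]; exact a2 z hz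
    · refine le_trans (le_of_eq ?_) (a3 z hz); field_simp
    have c1 : Real.exp (-(2 * h ^ 10)) ≤ 1 / h ^ 10 / 2 := by
      rw [Real.exp_neg, div_div, one_div]
      have := Real.add_one_le_exp (2 * h ^ 10)
      gcongr; linarith
    have c2 : (2 : ℝ) ^ (l' - l) = Real.exp ((l' - l) * Real.log 2) := by
      rw [← Nat.cast_sub hl, Real.exp_nat_mul, Real.exp_log two_pos]
    refine lt_of_lt_of_le ?_ (mul_le_mul_of_nonneg_right c1 (by positivity))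
    rw [c2, ← Real.exp_sub, ← Real.exp_add, ← Real.exp_add, Real.exp_lt_exp]
    have c3 : h ^ 21 * l / 4 + h ^ 51 / 2 ≤ 1 / h ^ 29 * ρ := by
      rw [one_div, le_inv_mul_iff₀ (by positivity)]
      have : h ^ 29 * (h ^ 21 * l / 4 + h ^ 51 / 2) = h ^ 50 * l / 4 + h ^ 80 / 2 := by ring
      linarith
    have c4 : (Real.log 2 + 4 * J) * l ≤ h ^ 21 / 4 * l := by
      have : 100 * h ^ 20 ≤ h ^ 21 := by rw [pow_succ' h 20]; gcongr
      gcongr; linarith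
    have c5 : h + 2 * h ^ 10 + 3 * h ^ 5 < h ^ 51 / 2 := by
      have e1 : h ≤ h ^ 50 := le_self_pow₀ hh1 (by norm_num)
      have e2 : h ^ 10 ≤ h ^ 50 := pow_le_pow_right₀ hh1 (by norm_num)
      have e3 : h ^ 5 ≤ h ^ 50 := pow_le_pow_right₀ hh1 (by norm_num)
      have e4 : 100 * h ^ 50 ≤ h ^ 51 := by rw [pow_succ' h 50]; gcongr
      linarith
    nlinarith
  · have c1 : (2 * (D * 2 ^ l') + 1 : ℝ) ≤ Real.exp l' := by
      have e1 : (1 : ℝ) ≤ D * 2 ^ l' := one_le_mul_of_one_le_of_one_le hD0 (one_le_pow₀ one_le_two)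
      have e2 : Real.exp (ρ + 2) ≤ Real.exp l' := Real.exp_le_exp.2 hρ3
      have e3 := Real.add_one_le_exp 2
      rw [Real.exp_add, hρ2] at e2
      nlinarith
    have c2 : (4 * J * l : ℝ) ≤ 2 * l' := by
      have : 100 * h ^ 20 ≤ h ^ 50 := by
        calc 100 * h ^ 20 ≤ h * h ^ 20 := by gcongr
          _ = h ^ 21 := by ring
          _ ≤ h ^ 50 := pow_le_pow_right₀ hh1 (by norm_num)
      have : (2 * J : ℝ) * l ≤ h ^ 50 * l := by gcongr; linarith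
      linarith
    calc _ ≤ (Real.exp l' ^ 2 * Real.exp (2 * l')) ^ J := by gcongr
      _ = _ := by rw [← Real.exp_nat_mul, ← Real.exp_add, ← Real.exp_nat_mul]; congr 1; ring

theorem iter {h y a : ℝ} {D J l1 M : ℕ} {S : Finset SPrime} (hS : S.Nonempty) (hE : EC h S)
    (h100 : 100 ≤ h) (hD1 : 1 ≤ D) (hD : (D : ℝ) ≤ h) (hJ1 : 1 ≤ J) (hJ : (J : ℝ) ≤ h ^ 20 + 1)
    (hy0 : 0 ≤ y) (hy : y ≤ 3 * h ^ 5) (hl1 : 2 * h ^ 80 ≤ l1) (hM : h ^ 50 ≤ M)
    (ha : 1 / J + 2 * (1 / h ^ 10) ^ 2 ≤ a) (ha2 : a ≤ 1 / 2) (m : ℕ)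
    (hm : ((l1 * M ^ m : ℕ) : ℝ) ≤ Real.exp y) :
    Claim D S (l1 * M ^ m) (Real.exp (4 * J * (l1 * M ^ m : ℕ)))
      (a ^ (m + 1) + 8 * Real.exp (-y)) := by
  have hh1 : 1 ≤ h := by linarith
  have hM1 : (1 : ℝ) ≤ M := (one_le_pow₀ hh1).trans hM
  have ha0 : 0 ≤ a := le_trans (by positivity) ha
  have hε := Real.exp_pos (-y)
  have hl0 : (0 : ℝ) ≤ l1 := Nat.cast_nonneg _
  induction m with
  | zero =>
    have h0 : Claim D S 0 (Real.exp (4 * J * (0 : ℕ))) 1 := by simpa using claim_zero D hS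
    refine (step' hE h100 hD1 hD hJ1 hJ hy0 hy (by simp) (by simpa using hl1) hm h0).mono le_rfl ?_
    rw [zero_add, pow_one]; linarith
  | succ m ih =>
    have e : ((l1 * M ^ (m + 1) : ℕ) : ℝ) = M * ((l1 * M ^ m : ℕ) : ℝ) := by push_cast; ring
    have hx : (0 : ℝ) ≤ ((l1 * M ^ m : ℕ) : ℝ) := Nat.cast_nonneg _
    have h0 := ih (le_trans (by rw [e]; nlinarith) hm)
    refine (step' hE h100 hD1 hD hJ1 hJ hy0 hy (by rw [e]; gcongr) ?_ hm h0).mono le_rfl ?_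
    · push_cast
      exact hl1.trans (le_mul_of_one_le_right hl0 (one_le_pow₀ hM1))
    · have : 0 ≤ a ^ (m + 1) := by positivity
      calc _ ≤ a * (a ^ (m + 1) + 8 * Real.exp (-y)) + 4 * Real.exp (-y) := by gcongr
        _ ≤ _ := by rw [pow_succ' a (m + 1)]; nlinarith

end Bias

open Bias in
theorem bias (hE : ECoreStmt) : BiasStmt := by
  obtain ⟨h0, hE⟩ := hE
  intro D hD1
  refine ⟨max (max h0 D) (max 100 (Real.exp 4)), fun h hh P S hP hG y k hy1 hy2 hk => ?_⟩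
  simp only [ge_iff_le, max_le_iff] at hh
  obtain ⟨⟨hh0, hD⟩, h100, h4⟩ := hh
  have hh1 : 1 ≤ h := by linarith
  have hpos : 0 < h := by linarith
  have hP1 : 1 ≤ P := by
    rcases Nat.eq_zero_or_pos P with rfl | h'
    · have : 0 < h ^ 40 := by positivity
      simp at hP; linarith
    · exact h'
  set g := Real.log h with hg
  have hg4 : 4 ≤ g := (Real.le_log_iff_exp_le hpos).2 h4
  have hpow : ∀ n : ℕ, h ^ n = Real.exp (n * g) := fun n => by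
    rw [Real.exp_nat_mul, hg, Real.exp_log hpos]
  have h3 : 3 ≤ Real.exp (g / 2) := by have := Real.add_one_le_exp (g / 2); linarith
  have p5 : 10 ^ 8 * h ≤ h ^ 5 := by
    have : (100 : ℝ) ^ 4 ≤ h ^ 4 := by gcongr
    rw [pow_succ h 4]; nlinarith
  have hy0 : 0 ≤ y := le_trans (by positivity) hy1
  set m := ⌊y / (51 * g)⌋₊ with hm
  have hm1 : m * (51 * g) ≤ y := by
    rw [← le_div_iff₀ (by positivity)]; exact Nat.floor_le (by positivity)
  have hm2 : y ≤ (m + 1) * (51 * g) := by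
    rw [← div_le_iff₀ (by positivity)]; exact (Nat.lt_floor_add_one _).le
  have p20 : 1 ≤ h ^ 20 := one_le_pow₀ hh1
  have p50 : 1 ≤ h ^ 50 := one_le_pow₀ hh1
  have p80 : 1 ≤ h ^ 80 := one_le_pow₀ hh1
  have hJ : h ^ 20 ≤ ⌈h ^ 20⌉₊ := Nat.le_ceil _
  have hJ' := (Nat.ceil_lt_add_one (show 0 ≤ h ^ 20 by positivity)).le
  have hM' := (Nat.ceil_lt_add_one (show 0 ≤ h ^ 50 by positivity)).le
  have hl' := (Nat.ceil_lt_add_one (show 0 ≤ 2 * h ^ 80 by positivity)).le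
  have hL : ((⌈2 * h ^ 80⌉₊ * ⌈h ^ 50⌉₊ ^ m : ℕ) : ℝ) ≤ Real.exp y / 2 := by
    have e1 : (⌈h ^ 50⌉₊ : ℝ) ≤ Real.exp (101 / 2 * g) := by
      have : Real.exp (101 / 2 * g) = Real.exp (g / 2) * h ^ 50 := by
        rw [hpow, ← Real.exp_add]; congr 1; push_cast; ring
      rw [this]; nlinarith
    have e2 : (2 * ⌈2 * h ^ 80⌉₊ : ℝ) ≤ Real.exp (81 * h) := by
      have a1 : g ≤ h := Real.log_le_self hpos.le
      have a2 : h ^ 80 ≤ Real.exp (80 * h) := by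
        rw [hpow]; gcongr; norm_num
      have a3 := Real.add_one_le_exp h
      have : Real.exp (81 * h) = Real.exp h * Real.exp (80 * h) := by
        rw [← Real.exp_add]; congr 1; ring
      rw [this]; nlinarith
    rw [le_div_iff₀ two_pos]
    push_cast
    calc _ = (2 * ⌈2 * h ^ 80⌉₊ : ℝ) * (⌈h ^ 50⌉₊ : ℝ) ^ m := by ring
      _ ≤ Real.exp (81 * h) * Real.exp (101 / 2 * g) ^ m := by gcongr
      _ ≤ _ := by
        rw [← Real.exp_nat_mul, ← Real.exp_add, Real.exp_le_exp]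
        nlinarith
  have ha : (1 / (⌈h ^ 20⌉₊ : ℝ) + 2 * (1 / h ^ 10) ^ 2) ≤ 3 / h ^ 20 := by
    have : (1 / (⌈h ^ 20⌉₊ : ℝ)) ≤ 1 / h ^ 20 := by gcongr
    have e : 3 / h ^ 20 = 1 / h ^ 20 + 2 * (1 / h ^ 10) ^ 2 := by field_simp; norm_num
    linarith
  have ha2 : 3 / h ^ 20 ≤ 1 / 2 := by
    have : h ≤ h ^ 20 := le_self_pow₀ hh1 (by norm_num)
    rw [div_le_iff₀ (by positivity)]; linarith
  have hJ1 : 1 ≤ ⌈h ^ 20⌉₊ := by exact_mod_cast p20.trans hJ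
  have hc := iter (hG.nonempty hP1) (hE h hh0 P S hP hG) h100 hD1 hD hJ1 hJ' hy0 hy2
    (Nat.le_ceil _) (Nat.le_ceil _) ha ha2 m (by have := Real.exp_pos y; linarith)
  refine (hc.mono le_rfl ?_).biasLe (Real.exp_pos _).le (by exact_mod_cast hL.trans hk)
  have e1 : 3 / h ^ 20 ≤ Real.exp (-(39 / 2 * g)) := by
    have : Real.exp (-(39 / 2 * g)) = Real.exp (g / 2) / h ^ 20 := by
      rw [hpow, ← Real.exp_sub]; congr 1; push_cast; ring
    rw [this]; gcongr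
  have e2 : (3 / h ^ 20) ^ (m + 1) ≤ Real.exp (-(38 / 100 * y)) := by
    refine (pow_le_pow_left₀ (by positivity) e1 _).trans ?_
    rw [← Real.exp_nat_mul, Real.exp_le_exp]
    push_cast
    nlinarith
  have e3 : Real.exp (-y) ≤ Real.exp (-(38 / 100 * y)) := Real.exp_le_exp.2 (by linarith)
  have e4 : Real.exp (-(18 / 100 * y)) ^ 2 =
      Real.exp (2 / 100 * y) * Real.exp (-(38 / 100 * y)) := by
    rw [← Real.exp_nat_mul, ← Real.exp_add]; congr 1; push_cast; ring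
  have e5 := Real.add_one_le_exp (2 / 100 * y)
  have e6 := Real.exp_pos (-(38 / 100 * y))
  rw [e4]
  nlinarith

end Crest.Agent.R2
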