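import Crest.Agent.R2.Basic

/-! Tree recursion for the bias bound: the product lemma and the one-level step. -/

set_option autoImplicit false

open Finset
open scoped Pointwise Classical

namespace Crest.Agent.R2.Bias

theorem sum_pi_prod {σ : Type} [Fintype σ] (J : ℕ) (g : Fin J → σ → ℂ) :
    ∑ F : Fin J → σ, ∏ j, g j (F j) = ∏ j, ∑ x, g j x := by
  rw [Finset.prod_univ_sum, Fintype.piFinset_univ]

theorem sum_pi_weight {σ : Type} [Fintype σ] (J : ℕ) (π : σ → ℝ) (hπ : ∑ x, π x = 1) :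
    ∑ F : Fin J → σ, ∏ j, π (F j) = 1 := by
  rw [← Fintype.piFinset_univ, ← Finset.prod_univ_sum]
  simp [hπ]

theorem sum_pi_eval {σ : Type} [Fintype σ] (J : ℕ) (π : σ → ℝ) (hπ : ∑ x, π x = 1) (f : σ → ℂ)
    (i : Fin J) :
    ∑ F : Fin J → σ, ((∏ j, π (F j) : ℝ) : ℂ) * f (F i) = ∑ x, (π x : ℂ) * f x := by
  have hπ' : ∑ x, (π x : ℂ) = 1 := by exact_mod_cast hπ
  have := sum_pi_prod J (fun j x => (π x : ℂ) * if j = i then f x else 1)
  simp only [prod_mul_distrib, prod_ite_eq', mem_univ, if_true] at this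
  push_cast
  rw [this, prod_eq_single i]
  · simp
  · intro j _ hj; simp [hj, hπ']
  · simp

theorem sum_pi_eval₂ {σ : Type} [Fintype σ] (J : ℕ) (π : σ → ℝ) (hπ : ∑ x, π x = 1)
    (f g : σ → ℂ) {i i' : Fin J} (h : i ≠ i') :
    ∑ F : Fin J → σ, ((∏ j, π (F j) : ℝ) : ℂ) * (f (F i) * g (F i')) =
      (∑ x, (π x : ℂ) * f x) * ∑ x, (π x : ℂ) * g x := by
  have hπ' : ∑ x, (π x : ℂ) = 1 := by exact_mod_cast hπ
  have := sum_pi_prod J
    (fun j x => (π x : ℂ) * ((if j = i then f x else 1) * (if j = i' then g x else 1)))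
  simp only [prod_mul_distrib, prod_ite_eq', mem_univ, if_true] at this
  push_cast
  rw [this, ← prod_erase_mul _ _ (mem_univ i), ← prod_erase_mul _ _
    (mem_erase.2 ⟨h.symm, mem_univ i'⟩), prod_eq_one]
  · simp [h, h.symm, mul_comm]
  · intro j hj
    have h1 : j ≠ i' := (mem_erase.1 hj).1
    have h2 : j ≠ i := (mem_erase.1 (mem_erase.1 hj).2).1
    simp [h1, h2, hπ']

/-- second moment of an empirical mean -/
theorem sum_pi_sq {σ : Type} [Fintype σ] (J : ℕ) (hJ : 1 ≤ J) (π : σ → ℝ)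
    (hπ : ∑ x, π x = 1) (f : σ → ℂ) :
    ∑ F : Fin J → σ, (∏ j, π (F j)) * ‖(∑ j, f (F j)) / J‖ ^ 2 ≤
      1 / J * ∑ x, π x * ‖f x‖ ^ 2 + ‖∑ x, (π x : ℂ) * f x‖ ^ 2 := by
  set m : ℂ := ∑ x, (π x : ℂ) * f x with hm
  set v : ℝ := ∑ x, π x * ‖f x‖ ^ 2 with hv
  have hJ0 : (0 : ℝ) < J := by exact_mod_cast hJ
  have key : ∑ F : Fin J → σ, (∏ j, π (F j)) * ‖∑ j, f (F j)‖ ^ 2 =
      J * v + J * (J - 1) * ‖m‖ ^ 2 := by
    have h1 : ∀ F : Fin J → σ, ((((∏ j, π (F j)) * ‖∑ j, f (F j)‖ ^ 2 : ℝ)) : ℂ) =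
        ∑ i, ∑ i', ((∏ j, π (F j) : ℝ) : ℂ) * (f (F i) * (starRingEnd ℂ) (f (F i'))) := by
      intro F
      rw [Complex.ofReal_mul, Complex.ofReal_pow, ← Complex.mul_conj', map_sum, sum_mul_sum]
      simp only [mul_sum]
    have h2 : ∀ i i' : Fin J, ∑ F : Fin J → σ,
        ((∏ j, π (F j) : ℝ) : ℂ) * (f (F i) * (starRingEnd ℂ) (f (F i'))) =
        if i = i' then (v : ℂ) else ((‖m‖ ^ 2 : ℝ) : ℂ) := by
      intro i i'
      split_ifs with h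
      · subst h
        rw [sum_pi_eval J π hπ (fun x => f x * (starRingEnd ℂ) (f x)) i, hv]
        push_cast
        exact sum_congr rfl fun x _ => by rw [Complex.mul_conj']
      · rw [sum_pi_eval₂ J π hπ f (fun x => (starRingEnd ℂ) (f x)) h, Complex.ofReal_pow,
          ← Complex.mul_conj', hm, map_sum]
        congr 1
        exact sum_congr rfl fun x _ => by simp
    have h3 : ∀ i : Fin J, ∑ i' : Fin J, (if i = i' then (v : ℂ) else ((‖m‖ ^ 2 : ℝ) : ℂ)) =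
        v + (J - 1) * ((‖m‖ ^ 2 : ℝ) : ℂ) := by
      intro i
      have : ∀ i' : Fin J, (if i = i' then (v : ℂ) else ((‖m‖ ^ 2 : ℝ) : ℂ)) =
          ((‖m‖ ^ 2 : ℝ) : ℂ) + if i = i' then (v : ℂ) - ((‖m‖ ^ 2 : ℝ) : ℂ) else 0 := by
        intro i'; split_ifs <;> ring
      simp only [this, sum_add_distrib, sum_ite_eq, mem_univ, if_true, sum_const, card_univ,
        Fintype.card_fin, nsmul_eq_mul]
      ring
    apply Complex.ofReal_injective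
    rw [Complex.ofReal_sum]
    simp only [h1]
    rw [sum_comm]
    simp only [sum_comm (s := (univ : Finset (Fin J → σ))), h2, h3, sum_const, card_univ,
      Fintype.card_fin, nsmul_eq_mul]
    push_cast; ring
  have h4 : ∀ F : Fin J → σ, (∏ j, π (F j)) * ‖(∑ j, f (F j)) / J‖ ^ 2 =
      (∏ j, π (F j)) * ‖∑ j, f (F j)‖ ^ 2 / J ^ 2 := by
    intro F
    rw [norm_div, div_pow, Complex.norm_natCast]; ring
  simp only [h4]
  rw [← sum_div, key, div_le_iff₀ (by positivity)]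
  have : 0 ≤ J * ‖m‖ ^ 2 := by positivity
  have e : (1 / J * v + ‖m‖ ^ 2) * J ^ 2 = J * v + J * J * ‖m‖ ^ 2 := by field_simp
  rw [e]; nlinarith

theorem sq_sum_weight_le {σ : Type} [Fintype σ] (π : σ → ℝ) (h0 : ∀ x, 0 ≤ π x)
    (hπ : ∑ x, π x = 1) (g : σ → ℝ) : (∑ x, π x * g x) ^ 2 ≤ ∑ x, π x * g x ^ 2 := by
  have := sum_mul_sq_le_sq_mul_sq univ (fun x => √(π x)) (fun x => √(π x) * g x)
  have e1 : ∀ x, √(π x) * (√(π x) * g x) = π x * g x := fun x => by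
    rw [← mul_assoc, Real.mul_self_sqrt (h0 x)]
  have e2 : ∀ x, √(π x) ^ 2 = π x := fun x => Real.sq_sqrt (h0 x)
  have e3 : ∀ x, (√(π x) * g x) ^ 2 = π x * g x ^ 2 := fun x => by rw [mul_pow, e2]
  simpa only [e1, e2, e3, hπ, one_mul] using this

theorem norm_sum_weight_sq_le {σ : Type} [Fintype σ] (π : σ → ℝ) (h0 : ∀ x, 0 ≤ π x)
    (hπ : ∑ x, π x = 1) (f : σ → ℂ) :
    ‖∑ x, (π x : ℂ) * f x‖ ^ 2 ≤ ∑ x, π x * ‖f x‖ ^ 2 := by
  refine le_trans ?_ (sq_sum_weight_le π h0 hπ (fun x => ‖f x‖))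
  gcongr
  refine (norm_sum_le _ _).trans (le_of_eq (sum_congr rfl fun x _ => ?_))
  rw [norm_mul, Complex.norm_real, Real.norm_of_nonneg (h0 x)]

/-- the inductive claim -/
def Claim (D : ℕ) (S : Finset SPrime) (l : ℕ) (N b2 : ℝ) : Prop :=
  ∃ (τ : Type) (_ : Fintype τ) (ev : τ → (p : SPrime) → ZMod p.1 → ℂ),
    (Fintype.card τ : ℝ) ≤ N ∧ (∀ x p ξ, ‖ev x p ξ‖ ≤ 1) ∧
    ∀ z : ℕ → GI, IsPath D z (2 ^ l) → ∃ π : τ → ℝ, (∀ x, 0 ≤ π x) ∧ ∑ x, π x = 1 ∧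
      (∀ p ξ, ∑ x, (π x : ℂ) * ev x p ξ = (∑ n ∈ range (2 ^ l), chi p ξ (z n - z 0)) / 2 ^ l) ∧
      ∀ ξ : (p : SPrime) → ZMod p.1, (∀ p ∈ S, ξ p ≠ 0) →
        avg S (fun p => ∑ x, π x * ‖ev x p (ξ p)‖ ^ 2) ≤ b2

theorem claim_zero (D : ℕ) {S : Finset SPrime} (hS : S.Nonempty) : Claim D S 0 1 1 := by
  refine ⟨Unit, inferInstance, fun _ _ _ => 1, by simp, by simp, fun z _ => ⟨fun _ => 1, by simp,
    by simp, fun p ξ => by simp [chi], fun ξ _ => ?_⟩⟩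
  simp [avg_const hS]

theorem Claim.mono {D : ℕ} {S : Finset SPrime} {l : ℕ} {N N' b b' : ℝ} (h : Claim D S l N b)
    (hN : N ≤ N') (hb : b ≤ b') : Claim D S l N' b' := by
  obtain ⟨τ, _, ev, h1, h2, h3⟩ := h
  refine ⟨τ, inferInstance, ev, h1.trans hN, h2, fun z hz => ?_⟩
  obtain ⟨π, a1, a2, a3, a4⟩ := h3 z hz
  exact ⟨π, a1, a2, a3, fun ξ hξ => (a4 ξ hξ).trans hb⟩

theorem block_path {D l l' : ℕ} (hl : l ≤ l') {z : ℕ → GI} (hz : IsPath D z (2 ^ l')) {β : ℕ}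
    (hβ : β < 2 ^ (l' - l)) : IsPath D (fun t => z (β * 2 ^ l + t)) (2 ^ l) := by
  refine hz.shift _ _ ?_
  have : 2 ^ l' = 2 ^ (l' - l) * 2 ^ l := by rw [← pow_add, Nat.sub_add_cancel hl]
  rw [this, ← Nat.succ_mul]
  exact Nat.mul_le_mul_right _ hβ

theorem Claim.biasLe {D : ℕ} {S : Finset SPrime} {l k : ℕ} {N b : ℝ} (h : Claim D S l N (b ^ 2))
    (hb : 0 ≤ b) (hl : l ≤ k) : BiasLe D S k b := by
  obtain ⟨τ, _, ev, -, -, h3⟩ := h
  intro z hz ξ hξ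
  have hI : (range (2 ^ (k - l))).Nonempty := ⟨0, by simp⟩
  choose π a1 a2 a3 a4 using fun β : range (2 ^ (k - l)) =>
    h3 _ (block_path hl hz (mem_range.1 β.2))
  set Y : SPrime → ℕ → ℝ := fun p β =>
    ‖∑ t ∈ range (2 ^ l), chi p (ξ p) (z (β * 2 ^ l + t))‖ / 2 ^ l with hY
  have hk : 2 ^ k = 2 ^ (k - l) * 2 ^ l := by rw [← pow_add, Nat.sub_add_cancel hl]
  have h1 : ∀ p, ‖∑ n ∈ range (2 ^ k), chi p (ξ p) (z n)‖ / 2 ^ k ≤
      avg (range (2 ^ (k - l))) (Y p) := by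
    intro p
    have hk' : (2 : ℝ) ^ k = 2 ^ (k - l) * 2 ^ l := by exact_mod_cast hk
    rw [hk, sum_range_mul, hk', avg, card_range, hY, ← sum_div]
    push_cast
    rw [div_div, mul_comm ((2 : ℝ) ^ l)]
    gcongr
    exact norm_sum_le _ _
  have h2 : ∀ β ∈ range (2 ^ (k - l)), avg S (fun p => Y p β ^ 2) ≤ b ^ 2 := by
    intro β hβ
    refine le_trans (avg_le_avg fun p _ => ?_) (a4 ⟨β, hβ⟩ ξ hξ)
    refine le_trans (le_of_eq ?_) (norm_sum_weight_sq_le _ (a1 ⟨β, hβ⟩) (a2 ⟨β, hβ⟩) _)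
    rw [a3 ⟨β, hβ⟩ p (ξ p)]
    simp only [chi_sub, ← sum_mul, norm_div, norm_mul, Complex.norm_conj, norm_chi, mul_one, hY]
    simp
  refine (avg_le_avg fun p _ => h1 p).trans ?_
  refine (abs_le_of_sq_le_sq' ?_ hb).2
  refine (avg_sq_le _ _).trans ((avg_le_avg fun p _ => avg_sq_le _ _).trans ?_)
  rw [avg_comm]
  exact avg_le_of_le hI h2

end Crest.Agent.R2.Bias
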