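import Crest.Agent.R2.Bias1

/-! The one-level step of the tree recursion. -/

set_option autoImplicit false

open Finset
open scoped Pointwise Classical

namespace Crest.Agent.R2.Bias

/-- the hypothesis supplied by `ECoreStmt` -/
def Hyp (S : Finset SPrime) (ε b0 R2 L : ℝ) : Prop :=
  ∀ T ⊆ S, ε * S.card ≤ T.card → ∀ (ξ : (p : SPrime) → ZMod p.1) (e : SPrime → ℂ)
    (Z : Finset GI), (∀ p ∈ T, ξ p ≠ 0 ∧ ‖e p‖ ≤ 1) → (∀ z ∈ Z, (z.norm : ℝ) ≤ R2) →
    (∀ z ∈ Z, b0 / 2 ≤ avg T (fun p => (e p * chi p (ξ p) z).re)) → (Z.card : ℝ) < L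

theorem heavy {S : Finset SPrime} {ε b0 R2 L : ℝ} (H : Hyp S ε b0 R2 L) (hε : 0 ≤ ε)
    (hb : 0 ≤ b0) {ι : Type} [Fintype ι] (w : ι → ℝ) (hw0 : ∀ β, 0 ≤ w β) (hw1 : ∀ β, w β ≤ 1)
    (d : ι → GI) (hd : Function.Injective d) (hR : ∀ β, ((d β).norm : ℝ) ≤ R2)
    (hL : L ≤ b0 / 2 * ∑ β, w β) (ξ : (p : SPrime) → ZMod p.1) (hξ : ∀ p ∈ S, ξ p ≠ 0) :
    ((S.filter (fun p => b0 * ∑ β, w β < ‖∑ β, (w β : ℂ) * chi p (ξ p) (d β)‖)).card : ℝ) ≤
      ε * S.card := by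
  by_contra hc
  push Not at hc
  set c : SPrime → ℂ := fun p => ∑ β, (w β : ℂ) * chi p (ξ p) (d β) with hcdef
  set T := S.filter (fun p => b0 * ∑ β, w β < ‖c p‖) with hT
  have hTne : T.Nonempty := by
    rw [← card_pos]
    have : (0 : ℝ) < T.card := lt_of_le_of_lt (by positivity) hc
    exact_mod_cast this
  set e : SPrime → ℂ := fun p => (starRingEnd ℂ) (c p) / ‖c p‖ with he
  have he1 : ∀ p, ‖e p‖ ≤ 1 := fun p => by
    rw [he]; simp only [norm_div, Complex.norm_conj, Complex.norm_real, norm_norm]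
    exact div_self_le_one _
  have he2 : ∀ p, (e p * c p).re = ‖c p‖ := fun p => by
    rw [he]; simp only
    rcases eq_or_ne (c p) 0 with h | h
    · simp [h]
    · have h' : (‖c p‖ : ℂ) ≠ 0 := by simpa using h
      rw [div_mul_eq_mul_div, Complex.conj_mul', pow_two, mul_div_assoc, div_self h', mul_one,
        Complex.ofReal_re]
  set g : ι → ℝ := fun β => avg T (fun p => (e p * chi p (ξ p) (d β)).re) with hg
  have hg1 : ∀ β, g β ≤ 1 := fun β => avg_le_of_le hTne fun p _ => by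
    refine (Complex.re_le_norm _).trans ?_
    rw [norm_mul, norm_chi, mul_one]; exact he1 p
  have h1 : b0 * ∑ β, w β ≤ ∑ β, w β * g β := by
    have : ∑ β, w β * g β = avg T (fun p => (e p * c p).re) := by
      simp only [hg, ← avg_mul_left, ← avg_sum, hcdef, mul_sum, Complex.re_sum]
      refine avg_congr fun p _ => sum_congr rfl fun β _ => ?_
      rw [mul_left_comm, Complex.re_ofReal_mul]
    rw [this]
    exact le_avg_of_le hTne fun p hp => by rw [he2]; exact (mem_filter.1 hp).2.le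
  set B := univ.filter (fun β => b0 / 2 ≤ g β) with hB
  have h2 : ∑ β, w β * g β ≤ B.card + b0 / 2 * ∑ β, w β := by
    rw [hB, card_filter, mul_sum]
    push_cast
    rw [← sum_add_distrib]
    refine sum_le_sum fun β _ => ?_
    have := hw0 β; have := hw1 β; have := hg1 β
    split_ifs with h
    · nlinarith
    · push Not at h; nlinarith
  have h3 := H T (filter_subset _ _) hc.le ξ e (B.image d)
    (fun p hp => ⟨hξ p (mem_filter.1 hp).1, he1 p⟩)
    (fun z hz => by obtain ⟨β, -, rfl⟩ := mem_image.1 hz; exact hR β)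
    (fun z hz => by obtain ⟨β, hβ, rfl⟩ := mem_image.1 hz; exact (mem_filter.1 hβ).2)
  rw [card_image_of_injective _ hd] at h3
  linarith

theorem split_sq {τ : Type} [Fintype τ] (Q : τ → ℝ) (h0 : ∀ x, 0 ≤ Q x) (h1 : ∑ x, Q x = 1)
    (c ev : τ → ℂ) (hc : ∀ x, ‖c x‖ ≤ Q x) (hev : ∀ x, ‖ev x‖ ≤ 1) {b0 : ℝ} (hb : 0 ≤ b0) :
    ‖∑ x, ev x * c x‖ ^ 2 ≤ 2 * b0 ^ 2 * ∑ x, Q x * ‖ev x‖ ^ 2 +
      2 * ∑ x, (if b0 * Q x < ‖c x‖ then Q x else 0) := by
  set A := ∑ x, Q x * ‖ev x‖ with hA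
  set B := ∑ x, (if b0 * Q x < ‖c x‖ then Q x else 0) with hB
  have hB0 : 0 ≤ B := sum_nonneg fun x _ => by split_ifs; exacts [h0 x, le_rfl]
  have hB1 : B ≤ 1 := h1 ▸ sum_le_sum fun x _ => by split_ifs; exacts [le_rfl, h0 x]
  have h2 : ‖∑ x, ev x * c x‖ ≤ b0 * A + B := by
    rw [hA, hB, mul_sum, ← sum_add_distrib]
    refine (norm_sum_le _ _).trans (sum_le_sum fun x _ => ?_)
    rw [norm_mul]
    have := hc x; have := hev x; have := h0 x; have := norm_nonneg (ev x)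
    have := norm_nonneg (c x)
    split_ifs with h
    · have : 0 ≤ b0 * (Q x * ‖ev x‖) := by positivity
      nlinarith
    · push Not at h; nlinarith
  have h3 : A ^ 2 ≤ ∑ x, Q x * ‖ev x‖ ^ 2 := sq_sum_weight_le Q h0 h1 _
  have h4 := pow_le_pow_left₀ (norm_nonneg _) h2 2
  have h5 : b0 ^ 2 * A ^ 2 ≤ b0 ^ 2 * ∑ x, Q x * ‖ev x‖ ^ 2 := by gcongr
  nlinarith [sq_nonneg (b0 * A - B)]

theorem avg_bad_le {S : Finset SPrime} {τ : Type} [Fintype τ] (Q : τ → ℝ) (h0 : ∀ x, 0 ≤ Q x)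
    (h1 : ∑ x, Q x = 1) {ε N : ℝ} (hε : 0 ≤ ε) (hN : 0 < N) (hτ : (Fintype.card τ : ℝ) ≤ N)
    (bad : SPrime → τ → Prop)
    (hbad : ∀ x, ε / N ≤ Q x → ((S.filter (fun p => bad p x)).card : ℝ) ≤ ε * S.card) :
    avg S (fun p => ∑ x, if bad p x then Q x else 0) ≤ 2 * ε := by
  rcases S.eq_empty_or_nonempty with rfl | hS
  · simp [avg, hε]
  have hc : (0 : ℝ) < S.card := by exact_mod_cast hS.card_pos
  rw [avg_sum]
  have h2 : ∀ x, avg S (fun p => if bad p x then Q x else 0) ≤ ε / N + ε * Q x := by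
    intro x
    have := h0 x
    by_cases h : ε / N ≤ Q x
    · have h3 := hbad x h
      rw [avg, ← sum_filter, sum_const, nsmul_eq_mul, div_le_iff₀ hc]
      have : 0 ≤ ε / N * S.card := by positivity
      nlinarith
    · refine avg_le_of_le hS fun p _ => ?_
      have : 0 ≤ ε * Q x := by positivity
      have : 0 ≤ ε / N := by positivity
      split_ifs <;> linarith
  refine (sum_le_sum fun x _ => h2 x).trans ?_
  rw [sum_add_distrib, ← mul_sum, h1, sum_const, card_univ, nsmul_eq_mul]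
  have : (Fintype.card τ : ℝ) * (ε / N) ≤ ε := by
    rw [mul_div_assoc', div_le_iff₀ hN]; nlinarith
  linarith

/-- mixture of the label laws, remembering the block start -/
noncomputable def mix {ι B τ : Type} [Fintype ι] (d : ι → B) (π : ι → τ → ℝ) (y : B × τ) : ℝ :=
  (∑ β, if d β = y.1 then π β y.2 else 0) / Fintype.card ι

theorem sum_mix {ι B τ M : Type} [Fintype ι] [Fintype B] [Fintype τ] [AddCommGroup M] [Module ℝ M]
    (d : ι → B) (π : ι → τ → ℝ) (F : B × τ → M) :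
    ∑ y, mix d π y • F y = ((Fintype.card ι : ℝ)⁻¹) • ∑ β, ∑ x, π β x • F (d β, x) := by
  simp only [mix, div_eq_inv_mul, mul_smul, ← smul_sum, sum_smul, ite_smul, zero_smul]
  congr 1
  rw [sum_comm]
  refine sum_congr rfl fun β _ => ?_
  rw [Fintype.sum_prod_type, sum_comm]
  simp

theorem step {D l l' J : ℕ} {S : Finset SPrime} {N b2 b0 ε : ℝ} (h : Claim D S l N b2)
    (hl : l ≤ l') (hJ : 1 ≤ J) (hb : 0 ≤ b0) (hε : 0 ≤ ε) (hN : 0 < N)
    (H : Hyp S ε b0 (((D : ℝ) * 2 ^ l') ^ 2) (b0 / 2 * (2 ^ (l' - l) * (ε / N)))) :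
    Claim D S l' ((((2 * (D * 2 ^ l') + 1) ^ 2 : ℝ) * N) ^ J)
      ((1 / J + 2 * b0 ^ 2) * b2 + 4 * ε) := by
  obtain ⟨τ, _, ev, hτ, hev, h3⟩ := h
  have hJ0 : (0 : ℝ) < J := by exact_mod_cast hJ
  let t : ↥(ball (D * 2 ^ l')) × τ → (p : SPrime) → ZMod p.1 → ℂ :=
    fun y p ξ => chi p ξ y.1 * ev y.2 p ξ
  have ht : ∀ y p ξ, ‖t y p ξ‖ = ‖ev y.2 p ξ‖ := fun y p ξ => by
    simp only [t, norm_mul, norm_chi, one_mul]
  refine ⟨Fin J → ↥(ball (D * 2 ^ l')) × τ, inferInstance, fun F p ξ => (∑ j, t (F j) p ξ) / J,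
    ?_, fun F p ξ => ?_, fun z hz => ?_⟩
  · simp only [Fintype.card_fun, Fintype.card_prod, Fintype.card_coe, card_ball, Fintype.card_fin]
    push_cast
    gcongr
  · rw [norm_div, Complex.norm_natCast, div_le_one hJ0]
    refine (norm_sum_le _ _).trans ((sum_le_sum fun j _ => (ht _ p ξ).le.trans (hev _ _ _)).trans ?_)
    simp
  choose π a1 a2 a3 a4 using fun β : Fin (2 ^ (l' - l)) => h3 _ (block_path hl hz β.2)
  have hk : 2 ^ l' = 2 ^ (l' - l) * 2 ^ l := by rw [← pow_add, Nat.sub_add_cancel hl]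
  have hlt : ∀ β : Fin (2 ^ (l' - l)), (β : ℕ) * 2 ^ l < 2 ^ l' := fun β => by
    rw [hk]; exact Nat.mul_lt_mul_of_pos_right β.2 (by positivity)
  have hpos : 0 < 2 ^ l' := by positivity
  let d : Fin (2 ^ (l' - l)) → ↥(ball (D * 2 ^ l')) := fun β =>
    ⟨z (β * 2 ^ l) - z 0, hz.sub_mem_ball (hlt β) hpos (by have := hlt β; omega) (by omega)⟩
  set I : ℝ := ((Fintype.card (Fin (2 ^ (l' - l))) : ℕ) : ℝ) with hI
  have hI2 : I = 2 ^ (l' - l) := by simp [hI]
  have hI0 : 0 < I := by rw [hI2]; positivity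
  have m0 : ∀ y, 0 ≤ mix d π y := fun y =>
    div_nonneg (sum_nonneg fun β _ => by split_ifs; exacts [a1 _ _, le_rfl]) hI0.le
  have m1 : ∑ y, mix d π y = 1 := by
    have := sum_mix d π (fun _ => (1 : ℝ))
    simp only [smul_eq_mul, mul_one, a2, sum_const, card_univ, nsmul_eq_mul] at this
    rw [this, inv_mul_cancel₀ hI0.ne']
  have m2 : ∀ p ξ, ∑ y, (mix d π y : ℂ) * t y p ξ =
      (I : ℂ)⁻¹ * ∑ β, ∑ x, (π β x : ℂ) * (chi p ξ (d β) * ev x p ξ) := fun p ξ => by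
    have := sum_mix d π (fun y => t y p ξ)
    simpa only [Complex.real_smul, Complex.ofReal_inv] using this
  refine ⟨fun F => ∏ j, mix d π (F j), fun F => prod_nonneg fun j _ => m0 _,
    sum_pi_weight J _ m1, fun p ξ => ?_, fun ξ hξ => ?_⟩
  · have hJc : (J : ℂ) ≠ 0 := by exact_mod_cast hJ0.ne'
    simp only [← mul_div_assoc, ← sum_div, mul_sum]
    rw [sum_comm]
    simp only [sum_pi_eval J _ m1 (fun y => t y p ξ), m2, sum_const, card_univ, Fintype.card_fin,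
      nsmul_eq_mul]
    rw [mul_div_cancel_left₀ _ hJc]
    have e1 : ∀ β : Fin (2 ^ (l' - l)), ∑ x, (π β x : ℂ) * (chi p ξ (d β) * ev x p ξ) =
        (∑ n ∈ range (2 ^ l), chi p ξ (z (β * 2 ^ l + n) - z 0)) / 2 ^ l := fun β => by
      simp only [mul_left_comm (π β _ : ℂ), ← mul_sum, a3 β p ξ]
      rw [← mul_div_assoc, mul_sum]
      congr 1
      refine sum_congr rfl fun n _ => ?_
      rw [← chi_add]; congr 1; simp [d]
    simp only [e1, ← sum_div]
    rw [Fin.sum_univ_eq_sum_range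
      (fun β => ∑ n ∈ range (2 ^ l), chi p ξ (z (β * 2 ^ l + n) - z 0)), hI2]
    conv_rhs => rw [hk, sum_range_mul]
    have hk' : (2 : ℂ) ^ l' = 2 ^ (l' - l) * 2 ^ l := by exact_mod_cast hk
    rw [hk']
    push_cast
    field_simp
  set Q : τ → ℝ := fun x => I⁻¹ * ∑ β, π β x with hQ
  set c : SPrime → τ → ℂ := fun p x => (I : ℂ)⁻¹ * ∑ β, (π β x : ℂ) * chi p (ξ p) (d β) with hc
  have q0 : ∀ x, 0 ≤ Q x := fun x => mul_nonneg (inv_nonneg.2 hI0.le) (sum_nonneg fun β _ => a1 _ _)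
  have q1 : ∑ x, Q x = 1 := by
    simp only [hQ, ← mul_sum]
    rw [sum_comm]
    simp only [a2, sum_const, card_univ, nsmul_eq_mul, mul_one]
    exact inv_mul_cancel₀ hI0.ne'
  have hcn : ∀ p x, ‖c p x‖ = I⁻¹ * ‖∑ β, (π β x : ℂ) * chi p (ξ p) (d β)‖ := fun p x => by
    simp only [hc, norm_mul, norm_inv, Complex.norm_real, Real.norm_of_nonneg hI0.le]
  have q2 : ∀ p x, ‖c p x‖ ≤ Q x := fun p x => by
    rw [hcn, hQ]
    refine mul_le_mul_of_nonneg_left ((norm_sum_le _ _).trans (sum_le_sum fun β _ => ?_))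
      (inv_nonneg.2 hI0.le)
    rw [norm_mul, norm_chi, mul_one, Complex.norm_real, Real.norm_of_nonneg (a1 _ _)]
  have q3 : ∀ p, ∑ y, mix d π y * ‖t y p (ξ p)‖ ^ 2 = ∑ x, Q x * ‖ev x p (ξ p)‖ ^ 2 := fun p => by
    have := sum_mix d π (fun y => ‖t y p (ξ p)‖ ^ 2)
    simp only [smul_eq_mul, ht] at this
    simp only [ht, this, hQ, mul_assoc, ← mul_sum, sum_mul]
    rw [sum_comm]
  have q4 : ∀ p, ∑ y, (mix d π y : ℂ) * t y p (ξ p) = ∑ x, ev x p (ξ p) * c p x := fun p => by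
    rw [m2, sum_comm, mul_sum]
    refine sum_congr rfl fun x _ => ?_
    simp only [hc, mul_sum]
    exact sum_congr rfl fun β _ => by ring
  have q5 : avg S (fun p => ∑ x, Q x * ‖ev x p (ξ p)‖ ^ 2) ≤ b2 := by
    have : ∀ p, ∑ x, Q x * ‖ev x p (ξ p)‖ ^ 2 = I⁻¹ * ∑ β, ∑ x, π β x * ‖ev x p (ξ p)‖ ^ 2 :=
      fun p => by
        simp only [hQ, mul_assoc, ← mul_sum, sum_mul]
        rw [sum_comm]
    simp only [this]
    rw [avg_mul_left, avg_sum, inv_mul_le_iff₀ hI0]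
    refine (sum_le_sum fun β _ => a4 β ξ hξ).trans ?_
    simp [hI]
  have q6 : avg S (fun p => ∑ x, if b0 * Q x < ‖c p x‖ then Q x else 0) ≤ 2 * ε := by
    refine avg_bad_le Q q0 q1 hε hN hτ (fun p x => b0 * Q x < ‖c p x‖) fun x hx => ?_
    have := heavy H hε hb (fun β => π β x) (fun β => a1 _ _)
      (fun β => (a2 β) ▸ single_le_sum (fun y _ => a1 β y) (mem_univ x)) (fun β => (d β : GI))
      (fun β β' e => ?_) (fun β => ?_) ?_ ξ hξ
    · refine le_trans (le_of_eq ?_) this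
      congr 2
      refine filter_congr fun p _ => ?_
      rw [hcn, hQ, mul_left_comm, mul_lt_mul_iff_right₀ (inv_pos.2 hI0)]
    · have e' : z (β * 2 ^ l) = z (β' * 2 ^ l) := by simpa [d] using e
      have := (hz _ (hlt β) _ (hlt β')).1 e'
      exact Fin.ext (Nat.eq_of_mul_eq_mul_right (by positivity) this)
    · have := hz.norm_le (m := 2 ^ l') (hlt β) hpos (by have := hlt β; omega) (by omega)
      exact_mod_cast this
    · rw [← hI2]
      rw [hQ, le_inv_mul_iff₀ hI0] at hx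
      gcongr
  calc _ ≤ avg S (fun p => (1 / J + 2 * b0 ^ 2) * (∑ x, Q x * ‖ev x p (ξ p)‖ ^ 2) +
        2 * ∑ x, if b0 * Q x < ‖c p x‖ then Q x else 0) := by
        refine avg_le_avg fun p _ =>
          (sum_pi_sq J hJ _ m1 (fun y => t y p (ξ p))).trans ?_
        rw [q3, q4]
        have := split_sq Q q0 q1 (c p) (fun x => ev x p (ξ p)) (q2 p) (fun x => hev _ _ _) hb
        linarith
    _ ≤ _ := by
        rw [avg_add, avg_mul_left, avg_mul_left]
        have : (1 / J + 2 * b0 ^ 2) * avg S (fun p => ∑ x, Q x * ‖ev x p (ξ p)‖ ^ 2) ≤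
          (1 / J + 2 * b0 ^ 2) * b2 := by gcongr
        linarith

end Crest.Agent.R2.Bias
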