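import Crest.Agent.R2.Basic

/-! Row 2: the clique lemma. -/

set_option autoImplicit false

open Finset
open scoped Pointwise Classical

namespace Crest.Agent.R2

namespace Clique

/-- a generator of the kernel of `res p` -/
noncomputable def piOf (p : SPrime) : GI := (exists_pi p).choose

lemma norm_piOf (p : SPrime) : (piOf p).norm = p.1 := (exists_pi p).choose_spec.1

lemma exists_quot {p : SPrime} {v w : GI} (h : res p v = res p w) : ∃ a, v = w + piOf p * a := by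
  obtain ⟨a, ha⟩ := ((exists_pi p).choose_spec.2 (v - w)).1 (by rw [map_sub, h, sub_self])
  exact ⟨a, by rw [piOf, ← ha]; ring⟩

lemma quot_mem_ball {p : SPrime} {P R M : ℕ} (hp : P ≤ p.1) (hM : M ^ 2 ≤ R ^ 2 * P) {v w a : GI}
    (h : v = w + piOf p * a) (hn : (v - w).norm ≤ (M : ℤ) ^ 2) : a ∈ ball R := by
  refine mem_ball_of_norm_le ?_
  rw [h, add_sub_cancel_left, Zsqrtd.norm_mul, norm_piOf] at hn
  have h1 : (M : ℤ) ^ 2 ≤ (R : ℤ) ^ 2 * p.1 := by
    exact_mod_cast hM.trans (Nat.mul_le_mul_left _ hp)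
  have h2 : (0 : ℤ) < p.1 := by exact_mod_cast p.2.1.pos
  exact le_of_mul_le_mul_left (hn.trans (h1.trans (mul_comm _ _).le)) h2

/-- size of a residue class -/
noncomputable def mu (p : SPrime) (y : ℕ → GI) (n : ℕ) (c : ZMod p.1) : ℕ :=
  ((range n).filter (fun t => res p (y t) = c)).card

/-- `y i + π v` is a point of the path -/
def Hit (p : SPrime) (y : ℕ → GI) (n i : ℕ) (v : GI) : Prop := ∃ j < n, y j = y i + piOf p * v

def Valid (l : GI × GI × GI) : Prop :=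
  l.1 ≠ 0 ∧ (l.2.1 ≠ 0 ∧ l.2.1 ≠ l.1 ∧ l.2.1 ≠ -l.1) ∧ (l.2.2 ≠ 0 ∧ l.2.2 ≠ l.1 ∧ l.2.2 ≠ -l.1) ∧
    l.2.1 ≠ l.2.2

def Lab (p : SPrime) (y : ℕ → GI) (n i : ℕ) (l : GI × GI × GI) : Prop :=
  Hit p y n i l.1 ∧ Hit p y n i l.2.1 ∧ Hit p y n i (l.2.1 + l.1) ∧ Hit p y n i l.2.2 ∧
    Hit p y n i (l.2.2 + l.1)

lemma six_app (h : SixStmt) {D n H : ℕ} {y : ℕ → GI} (hy : IsPath D y n) {K : ℝ} (hK : 1 ≤ K)
    (hH : 2 ^ 2000 * K ^ 620 < H) (hn : 0 < n) {l : GI × GI × GI} (hl : Valid l)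
    (S : Finset SPrime) (F : SPrime → Finset ℕ)
    (hF : ∀ p ∈ S, ∀ i ∈ F p, i < n ∧ Lab p y n i l) (hlight : ∀ p ∈ S, (F p).card * H ≤ n) :
    K * (∑ p ∈ S, (F p).card : ℕ) ≤ (n : ℝ) ^ 2 := by
  obtain ⟨a, w, w'⟩ := l
  obtain ⟨ha, ⟨hw1, hw2, hw3⟩, ⟨hw1', hw2', hw3'⟩, hww⟩ := hl
  simp only at ha hw1 hw2 hw3 hw1' hw2' hw3' hww
  set φ := GaussianInt.toComplex with hφ
  have hinj : Function.Injective φ := fun u v huv => GaussianInt.toComplex_inj.1 huv
  have ha' : φ a ≠ 0 := fun h0 => ha (hinj (by rw [h0, map_zero]))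
  set A : Finset ℂ := (range n).image fun i => φ (y i) with hA
  have hAc : A.card = n := by
    rw [hA, card_image_of_injOn fun i hi j hj hij => hy.injOn hi hj (hinj hij), card_range]
  set ψ : SPrime → ℕ → ℂ × ℂ := fun p i => (φ (y i), φ (y i + piOf p * a)) with hψ
  set G : Finset (ℂ × ℂ) := (S.sigma F).image fun e => ψ e.1 e.2 with hG
  have hdiff : ∀ p i, (ψ p i).2 - (ψ p i).1 = φ (piOf p) * φ a := fun p i => by
    simp [hψ]
  have hp : ∀ p q : SPrime, φ (piOf p) * φ a = φ (piOf q) * φ a → p = q := fun p q hpq => by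
    have h1 := congrArg Zsqrtd.norm (hinj (mul_right_cancel₀ ha' hpq))
    rw [norm_piOf, norm_piOf] at h1
    exact Subtype.ext (by exact_mod_cast h1)
  have hGc : G.card = ∑ p ∈ S, (F p).card := by
    rw [hG, card_image_of_injOn, card_sigma]
    rintro ⟨p, i⟩ he ⟨q, j⟩ he' hpq
    simp only [coe_sigma, Set.mem_sigma_iff, mem_coe] at he he'
    have h1 : p = q := hp p q (by rw [← hdiff p i, ← hdiff q j]; exact congrArg (fun e => e.2 - e.1) hpq)
    have h2 : i = j := (hy i (hF p he.1 i he.2).1 j (hF q he'.1 j he'.2).1).1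
      (hinj (congrArg Prod.fst hpq))
    subst h1 h2
    rfl
  have hhit : ∀ p i v, Hit p y n i v → φ (y i + piOf p * v) ∈ A := by
    rintro p i v ⟨j, hj, hjv⟩
    exact mem_image.2 ⟨j, mem_range.2 hj, by rw [hjv]⟩
  by_contra hcon
  rw [not_le, ← hGc, ← hAc] at hcon
  have hne : ∀ v c : GI, v ≠ c * a → φ v / φ a ≠ φ c := fun v c hv h0 => by
    rw [div_eq_iff ha', ← map_mul] at h0
    exact hv (hinj h0)
  obtain ⟨d, hd⟩ := h A G K (φ w / φ a) (φ w' / φ a) hK (card_pos.1 (by omega))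
    (fun e he => by
      obtain ⟨⟨p, i⟩, he', rfl⟩ := mem_image.1 he
      obtain ⟨h1, h2⟩ := mem_sigma.1 he'
      obtain ⟨h3, h4⟩ := hF p h1 i h2
      exact mem_product.2 ⟨mem_image.2 ⟨i, mem_range.2 h3, rfl⟩, hhit _ _ _ h4.1⟩)
    hcon.le (by simpa using hne w 0 (by simpa using hw1)) (by simpa using hne w 1 (by simpa using hw2))
    (by simpa using hne w (-1) (by simpa using hw3)) (by simpa using hne w' 0 (by simpa using hw1'))
    (by simpa using hne w' 1 (by simpa using hw2')) (by simpa using hne w' (-1) (by simpa using hw3'))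
    (fun h0 => hww (hinj ((div_left_inj' ha').1 h0)))
    (fun e he => by
      obtain ⟨⟨p, i⟩, he', rfl⟩ := mem_image.1 he
      obtain ⟨h1, h2⟩ := mem_sigma.1 he'
      obtain ⟨-, -, h4, h5, h6, h7⟩ := hF p h1 i h2
      have e1 : ∀ v : GI, (ψ p i).1 + φ v / φ a * ((ψ p i).2 - (ψ p i).1) = φ (y i + piOf p * v) :=
        fun v => by rw [hdiff]; simp only [hψ, map_add, map_mul]; field_simp
      have e2 : ∀ v : GI, (ψ p i).1 + (φ v / φ a + 1) * ((ψ p i).2 - (ψ p i).1) =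
          φ (y i + piOf p * (v + a)) :=
        fun v => by rw [hdiff]; simp only [hψ, map_add, map_mul]; field_simp
      simp only
      rw [e1, e1, e2, e2]
      exact ⟨hhit _ _ _ h4, hhit _ _ _ h5, hhit _ _ _ h6, hhit _ _ _ h7⟩)
  rw [hAc] at hd
  have hn' : (0 : ℝ) < n := by exact_mod_cast hn
  obtain ⟨e, he⟩ : (G.filter fun e => e.2 - e.1 = d).Nonempty := by
    rw [← card_pos]
    by_contra h0
    rw [Nat.eq_zero_of_not_pos h0, Nat.cast_zero, mul_zero] at hd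
    linarith
  obtain ⟨he1, he2⟩ := mem_filter.1 he
  obtain ⟨⟨p, i⟩, he', rfl⟩ := mem_image.1 he1
  have hpS := (mem_sigma.1 he').1
  have hsub : (G.filter fun e => e.2 - e.1 = d).card ≤ (F p).card := by
    refine le_trans (card_le_card fun e' he' => ?_) (card_image_le (f := ψ p))
    obtain ⟨h1, h2⟩ := mem_filter.1 he'
    obtain ⟨⟨q, j⟩, h3, rfl⟩ := mem_image.1 h1
    obtain rfl : q = p := hp q p (by rw [← hdiff q j, ← hdiff p i]; exact h2.trans he2.symm)
    exact mem_image.2 ⟨j, (mem_sigma.1 h3).2, rfl⟩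
  have h1 : ((G.filter fun e => e.2 - e.1 = d).card : ℝ) * H ≤ n := by
    exact_mod_cast (Nat.mul_le_mul_right H hsub).trans (hlight p hpS)
  have h2 : (0 : ℝ) < (G.filter fun e => e.2 - e.1 = d).card := by
    exact_mod_cast card_pos.2 ⟨_, he⟩
  have h3 := mul_lt_mul_of_pos_right hH h2
  exact absurd (hd.trans_lt (h3.trans_le ((mul_comm _ _).le.trans h1))) (lt_irrefl _)

/-- the labels -/
noncomputable def labels (Ra Rw : ℕ) : Finset (GI × GI × GI) :=
  (ball Ra ×ˢ ball Rw ×ˢ ball Rw).filter Valid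

lemma card_labels (Ra Rw : ℕ) :
    (labels Ra Rw).card ≤ (2 * Ra + 1) ^ 2 * ((2 * Rw + 1) ^ 2 * (2 * Rw + 1) ^ 2) := by
  refine (card_filter_le _ _).trans (le_of_eq ?_)
  rw [card_product, card_product, card_ball, card_ball]

lemma exists_label {D n P Ra Rw : ℕ} {y : ℕ → GI} (hy : IsPath D y n) {p : SPrime} (hp : P ≤ p.1)
    (hRw : (D * n) ^ 2 ≤ Rw ^ 2 * P) {c : ZMod p.1} {a : GI} (ha : a ≠ 0) (haR : a ∈ ball Ra)
    (h5 : 5 ≤ ((range n).filter fun t => res p (y t) = c ∧ Hit p y n t a).card) {i : ℕ} (hi : i < n)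
    (hc : res p (y i) = c) (hit : Hit p y n i a) : ∃ l ∈ labels Ra Rw, Lab p y n i l := by
  set U := (range n).filter fun t => res p (y t) = c ∧ Hit p y n t a with hU
  have h1 : (U.image y).card = U.card :=
    card_image_of_injOn (hy.injOn.mono (coe_subset.2 (filter_subset _ _)))
  have h2 : 1 < (U.image y \ {y i, y i + piOf p * a, y i + piOf p * -a}).card := by
    have h3 := le_card_sdiff ({y i, y i + piOf p * a, y i + piOf p * -a} : Finset GI) (U.image y)
    have h4 : ({y i, y i + piOf p * a, y i + piOf p * -a} : Finset GI).card ≤ 3 := card_le_three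
    omega
  have key : ∀ v ∈ U.image y \ {y i, y i + piOf p * a, y i + piOf p * -a}, ∃ w ∈ ball Rw,
      v = y i + piOf p * w ∧ (w ≠ 0 ∧ w ≠ a ∧ w ≠ -a) ∧ Hit p y n i w ∧ Hit p y n i (w + a) := by
    intro v hv
    obtain ⟨hv1, hv2⟩ := mem_sdiff.1 hv
    obtain ⟨j, hj, rfl⟩ := mem_image.1 hv1
    obtain ⟨hj1, hj2, j', hj3, hj4⟩ := mem_filter.1 hj
    rw [mem_range] at hj1
    obtain ⟨w, hw⟩ := exists_quot (hj2.trans hc.symm)
    simp only [mem_insert, mem_singleton, not_or] at hv2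
    refine ⟨w, quot_mem_ball hp hRw hw (hy.norm_le hj1 hi (by omega) (by omega)), hw,
      ⟨?_, ?_, ?_⟩, ⟨j, hj1, hw⟩, j', hj3, by rw [hj4, hw]; ring⟩
    · rintro rfl; exact hv2.1 (by simpa using hw)
    · rintro rfl; exact hv2.2.1 hw
    · rintro rfl; exact hv2.2.2 hw
  obtain ⟨v, hv, v', hv', hvv⟩ := one_lt_card.1 h2
  obtain ⟨w, w1, w2, w3, w4, w5⟩ := key v hv
  obtain ⟨w', w1', w2', w3', w4', w5'⟩ := key v' hv'
  refine ⟨(a, w, w'), mem_filter.2 ⟨mem_product.2 ⟨haR, mem_product.2 ⟨w1, w1'⟩⟩, ha, w3, w3', ?_⟩,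
    hit, w4, w5, w4', w5'⟩
  rintro (rfl : w = w')
  exact hvv (w2.trans w2'.symm)

lemma card_le_of_sep {n n1 g : ℕ} (hn : n = n1 * g) (U : Finset ℕ) (hU : ∀ i ∈ U, i < n)
    (hsep : ∀ i ∈ U, ∀ j ∈ U, i < j → i + g ≤ j) : U.card ≤ n1 := by
  have hlt : ∀ i ∈ U, ∀ j ∈ U, i < j → i / g < j / g := fun i hi j hj hij => by
    have hg : 0 < g := by
      rcases Nat.eq_zero_or_pos g with rfl | hg
      · have := hU i hi; omega
      · exact hg
    have := Nat.div_le_div_right (c := g) (hsep i hi j hj hij)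
    rw [Nat.add_div_right _ hg] at this
    omega
  rw [← card_range n1]
  refine card_le_card_of_injOn (fun i => i / g) (fun i hi => ?_) fun i hi j hj hij => ?_
  · exact mem_coe.2 (mem_range.2 (Nat.div_lt_of_lt_mul (by rw [mul_comm, ← hn]; exact hU i hi)))
  · rcases lt_trichotomy i j with h | h | h
    · exact absurd hij (hlt i hi j hj h).ne
    · exact h
    · exact absurd hij (hlt j hj i hi h).ne'

lemma mu_le_lab {D n n1 g P Ra Rw : ℕ} {y : ℕ → GI} (hy : IsPath D y n) {p : SPrime} (hp : P ≤ p.1)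
    (hn : n = n1 * g) (hRa : (D * g) ^ 2 ≤ Ra ^ 2 * P) (hRw : (D * n) ^ 2 ≤ Rw ^ 2 * P)
    (c : ZMod p.1) : mu p y n c ≤ n1 + 4 * (2 * Ra + 1) ^ 2 +
      ∑ l ∈ labels Ra Rw, (((range n).filter fun t => Lab p y n t l).filter
        fun t => res p (y t) = c).card := by
  set U := (range n).filter fun t => res p (y t) = c with hU
  set U1 := U.filter fun i => ∀ j ∈ U, i < j → i + g ≤ j with hU1
  set Sh : GI → Finset ℕ := fun a => (range n).filter fun t => res p (y t) = c ∧ Hit p y n t a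
    with hSh
  set U2 := ((ball Ra).filter fun a => (Sh a).card ≤ 4).biUnion Sh with hU2
  set U3 := (labels Ra Rw).biUnion fun l => ((range n).filter fun t => Lab p y n t l).filter
    fun t => res p (y t) = c with hU3
  have h1 : U1.card ≤ n1 := card_le_of_sep hn U1
    (fun i hi => mem_range.1 (mem_filter.1 (mem_filter.1 hi).1).1)
    fun i hi j hj => (mem_filter.1 hi).2 j (mem_filter.1 hj).1
  have h2 : U2.card ≤ 4 * (2 * Ra + 1) ^ 2 := by
    refine (card_biUnion_le_card_mul _ _ 4 fun a ha => (mem_filter.1 ha).2).trans ?_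
    rw [mul_comm, ← card_ball]
    exact Nat.mul_le_mul_left _ (card_filter_le _ _)
  have h3 : U ⊆ U1 ∪ U2 ∪ U3 := by
    intro i hi
    obtain ⟨hi1, hi2⟩ := mem_filter.1 hi
    simp only [mem_union]
    by_cases hs : ∀ j ∈ U, i < j → i + g ≤ j
    · exact Or.inl (Or.inl (mem_filter.2 ⟨hi, hs⟩))
    simp only [not_forall, not_le] at hs
    obtain ⟨j, hj, hij, hjg⟩ := hs
    obtain ⟨hj1, hj2⟩ := mem_filter.1 hj
    obtain ⟨a, ha⟩ := exists_quot (hj2.trans hi2.symm)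
    rw [mem_range] at hi1 hj1
    have haR := quot_mem_ball hp hRa ha (hy.norm_le hj1 hi1 (by omega) (by omega))
    have ha0 : a ≠ 0 := by
      rintro rfl
      have := (hy j hj1 i hi1).1 (by simpa using ha)
      omega
    have hit : Hit p y n i a := ⟨j, hj1, ha⟩
    by_cases h4 : (Sh a).card ≤ 4
    · exact Or.inl (Or.inr (mem_biUnion.2 ⟨a, mem_filter.2 ⟨haR, h4⟩,
        mem_filter.2 ⟨mem_range.2 hi1, hi2, hit⟩⟩))
    · obtain ⟨l, hl1, hl2⟩ := exists_label hy hp hRw ha0 haR (not_le.1 h4) hi1 hi2 hit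
      exact Or.inr (mem_biUnion.2 ⟨l, hl1, mem_filter.2 ⟨mem_filter.2 ⟨mem_range.2 hi1, hl2⟩, hi2⟩⟩)
  exact (card_le_card h3).trans ((card_union_le _ _).trans
    (add_le_add ((card_union_le _ _).trans (add_le_add h1 h2)) card_biUnion_le))

lemma local_bound (h : SixStmt) {D P n n1 g Ra Rw H : ℕ} {K : ℝ} {y : ℕ → GI} (hy : IsPath D y n)
    {S : Finset SPrime} (hS : ∀ p ∈ S, P ≤ p.1) (hn : n = n1 * g) (hn0 : 0 < n)
    (hRa : (D * g) ^ 2 ≤ Ra ^ 2 * P) (hRw : (D * n) ^ 2 ≤ Rw ^ 2 * P) (hK : 1 ≤ K)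
    (hH : 2 ^ 2000 * K ^ 620 < H) (T : (p : SPrime) → Finset (ZMod p.1))
    (hT : ∀ p ∈ S, ∀ c ∈ T p, 2 * (n1 + 4 * (2 * Ra + 1) ^ 2) ≤ mu p y n c)
    (hl : ∀ p ∈ S, (∑ c ∈ T p, mu p y n c) * H ≤ n) :
    K * (∑ p ∈ S, ∑ c ∈ T p, mu p y n c : ℕ) ≤ 2 * (labels Ra Rw).card * (n : ℝ) ^ 2 := by
  set F : GI × GI × GI → SPrime → Finset ℕ := fun l p =>
    ((range n).filter fun t => Lab p y n t l).filter fun t => res p (y t) ∈ T p with hF
  have h1 : ∑ p ∈ S, ∑ c ∈ T p, mu p y n c ≤ 2 * ∑ l ∈ labels Ra Rw, ∑ p ∈ S, (F l p).card := by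
    rw [sum_comm (s := labels Ra Rw), mul_sum]
    refine sum_le_sum fun p hp => ?_
    simp only [hF, ← sum_card_fiberwise_eq_card_filter]
    rw [sum_comm, mul_sum]
    refine sum_le_sum fun c hc => ?_
    have g1 := mu_le_lab hy (hS p hp) hn hRa hRw c
    have g2 := hT p hp c hc
    omega
  have h2 : ∀ l ∈ labels Ra Rw, K * (∑ p ∈ S, (F l p).card : ℕ) ≤ (n : ℝ) ^ 2 := fun l hl' =>
    six_app h hy hK hH hn0 (mem_filter.1 hl').2 S (F l)
      (fun p _ i hi => ⟨mem_range.1 (mem_filter.1 (mem_filter.1 hi).1).1,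
        (mem_filter.1 (mem_filter.1 hi).1).2⟩)
      fun p hp => by
        refine le_trans (Nat.mul_le_mul_right H ?_) (hl p hp)
        simp only [mu]
        rw [sum_card_fiberwise_eq_card_filter]
        exact card_le_card (filter_subset_filter _ (filter_subset _ _))
  have h3 := sum_le_card_nsmul _ _ _ h2
  rw [← mul_sum, nsmul_eq_mul, ← Nat.cast_sum] at h3
  have h4 : ((∑ p ∈ S, ∑ c ∈ T p, mu p y n c : ℕ) : ℝ) ≤
      2 * (∑ l ∈ labels Ra Rw, ∑ p ∈ S, (F l p).card : ℕ) := by exact_mod_cast h1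
  have h5 := mul_le_mul_of_nonneg_left h4 (by linarith : 0 ≤ K)
  linarith

lemma mu_le {D n n0 g : ℕ} {y : ℕ → GI} (hy : IsPath D y n) {p : SPrime} (hp : (D * g) ^ 2 < p.1)
    (hn : n = n0 * g) (c : ZMod p.1) : mu p y n c ≤ n0 := by
  refine card_le_of_sep hn _ (fun i hi => mem_range.1 (mem_filter.1 hi).1) fun i hi j hj hij => ?_
  obtain ⟨hi1, hi2⟩ := mem_filter.1 hi
  obtain ⟨hj1, hj2⟩ := mem_filter.1 hj
  rw [mem_range] at hi1 hj1
  by_contra hc
  have h1 := hy.norm_le (m := g) hi1 hj1 (by omega) (by omega)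
  have h2 : y i - y j ≠ 0 := fun h0 => hij.ne ((hy i hi1 j hj1).1 (sub_eq_zero.1 h0))
  have h3 := Int.le_of_dvd (norm_pos' h2)
    (dvd_norm_of_res_eq_zero p (v := y i - y j) (by rw [map_sub, hi2, hj2, sub_self]))
  have h4 : (p.1 : ℤ) ≤ ((D * g) ^ 2 : ℕ) := by exact_mod_cast h3.trans h1
  exact absurd hp (not_lt.2 (by exact_mod_cast h4))

lemma mult_zero (p : SPrime) (z : ℕ → GI) (N : ℕ) (c : ZMod p.1) : mult p z 0 N c = mu p z N c := by
  simp only [mult, mu, zero_add]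

lemma cl_eq (p : SPrime) (z : ℕ → GI) (N k : ℕ) :
    cl p z 0 N k = ∑ c ∈ univ.filter (fun c => k < mu p z N c), mu p z N c := by
  simp only [cl, mult_zero, zero_add]
  conv_rhs => simp only [mu]
  rw [sum_card_fiberwise_eq_card_filter]
  simp only [mem_filter, mem_univ, true_and, mu]

lemma mu_mul (p : SPrime) (z : ℕ → GI) (B n : ℕ) (c : ZMod p.1) :
    mu p z (B * n) c = ∑ β ∈ range B, mu p (fun t => z (β * n + t)) n c := by
  simp only [mu, card_filter]
  exact sum_range_mul B n _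

lemma sum_cl_le {D P N k : ℕ} {z : ℕ → GI} (hz : IsPath D z N) {S : Finset SPrime}
    (hS : ∀ p ∈ S, P ≤ p.1) (h3 : (D * N) ^ 2 < P ^ 3) :
    (∑ p ∈ S, cl p z 0 N k) * k ≤ 2 * N ^ 2 := by
  have hP : 1 ≤ P := by
    rcases Nat.eq_zero_or_pos P with rfl | h
    · simp at h3
    · exact h
  have h1 : ∀ p, cl p z 0 N k * k ≤ ∑ i ∈ range N, ∑ j ∈ range N,
      if j ≠ i ∧ res p (z j) = res p (z i) then 1 else 0 := fun p => by
    simp only [cl, mult_zero, zero_add]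
    rw [card_filter, sum_mul]
    refine sum_le_sum fun i _ => ?_
    split_ifs with hi
    · rw [← card_filter, one_mul]
      have g1 : ((range N).filter fun t => res p (z t) = res p (z i)).erase i ⊆
          (range N).filter fun j => j ≠ i ∧ res p (z j) = res p (z i) := fun j hj => by
        obtain ⟨g2, g3⟩ := mem_erase.1 hj
        exact mem_filter.2 ⟨(mem_filter.1 g3).1, g2, (mem_filter.1 g3).2⟩
      have g2 := card_le_card g1
      have g3 := pred_card_le_card_erase (s := (range N).filter fun t => res p (z t) = res p (z i))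
        (a := i)
      rw [mu] at hi
      omega
    · simp
  have h2 : ∀ i ∈ range N, ∀ j ∈ range N,
      (∑ p ∈ S, if j ≠ i ∧ res p (z j) = res p (z i) then 1 else 0) ≤ 2 := fun i hi j hj => by
    rw [← card_filter]
    by_cases hij : j = i
    · simp [hij]
    rw [mem_range] at hi hj
    have g1 : z j - z i ≠ 0 := fun h0 => hij ((hz j hj i hi).1 (sub_eq_zero.1 h0))
    have g2 := pow_card_le_norm (P := P)
      (S := S.filter fun p => j ≠ i ∧ res p (z j) = res p (z i))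
      (fun p hp => hS p (mem_filter.1 hp).1) g1
      fun p hp => by rw [map_sub, (mem_filter.1 hp).2.2, sub_self]
    have g3 := g2.trans (hz.norm_le (m := N) hj hi (by omega) (by omega))
    have g4 : P ^ (S.filter fun p => j ≠ i ∧ res p (z j) = res p (z i)).card ≤ (D * N) ^ 2 := by
      exact_mod_cast g3
    by_contra hc
    exact absurd (g4.trans_lt h3) (not_lt.2 (Nat.pow_le_pow_right hP (not_le.1 hc)))
  rw [sum_mul]
  refine (sum_le_sum fun p _ => h1 p).trans ?_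
  rw [sum_comm]
  refine (sum_le_card_nsmul _ _ (N * 2) fun i hi => ?_).trans (le_of_eq ?_)
  · rw [sum_comm]
    simpa using sum_le_card_nsmul _ _ 2 (h2 i hi)
  · simp only [card_range, smul_eq_mul]; ring

lemma main (h : SixStmt) {D P B n k E H n0 g0 n1 g Ra Rw hv : ℕ} {K : ℝ} {z : ℕ → GI}
    (hz : IsPath D z (B * n)) {S : Finset SPrime} (hS : ∀ p ∈ S, P ≤ p.1) (hn : n = n1 * g)
    (hn' : n = n0 * g0) (hn0 : 0 < n) (hg0 : (D * g0) ^ 2 < P)
    (hRa : (D * g) ^ 2 ≤ Ra ^ 2 * P) (hRw : (D * n) ^ 2 ≤ Rw ^ 2 * P) (hK : 1 ≤ K)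
    (hH : 2 ^ 2000 * K ^ 620 < H) (hE : 0 < E) (hhv : B * H ≤ hv * E)
    (hk : 2 * (hv * n0 + B * (2 * (n1 + 4 * (2 * Ra + 1) ^ 2))) ≤ k)
    (hcl : ∀ p ∈ S, cl p z 0 (B * n) k * E ≤ B * n) :
    K * (∑ p ∈ S, cl p z 0 (B * n) k : ℕ) ≤ 4 * B * (labels Ra Rw).card * (n : ℝ) ^ 2 := by
  set s0 := 2 * (n1 + 4 * (2 * Ra + 1) ^ 2) with hs0
  set y : ℕ → ℕ → GI := fun β t => z (β * n + t) with hy
  have hyp : ∀ β ∈ range B, IsPath D (y β) n := fun β hβ => hz.shift _ _ (by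
    have := mem_range.1 hβ
    calc β * n + n = (β + 1) * n := by ring
      _ ≤ B * n := Nat.mul_le_mul_right _ this)
  set Cq : (p : SPrime) → Finset (ZMod p.1) := fun p =>
    univ.filter fun c => k < mu p z (B * n) c with hCq
  set cq : SPrime → ℕ → ℕ := fun p β => ∑ c ∈ Cq p, mu p (y β) n c with hcq
  set T : ℕ → (p : SPrime) → Finset (ZMod p.1) := fun β p =>
    (Cq p).filter fun c => cq p β * H ≤ n ∧ s0 ≤ mu p (y β) n c with hT
  have h1 : ∀ β ∈ range B, K * (∑ p ∈ S, ∑ c ∈ T β p, mu p (y β) n c : ℕ) ≤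
      2 * (labels Ra Rw).card * (n : ℝ) ^ 2 := fun β hβ =>
    local_bound h (hyp β hβ) hS hn hn0 hRa hRw hK hH (T β)
      (fun p _ c hc => (mem_filter.1 hc).2.2) fun p _ => by
        rcases (T β p).eq_empty_or_nonempty with h0 | ⟨c, hc⟩
        · simp [h0]
        · exact (Nat.mul_le_mul_right H (sum_le_sum_of_subset (filter_subset _ _))).trans
            (mem_filter.1 hc).2.1
  have h2 : ∀ p ∈ S, cl p z 0 (B * n) k ≤ 2 * ∑ β ∈ range B, ∑ c ∈ T β p, mu p (y β) n c := by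
    intro p hp
    have e1 : cl p z 0 (B * n) k = ∑ β ∈ range B, cq p β := by
      rw [cl_eq, sum_comm]
      exact sum_congr rfl fun c _ => mu_mul p z B n c
    set Hv := (range B).filter fun β => ¬ cq p β * H ≤ n with hHv
    have g1 : Hv.card ≤ hv := by
      have a1 : Hv.card * n ≤ cl p z 0 (B * n) k * H := by
        rw [e1, sum_mul]
        refine le_trans ?_ (sum_le_sum_of_subset (filter_subset (fun β => ¬ cq p β * H ≤ n) _))
        rw [← smul_eq_mul]
        exact card_nsmul_le_sum Hv (fun β => cq p β * H) n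
          fun β hβ => (not_le.1 (mem_filter.1 hβ).2).le
      have a2 := hcl p hp
      have a3 : Hv.card * E * n ≤ hv * E * n :=
        calc Hv.card * E * n = Hv.card * n * E := by ring
          _ ≤ cl p z 0 (B * n) k * H * E := Nat.mul_le_mul_right _ a1
          _ = cl p z 0 (B * n) k * E * H := by ring
          _ ≤ B * n * H := Nat.mul_le_mul_right _ a2
          _ = B * H * n := by ring
          _ ≤ hv * E * n := Nat.mul_le_mul_right _ hhv
      exact Nat.le_of_mul_le_mul_right (Nat.le_of_mul_le_mul_right a3 hn0) hE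
    simp only [hT, sum_filter]
    rw [cl_eq, sum_comm, mul_sum]
    refine sum_le_sum fun c hc => ?_
    have g2 : k < mu p z (B * n) c := (mem_filter.1 hc).2
    have g3 : mu p z (B * n) c ≤ ∑ β ∈ range B,
        ((if cq p β * H ≤ n ∧ s0 ≤ mu p (y β) n c then mu p (y β) n c else 0) +
          ((if ¬ cq p β * H ≤ n then 1 else 0) * n0 + s0)) := by
      rw [mu_mul]
      refine sum_le_sum fun β hβ => ?_
      have := mu_le (hyp β hβ) (hg0.trans_le (hS p hp)) hn' c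
      change mu p (y β) n c ≤ _
      split_ifs <;> omega
    rw [sum_add_distrib, sum_add_distrib, ← sum_mul, ← card_filter, sum_const, card_range,
      smul_eq_mul] at g3
    have g4 := Nat.mul_le_mul_right n0 g1
    rw [← hHv] at g3
    omega
  have h3 : ∑ p ∈ S, cl p z 0 (B * n) k ≤
      2 * ∑ β ∈ range B, ∑ p ∈ S, ∑ c ∈ T β p, mu p (y β) n c := by
    rw [sum_comm (s := range B), mul_sum]
    exact sum_le_sum h2
  have h4 := sum_le_card_nsmul _ _ _ h1
  rw [← mul_sum, nsmul_eq_mul, ← Nat.cast_sum, card_range] at h4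
  have h5 : ((∑ p ∈ S, cl p z 0 (B * n) k : ℕ) : ℝ) ≤
      2 * (∑ β ∈ range B, ∑ p ∈ S, ∑ c ∈ T β p, mu p (y β) n c : ℕ) := by exact_mod_cast h3
  have h6 := mul_le_mul_of_nonneg_left h5 (by linarith : 0 ≤ K)
  linarith

lemma card_ge {u P m a : ℕ} (hu : 24 * (a + 3) ≤ u) (h1 : u ^ (a + 2) ≤ P) (h2 : P ≤ u ^ (a + 3))
    (h3 : (P : ℝ) ≤ 24 * Real.log P * m) : u ^ a ≤ m := by
  have hu0 : (0 : ℝ) < u := by exact_mod_cast (by omega : 0 < u)
  have g1 : (u : ℝ) ^ (a + 2) ≤ P := by exact_mod_cast h1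
  have g2 : (P : ℝ) ≤ (u : ℝ) ^ (a + 3) := by exact_mod_cast h2
  have g3 : Real.log P ≤ (a + 3 : ℕ) * u := by
    refine (Real.log_le_log (lt_of_lt_of_le (by positivity) g1) g2).trans ?_
    rw [Real.log_pow]
    exact mul_le_mul_of_nonneg_left ((Real.log_le_sub_one_of_pos hu0).trans (by linarith))
      (Nat.cast_nonneg _)
  have g4 : (24 : ℝ) * (a + 3 : ℕ) ≤ u := by exact_mod_cast hu
  have g5 : 24 * Real.log P ≤ (u : ℝ) ^ 2 := by nlinarith
  have g6 : (u : ℝ) ^ 2 * (u : ℝ) ^ a ≤ (u : ℝ) ^ 2 * m := by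
    rw [← pow_add, add_comm]
    exact g1.trans (h3.trans (mul_le_mul_of_nonneg_right g5 (Nat.cast_nonneg _)))
  exact_mod_cast le_of_mul_le_mul_left g6 (by positivity)

lemma c_mul_pow_le {u c a b : ℕ} (hc : c ≤ u) (hu : 0 < u) (h : a + 1 ≤ b) : c * u ^ a ≤ u ^ b :=
  calc c * u ^ a ≤ u * u ^ a := Nat.mul_le_mul_right _ hc
    _ = u ^ (a + 1) := by rw [pow_succ']
    _ ≤ u ^ b := Nat.pow_le_pow_right hu h

lemma odd_le {u a : ℕ} (hu : 0 < u) : (2 * u ^ a + 1) ^ 2 ≤ 9 * u ^ (2 * a) := by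
  have : 1 ≤ u ^ a := Nat.one_le_pow _ _ hu
  rw [pow_mul']
  nlinarith

end Clique

open Clique in
theorem clique (h : SixStmt) : CliqueStmt := by
  intro D
  refine ⟨max D 100000000, fun u hu P S hP1 hP2 hS z hz => ?_⟩
  have huD : D ≤ u := (le_max_left _ _).trans hu
  have hu1 : 100000000 ≤ u := (le_max_right _ _).trans hu
  have hu0 : 0 < u := by omega
  have hz' := hz.mono_left huD
  have hm : u ^ 999998 ≤ S.card := card_ge (a := 999998) (by omega) hP1 hP2 hS.2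
  have hSP : ∀ p ∈ S, P ≤ p.1 := fun p hp => (hS.1 p hp).1
  have hpos : ∀ a, 0 < u ^ a := fun a => Nat.pow_pos hu0
  have hlt : ∀ a b, a < b → u ^ a < u ^ b := fun a b hab => Nat.pow_lt_pow_right (by omega) hab
  have hle : ∀ a b, a ≤ b → u ^ a ≤ u ^ b := fun a b hab => Nat.pow_le_pow_right hu0 hab
  have eN : u ^ 1000001 = u ^ 499951 * u ^ 500050 := by ring
  refine ⟨S.filter fun p => ¬ cl p z 0 (u ^ 1000001) (u ^ 499991) * u ^ 190100 ≤ u ^ 1000001,
    filter_subset _ _, ?_, ?_⟩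
  · set Exc := S.filter fun p => ¬ cl p z 0 (u ^ 1000001) (u ^ 499991) * u ^ 190100 ≤ u ^ 1000001
      with hExc
    have h1 := sum_cl_le (k := u ^ 499991) hz' (S := Exc) (fun p hp => hSP p (mem_filter.1 hp).1)
      (calc (u * u ^ 1000001) ^ 2 = u ^ 2000004 := by ring
        _ < u ^ 3000000 := hlt _ _ (by norm_num)
        _ = (u ^ 1000000) ^ 3 := by ring
        _ ≤ P ^ 3 := Nat.pow_le_pow_left hP1 3)
    have h2 : Exc.card * u ^ 1000001 ≤
        (∑ p ∈ Exc, cl p z 0 (u ^ 1000001) (u ^ 499991)) * u ^ 190100 := by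
      rw [sum_mul, ← smul_eq_mul]
      exact card_nsmul_le_sum Exc _ _ fun p hp => (not_le.1 (mem_filter.1 hp).2).le
    generalize (∑ p ∈ Exc, cl p z 0 (u ^ 1000001) (u ^ 499991)) = X at h1 h2
    refine le_trans (Nat.le_of_mul_le_mul_right ?_ (hpos 1199992)) hm
    calc Exc.card * u ^ 300000 * u ^ 1199992 = Exc.card * u ^ 1000001 * u ^ 499991 := by ring
      _ ≤ X * u ^ 190100 * u ^ 499991 := Nat.mul_le_mul_right _ h2
      _ = X * u ^ 499991 * u ^ 190100 := by ring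
      _ ≤ 2 * (u ^ 1000001) ^ 2 * u ^ 190100 := Nat.mul_le_mul_right _ h1
      _ = 2 * u ^ 2190102 := by ring
      _ ≤ u ^ 2199990 := c_mul_pow_le (by omega) hu0 (by norm_num)
      _ = u ^ 999998 * u ^ 1199992 := by ring
  · set S' := S \ S.filter
      fun p => ¬ cl p z 0 (u ^ 1000001) (u ^ 499991) * u ^ 190100 ≤ u ^ 1000001 with hS'
    have hcl : ∀ p ∈ S', cl p z 0 (u ^ 1000001) (u ^ 499991) * u ^ 190100 ≤ u ^ 1000001 :=
      fun p hp => by
        by_contra hc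
        exact (mem_sdiff.1 hp).2 (mem_filter.2 ⟨(mem_sdiff.1 hp).1, hc⟩)
    have hu2 : (2 : ℝ) < u := by exact_mod_cast (by omega : 2 < u)
    have hk : 2 * (u ^ 499851 * u ^ 52 + u ^ 499951 * (2 * (u ^ 39 + 4 * (2 * u ^ 12 + 1) ^ 2))) ≤
        u ^ 499991 := by
      have a1 : 4 * (2 * u ^ 12 + 1) ^ 2 ≤ u ^ 39 :=
        calc 4 * (2 * u ^ 12 + 1) ^ 2 ≤ 4 * (9 * u ^ (2 * 12)) := Nat.mul_le_mul_left _ (odd_le hu0)
          _ = 36 * u ^ 24 := by ring
          _ ≤ u ^ 39 := c_mul_pow_le (by omega) hu0 (by norm_num)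
      have a2 : u ^ 499851 * u ^ 52 ≤ u ^ 499990 := by
        rw [← pow_add]; exact hle _ _ (by norm_num)
      calc _ ≤ 2 * (u ^ 499990 + u ^ 499951 * (2 * (u ^ 39 + u ^ 39))) :=
            Nat.mul_le_mul_left _ (add_le_add a2 (Nat.mul_le_mul_left _
              (Nat.mul_le_mul_left _ (Nat.add_le_add_left a1 _))))
        _ = 10 * u ^ 499990 := by ring
        _ ≤ u ^ 499991 := c_mul_pow_le (by omega) hu0 (by norm_num)
    have hH : (2 : ℝ) ^ 2000 * ((u : ℝ) ^ 300) ^ 620 < ((u ^ 190000 : ℕ) : ℝ) := by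
      rw [Nat.cast_pow]
      calc (2 : ℝ) ^ 2000 * ((u : ℝ) ^ 300) ^ 620 < (u : ℝ) ^ 2000 * ((u : ℝ) ^ 300) ^ 620 :=
            mul_lt_mul_of_pos_right (pow_lt_pow_left₀ hu2 (by norm_num) (by norm_num))
              (pow_pos (pow_pos (by linarith) _) _)
        _ = (u : ℝ) ^ 188000 := by ring
        _ ≤ (u : ℝ) ^ 190000 := pow_le_pow_right₀ (by linarith) (by norm_num)
    rw [eN] at hz' hcl ⊢
    have h1 := main h (P := P) (n0 := u ^ 52) (g0 := u ^ 499998) (n1 := u ^ 39) (g := u ^ 500011)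
      (Ra := u ^ 12) (Rw := u ^ 51) (hv := u ^ 499851) (H := u ^ 190000) (K := (u : ℝ) ^ 300) hz'
      (S := S') (fun p hp => hSP p (mem_sdiff.1 hp).1) (by ring) (by ring) (hpos _)
      (calc (u * u ^ 499998) ^ 2 = u ^ 999998 := by ring
        _ < u ^ 1000000 := hlt _ _ (by norm_num)
        _ ≤ P := hP1)
      (calc (u * u ^ 500011) ^ 2 = (u ^ 12) ^ 2 * u ^ 1000000 := by ring
        _ ≤ _ := Nat.mul_le_mul_left _ hP1)
      (calc (u * u ^ 500050) ^ 2 = (u ^ 51) ^ 2 * u ^ 1000000 := by ring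
        _ ≤ _ := Nat.mul_le_mul_left _ hP1)
      (one_le_pow₀ (by linarith)) hH (hpos _) (le_of_eq (by ring)) hk hcl
    generalize (∑ p ∈ S', cl p z 0 (u ^ 499951 * u ^ 500050) (u ^ 499991)) = X at h1 ⊢
    have h2 : u ^ 300 * X ≤ 4 * u ^ 499951 * (labels (u ^ 12) (u ^ 51)).card * (u ^ 500050) ^ 2 := by
      rw [← Nat.cast_le (α := ℝ)]
      simpa only [Nat.cast_mul, Nat.cast_pow, Nat.cast_ofNat] using h1
    have h3 : (labels (u ^ 12) (u ^ 51)).card ≤
        9 * u ^ (2 * 12) * (9 * u ^ (2 * 51) * (9 * u ^ (2 * 51))) :=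
      (card_labels _ _).trans (Nat.mul_le_mul (odd_le hu0) (Nat.mul_le_mul (odd_le hu0) (odd_le hu0)))
    refine le_trans (Nat.le_of_mul_le_mul_left ?_ (hpos 300)) (Nat.mul_le_mul_right _ hm)
    calc u ^ 300 * (X * u ^ 500004) = u ^ 300 * X * u ^ 500004 := by ring
      _ ≤ 4 * u ^ 499951 * (9 * u ^ (2 * 12) * (9 * u ^ (2 * 51) * (9 * u ^ (2 * 51)))) *
          (u ^ 500050) ^ 2 * u ^ 500004 :=
        Nat.mul_le_mul_right _ (h2.trans (Nat.mul_le_mul_right _ (Nat.mul_le_mul_left _ h3)))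
      _ = 2916 * u ^ 2000283 := by ring
      _ ≤ u ^ 2000299 := c_mul_pow_le (by omega) hu0 (by norm_num)
      _ = u ^ 300 * (u ^ 999998 * (u ^ 499951 * u ^ 500050)) := by ring

end Crest.Agent.R2
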