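import Crest.Agent.R2.Basic

/-! The contradiction at the first level. -/

set_option autoImplicit false

open Finset
open scoped Pointwise Classical

namespace Crest.Agent.R2

namespace Contra

theorem sum_res_eq (p : SPrime) (z : ℕ → GI) (n0 N : ℕ) (F : ZMod p.1 → ℝ) :
    ∑ t ∈ range N, F (res p (z (n0 + t))) = ∑ a, (mult p z n0 N a : ℝ) * F a := by
  have := sum_push_mul p (range N) (fun t => z (n0 + t)) (fun _ => 1) F
  simp only [one_mul] at this
  rw [← this]
  refine sum_congr rfl fun a _ => ?_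
  simp [push, mult]

theorem visit_le (p : SPrime) (z : ℕ → GI) (n0 N kk : ℕ) (Y : ZMod p.1) (lt μ : ZMod p.1 → ℝ)
    (δ : ℝ) (h0 : ∀ c, 0 ≤ lt c) (h1 : ∀ c, lt c ≤ μ c) (h2 : ∀ c, lt c ≤ δ) :
    ∑ t ∈ range N, lt (Y - res p (z (n0 + t))) ≤
      ∑ c, μ c * (min (mult p z n0 N (Y - c)) kk : ℕ) + δ * cl p z n0 N kk := by
  have e1 := sum_res_eq p z n0 N (fun a => lt (Y - a))
  have e2 : (cl p z n0 N kk : ℝ) = ∑ a, (mult p z n0 N a : ℝ) *
      (if kk < mult p z n0 N a then 1 else 0) := by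
    rw [← sum_res_eq p z n0 N (fun a => if kk < mult p z n0 N a then 1 else 0)]
    simp [cl]
  have e3 : ∑ c, μ c * (min (mult p z n0 N (Y - c)) kk : ℕ) =
      ∑ a, μ (Y - a) * (min (mult p z n0 N a) kk : ℕ) := by
    rw [← Equiv.sum_comp (Equiv.subLeft Y)]
    simp
  rw [e1, e2, e3, mul_sum, ← sum_add_distrib]
  refine sum_le_sum fun a _ => ?_
  have hm : (0 : ℝ) ≤ mult p z n0 N a := Nat.cast_nonneg _
  have hδ : 0 ≤ δ := (h0 0).trans (h2 0)
  by_cases h : kk < mult p z n0 N a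
  · simp only [h, if_true]
    have : (0 : ℝ) ≤ μ (Y - a) * (min (mult p z n0 N a) kk : ℕ) :=
      mul_nonneg ((h0 _).trans (h1 _)) (Nat.cast_nonneg _)
    nlinarith [h2 (Y - a)]
  · simp only [h, if_false]
    rw [min_eq_left (by omega)]
    nlinarith [h1 (Y - a)]

/-- light part of the conditional law -/
noncomputable def lt (p : SPrime) (z : ℕ → GI) (K k1 : ℕ) (S' : Finset SPrime) (h0 : ℝ) (i : ℕ)
    (c : ZMod p.1) : ℝ :=
  if claw p z K k1 S' i c ≤ 1 / h0 then claw p z K k1 S' i c else 0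

theorem claw_nonneg (p : SPrime) (z : ℕ → GI) (K k1 : ℕ) (S' : Finset SPrime) (i : ℕ)
    (c : ZMod p.1) : 0 ≤ claw p z K k1 S' i c := law_nonneg _ _ _ _

theorem sum_claw (p : SPrime) (z : ℕ → GI) (K k1 : ℕ) (S' : Finset SPrime) {i : ℕ}
    (hi : i ∈ range (2 ^ (K - k1))) : ∑ c, claw p z K k1 S' i c = 1 := by
  unfold claw
  apply sum_law
  exact ⟨i, by simpa using hi⟩

theorem lt_nonneg (p : SPrime) (z : ℕ → GI) (K k1 : ℕ) (S' : Finset SPrime) (h0 : ℝ) (i : ℕ)
    (c : ZMod p.1) : 0 ≤ lt p z K k1 S' h0 i c := by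
  unfold lt; split_ifs
  · exact claw_nonneg ..
  · rfl

theorem lt_le (p : SPrime) (z : ℕ → GI) (K k1 : ℕ) (S' : Finset SPrime) (h0 : ℝ) (i : ℕ)
    (c : ZMod p.1) : lt p z K k1 S' h0 i c ≤ claw p z K k1 S' i c := by
  unfold lt; split_ifs
  · rfl
  · exact claw_nonneg ..

theorem lt_le' (p : SPrime) (z : ℕ → GI) (K k1 : ℕ) (S' : Finset SPrime) {h0 : ℝ} (hh : 0 < h0)
    (i : ℕ) (c : ZMod p.1) : lt p z K k1 S' h0 i c ≤ 1 / h0 := by
  unfold lt; split_ifs with h
  · exact h
  · positivity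

theorem core {D P K k1 b kk : ℕ} {S S' : Finset SPrime} {z : ℕ → GI} {h0 q M ε τ e1 e2 : ℝ}
    (hS : InScale P S) (hne : S.Nonempty) (hb : b ≤ k1) (hk : k1 ≤ K)
    (hz : IsPath D z (2 ^ K + 1)) (hh : 0 < h0) (hq : 2 * P / h0 ≤ q) (_hM : 0 ≤ M)
    (hU : UnderM D S k1 b q M ε)
    (hC : ∀ z' : ℕ → GI, IsPath D z' (2 ^ b) → ∃ Exc ⊆ S, (Exc.card : ℝ) * M ≤ e1 * S.card ∧
      (∑ p ∈ S \ Exc, (cl p z' 0 (2 ^ b) kk : ℝ)) * q ≤ e2 * S.card * 2 ^ b)
    (hHit : avg S (fun p => avg (range (2 ^ (K - k1))) (fun i => avg (range (2 ^ (k1 - b))) (fun β =>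
      ∑ c, claw p z K k1 S' i c *
        (min (mult p z (i * 2 ^ k1 + β * 2 ^ b) (2 ^ b) (res p (z (i * 2 ^ k1)) - c)) kk : ℕ))))
      ≤ τ) :
    avg S (fun p => avg (range (2 ^ (K - k1))) (fun i => ∑ c, lt p z K k1 S' h0 i c)) ≤
      ε + 2 * P / 2 ^ b * τ + e1 + e2 := by
  have hm : (0 : ℝ) < S.card := by exact_mod_cast hne.card_pos
  have hN : (0 : ℝ) < 2 ^ b := by positivity
  have hq0 : 0 ≤ q := le_trans (by positivity) hq
  have hI : (range (2 ^ (K - k1))).Nonempty := nonempty_range_iff.2 (by positivity)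
  have hB : (range (2 ^ (k1 - b))).Nonempty := nonempty_range_iff.2 (by positivity)
  set T : SPrime → ℕ → ℕ → ℝ := fun p i β => ∑ c, claw p z K k1 S' i c *
    (min (mult p z (i * 2 ^ k1 + β * 2 ^ b) (2 ^ b) (res p (z (i * 2 ^ k1)) - c)) kk : ℕ) with hT
  have hT0 : ∀ p i β, 0 ≤ T p i β := fun p i β =>
    sum_nonneg fun c _ => mul_nonneg (claw_nonneg ..) (Nat.cast_nonneg _)
  have key : ∀ i ∈ range (2 ^ (K - k1)), avg S (fun p => ∑ c, lt p z K k1 S' h0 i c) ≤
      ε + 2 * P / 2 ^ b * avg S (fun p => avg (range (2 ^ (k1 - b))) (fun β => T p i β)) +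
        e1 + e2 := by
    intro i hi
    have hi' : i * 2 ^ k1 + 2 ^ k1 ≤ 2 ^ K := by
      have : (i + 1) * 2 ^ k1 ≤ 2 ^ (K - k1) * 2 ^ k1 :=
        Nat.mul_le_mul_right _ (by simpa using hi)
      rw [← pow_add, Nat.sub_add_cancel hk] at this
      linarith
    have hz1 := hz.shift (i * 2 ^ k1) (2 ^ k1) (by omega)
    set G : (p : SPrime) → ZMod p.1 → ℝ := fun p a =>
      p.1 * lt p z K k1 S' h0 i (res p (z (i * 2 ^ k1)) - a) with hG
    have hmean : ∀ p : SPrime, mean p (G p) = ∑ c, lt p z K k1 S' h0 i c := by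
      intro p
      have hp := p.pos
      unfold mean
      simp only [hG, ← mul_sum]
      rw [mul_div_cancel_left₀ _ hp.ne', ← Equiv.sum_comp (Equiv.subLeft (res p (z (i * 2 ^ k1))))]
      simp
    have hp2 : ∀ p ∈ S, (p.1 : ℝ) ≤ 2 * P := fun p hp => by exact_mod_cast (hS p hp).2
    have hpq : ∀ p ∈ S, (p.1 : ℝ) * (1 / h0) ≤ q := fun p hp => by
      refine le_trans ?_ hq
      rw [mul_one_div]
      exact div_le_div_of_nonneg_right (hp2 p hp) hh.le
    have hole : IsHole S q G := by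
      intro p hp
      refine ⟨fun a => ⟨mul_nonneg p.pos.le (lt_nonneg ..), ?_⟩, ?_⟩
      · exact le_trans (mul_le_mul_of_nonneg_left (lt_le' _ _ _ _ _ hh _ _) p.pos.le) (hpq p hp)
      · rw [hmean]
        exact (sum_le_sum fun c _ => lt_le p z K k1 S' h0 i c).trans (sum_claw p z K k1 S' hi).le
    have h1 := hU _ hz1 G hole
    simp only [hmean] at h1
    rw [avg_comm] at h1
    have h2 : ∀ β ∈ range (2 ^ (k1 - b)), avg S (fun p => min M (avg (range (2 ^ b))
        (fun t => G p (res p (z (i * 2 ^ k1 + (β * 2 ^ b + t))))))) ≤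
        2 * P / 2 ^ b * avg S (fun p => T p i β) + e1 + e2 := by
      intro β hβ
      have hβ' : β * 2 ^ b + 2 ^ b ≤ 2 ^ k1 := by
        have : (β + 1) * 2 ^ b ≤ 2 ^ (k1 - b) * 2 ^ b :=
          Nat.mul_le_mul_right _ (by simpa using hβ)
        rw [← pow_add, Nat.sub_add_cancel hb] at this
        linarith
      obtain ⟨Exc, hE, hE1, hE2⟩ := hC _ (hz.shift (i * 2 ^ k1 + β * 2 ^ b) (2 ^ b) (by omega))
      have hcl : ∀ p, cl p (fun t => z (i * 2 ^ k1 + β * 2 ^ b + t)) 0 (2 ^ b) kk =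
          cl p z (i * 2 ^ k1 + β * 2 ^ b) (2 ^ b) kk := fun p => by simp [cl, mult]
      simp only [hcl] at hE2
      have h3 : ∀ p ∈ S, min M (avg (range (2 ^ b))
          (fun t => G p (res p (z (i * 2 ^ k1 + (β * 2 ^ b + t)))))) ≤
          2 * P / 2 ^ b * T p i β + (if p ∈ Exc then M else
            q / 2 ^ b * cl p z (i * 2 ^ k1 + β * 2 ^ b) (2 ^ b) kk) := by
        intro p hp
        have hT1 : 0 ≤ 2 * P / 2 ^ b * T p i β := mul_nonneg (by positivity) (hT0 ..)
        split_ifs with hpE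
        · exact (min_le_left _ _).trans (by linarith)
        refine (min_le_right _ _).trans ?_
        have h4 := visit_le p z (i * 2 ^ k1 + β * 2 ^ b) (2 ^ b) kk (res p (z (i * 2 ^ k1)))
          (lt p z K k1 S' h0 i) (claw p z K k1 S' i) (1 / h0) (lt_nonneg _ _ _ _ _ _ _)
          (lt_le _ _ _ _ _ _ _) (lt_le' _ _ _ _ _ hh _)
        unfold avg
        simp only [hG, ← mul_sum, card_range, ← add_assoc, Nat.cast_pow, Nat.cast_ofNat]
        rw [div_le_iff₀ hN]
        have hc0 : (0 : ℝ) ≤ cl p z (i * 2 ^ k1 + β * 2 ^ b) (2 ^ b) kk := Nat.cast_nonneg _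
        have e : (2 * P / 2 ^ b * T p i β + q / 2 ^ b * cl p z (i * 2 ^ k1 + β * 2 ^ b) (2 ^ b) kk)
            * 2 ^ b = 2 * P * T p i β + q * cl p z (i * 2 ^ k1 + β * 2 ^ b) (2 ^ b) kk := by
          field_simp
        rw [e]
        refine (mul_le_mul_of_nonneg_left h4 p.pos.le).trans ?_
        rw [mul_add, ← mul_assoc]
        exact add_le_add (mul_le_mul_of_nonneg_right (hp2 p hp) (hT0 p i β))
          (mul_le_mul_of_nonneg_right (hpq p hp) hc0)
      refine (avg_le_avg h3).trans ?_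
      rw [avg_add, avg_mul_left, add_assoc]
      refine add_le_add le_rfl ?_
      unfold avg
      rw [div_le_iff₀ hm, sum_ite, sum_const, nsmul_eq_mul, ← mul_sum]
      have e1' : S.filter (fun p => p ∈ Exc) = Exc := by
        ext p; simp only [mem_filter]; exact ⟨fun h => h.2, fun h => ⟨hE h, h⟩⟩
      have e2' : S.filter (fun p => ¬ p ∈ Exc) = S \ Exc := by
        ext p; simp
      rw [e1', e2', add_mul]
      refine add_le_add hE1 ?_
      rw [div_mul_eq_mul_div, div_le_iff₀ hN, mul_comm q]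
      exact hE2
    have h5 := avg_le_avg h2
    rw [avg_add, avg_add, avg_const hB, avg_const hB, avg_mul_left,
      avg_comm _ S (fun β p => T p i β)] at h5
    linarith
  rw [avg_comm]
  refine (avg_le_avg key).trans ?_
  rw [avg_add, avg_add, avg_add, avg_const hI, avg_const hI, avg_const hI, avg_mul_left,
    ← avg_comm]
  have : 2 * P / 2 ^ b * avg S (fun p => avg (range (2 ^ (K - k1))) (fun i =>
      avg (range (2 ^ (k1 - b))) (fun β => T p i β))) ≤ 2 * P / 2 ^ b * τ :=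
    mul_le_mul_of_nonneg_left hHit (by positivity)
  linarith

end Contra

theorem contra (hU : UnderStmt) (hC : CliqueStmt) (hH : HalfStmt) (hL : LightStmt)
    (hHit : HitStmt) : ContraStmt := by
  intro D hD
  obtain ⟨P0, hP0⟩ := hU D (1 / 10000000) hD (by norm_num)
  obtain ⟨u0, hu0⟩ := hC D
  refine ⟨max (max P0 u0) (max D 400000000), fun n hn u hu P S S' hP1 hP2 hG hS' K hK z hz hav => ?_⟩
  have hnu : n < u := hu ▸ Nat.lt_two_pow_self
  have hn1 : P0 ≤ n := le_trans (le_trans (le_max_left _ _) (le_max_left _ _)) hn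
  have hn2 : u0 ≤ n := le_trans (le_trans (le_max_right _ _) (le_max_left _ _)) hn
  have hn3 : D ≤ n := le_trans (le_trans (le_max_left _ _) (le_max_right _ _)) hn
  have hn4 : 400000000 ≤ n := le_trans (le_trans (le_max_right _ _) (le_max_right _ _)) hn
  have hu1 : 1 ≤ u := by omega
  have hpw : ∀ c : ℕ, 2 ^ (c * n) = u ^ c := fun c => by rw [hu, ← pow_mul, mul_comm]
  have hmono : ∀ {a c : ℕ}, a ≤ c → u ^ a ≤ u ^ c := fun h => Nat.pow_le_pow_right hu1 h
  have huP : u ≤ P := le_trans (by simpa using hmono (a := 1) (c := 1000000) (by norm_num)) hP1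
  have hP2' : 2 ≤ P := by omega
  have hne := hG.nonempty (by omega)
  have hb : 1000001 * n ≤ u ^ 500009 :=
    le_trans (by nlinarith : 1000001 * n ≤ u ^ 2) (hmono (by norm_num))
  have hk : u ^ 500009 ≤ K := le_trans (hmono (by norm_num)) hK
  have huR : (400000000 : ℝ) ≤ u := by exact_mod_cast (by omega : 400000000 ≤ u)
  have huR0 : (0 : ℝ) < u := by linarith
  have huR1 : (1 : ℝ) ≤ u := by linarith
  have hPR : (0 : ℝ) < P := by exact_mod_cast (by omega : 0 < P)
  have hP1R : (u : ℝ) ^ 1000000 ≤ P := by exact_mod_cast hP1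
  have hP2R : (P : ℝ) ≤ (u : ℝ) ^ 1000001 := by exact_mod_cast hP2
  have hmonoR : ∀ {a c : ℕ}, a ≤ c → (u : ℝ) ^ a ≤ (u : ℝ) ^ c := fun h => pow_le_pow_right₀ huR1 h
  set ν := Real.log u with hν
  have hl2 := Real.log_two_gt_d9
  have hl2' := Real.log_two_lt_d9
  have hν1 : 20 ≤ ν := by
    have : ν = n * Real.log 2 := by rw [hν, hu]; push_cast; rw [Real.log_pow]
    have hnR : (400000000 : ℝ) ≤ n := by exact_mod_cast hn4
    nlinarith
  have hL1 : 1000000 * ν ≤ Real.log P := by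
    have := Real.log_le_log (by positivity) hP1R
    rwa [Real.log_pow] at this
  have hL2 : Real.log P ≤ 1000001 * ν := by
    have := Real.log_le_log hPR hP2R
    rwa [Real.log_pow] at this
  have hlk : Real.log ((u ^ 500009 : ℕ) : ℝ) = 500009 * ν := by
    rw [Nat.cast_pow, Real.log_pow]; rfl
  have hm : (0 : ℝ) < S.card := by exact_mod_cast hne.card_pos
  by_contra hcon
  push Not at hcon
  -- hit bound
  have h1 := hHit D P K (u ^ 500009) (1000001 * n) (499999 * n) (u ^ 11) (u ^ 499991) S S' z _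
    hG.1 hne (by omega) hb hk
    (by rw [← pow_add, ← Nat.sub_mul, hpw])
    (by
      rw [hpw]
      refine lt_of_lt_of_le ?_ hP1
      have : D * u ^ 499999 < u * u ^ 499999 := Nat.mul_lt_mul_of_pos_right (by omega) (by positivity)
      calc (D * u ^ 499999) ^ 2 < (u * u ^ 499999) ^ 2 := Nat.pow_lt_pow_left this two_ne_zero
        _ = u ^ 1000000 := by rw [← pow_succ', ← pow_mul])
    hz hav hcon
  -- under-visiting
  have h2 := hP0 P (by omega) S hG (1000001 * n) (u ^ 500009) (2 * (u : ℝ) ^ 500003)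
    ((u : ℝ) ^ 200001) (by rw [hpw]; exact hP2)
    (by
      rw [hpw]
      calc u ^ 1000001 ≤ (u ^ 1000000) ^ 2 := by rw [← pow_mul]; exact hmono (by norm_num)
        _ ≤ P ^ 2 := Nat.pow_le_pow_left hP1 2)
    (by rw [hlk]; linarith) (by rw [hlk]; linarith)
    (by have := one_le_pow₀ (n := 500003) huR1; linarith)
    (by rw [hlk, Real.log_mul two_ne_zero (by positivity), Real.log_pow]; push_cast; linarith)
    (by positivity) (by rw [← pow_mul]; exact hP2R.trans (hmonoR (by norm_num)))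
  have h3 := Contra.core (h0 := (u : ℝ) ^ 499998) (e1 := 1 / u) (e2 := 2 / u) hG.1 hne hb hk hz
    (by positivity)
    (by
      rw [div_le_iff₀ (by positivity), mul_assoc, ← pow_add]
      exact mul_le_mul_of_nonneg_left hP2R (by norm_num))
    (by positivity) h2
    (by
      intro z' hz'
      rw [hpw] at hz'
      obtain ⟨Exc, hE, hE1, hE2⟩ := hu0 u (by omega) P S hP1 hP2 hG z' hz'
      refine ⟨Exc, hE, ?_, ?_⟩
      · have hE1' : (Exc.card : ℝ) * (u : ℝ) ^ 300000 ≤ S.card := by exact_mod_cast hE1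
        rw [one_div_mul_eq_div, le_div_iff₀ huR0, mul_assoc, ← pow_succ]
        exact le_trans (mul_le_mul_of_nonneg_left (hmonoR (by norm_num)) (Nat.cast_nonneg _)) hE1'
      · have hE2' : (∑ p ∈ S \ Exc, (cl p z' 0 (u ^ 1000001) (u ^ 499991) : ℝ)) * (u : ℝ) ^ 500004 ≤
            S.card * (u : ℝ) ^ 1000001 := by exact_mod_cast hE2
        have e : (2 : ℝ) ^ (1000001 * n) = (u : ℝ) ^ 1000001 := by exact_mod_cast hpw 1000001
        rw [hpw, e, mul_assoc, div_mul_eq_mul_div, le_div_iff₀ huR0]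
        rw [pow_succ (u : ℝ) 500003] at hE2'
        nlinarith)
    h1
  -- half bound
  have h4 := hH D P K (u ^ 500009) S S' z hD hP2' hG.1 hne hk hz
    (by
      have hc := hG.1.card_le
      have e1 : P ^ S.card ≤ 2 ^ (1000001 * n * (2 * u ^ 1000001)) := by
        rw [pow_mul, hpw]
        exact le_trans (Nat.pow_le_pow_left hP2 _)
          (Nat.pow_le_pow_right (by positivity) (by omega))
      refine e1.trans ?_
      rw [← pow_mul]
      apply Nat.pow_le_pow_right two_pos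
      have e2 : u ^ 1000002 = u * u ^ 1000001 := by rw [← pow_succ']
      have e3 : 2 * u ^ 500009 ≤ u ^ 1000002 :=
        le_trans (by rw [pow_succ' u 500009]; exact Nat.mul_le_mul_right _ (by omega))
          (hmono (a := 500009 + 1) (by norm_num))
      have e4 : 1000001 * n * (2 * u ^ 1000001) ≤ u ^ 1000002 := by
        rw [e2, ← mul_assoc]
        apply Nat.mul_le_mul_right
        have h30 : n * n ≤ 2 ^ n := by
          have h5 : ∀ m : ℕ, (m + 4) * (m + 4) ≤ 2 ^ (m + 4) := by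
            intro m
            induction m with
            | zero => norm_num
            | succ m ih => rw [show m + 1 + 4 = m + 4 + 1 by ring, pow_succ]; nlinarith
          have := h5 (n - 4)
          rwa [Nat.sub_add_cancel (by omega)] at this
        rw [hu]; nlinarith
      generalize u ^ 1000002 = A at *
      generalize u ^ 500009 = B at *
      omega)
  have h5 : Real.log (2 * (D * 2 ^ (u ^ 500009))) + ∑ p ∈ S', Real.log p.1 ≤ P / 40000000 := by
    have hDR : (0 : ℝ) < D := by exact_mod_cast hD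
    have hDu : (D : ℝ) ≤ u := by exact_mod_cast (by omega : D ≤ u)
    rw [Real.log_mul two_ne_zero (by positivity), Real.log_mul hDR.ne' (by positivity),
      Real.log_pow]
    have e1 := Real.log_le_sub_one_of_pos hDR
    have e2 : (u : ℝ) ≤ (u : ℝ) ^ 500009 := by simpa using hmonoR (a := 1) (c := 500009) (by norm_num)
    have e3 : (u : ℝ) ^ 500009 * u ≤ P := by
      rw [← pow_succ]; exact (hmonoR (by norm_num)).trans hP1R
    rw [Nat.cast_pow]
    generalize (u : ℝ) ^ 500009 = B at *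
    have e4 : B * 400000000 ≤ P := le_trans (mul_le_mul_of_nonneg_left huR (by linarith)) e3
    nlinarith
  have h6 : (Real.log (2 * (D * 2 ^ (u ^ 500009))) + ∑ p ∈ S', Real.log p.1) / S.card ≤
      24 * Real.log P / 40000000 := by
    rw [div_le_iff₀ hm]
    have := hG.2
    linarith
  have hI : (range (2 ^ (K - u ^ 500009))).Nonempty := nonempty_range_iff.2 (by positivity)
  have h7 : ∀ p ∈ S, cH (range (2 ^ (K - u ^ 500009))) (fun i => res p (z (i * 2 ^ (u ^ 500009))))
      (fun i => resAt S' (z (i * 2 ^ (u ^ 500009)))) ≤ (499998 * ν + 1) + (1000002 * ν) *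
        avg (range (2 ^ (K - u ^ 500009))) (fun i =>
          ∑ c, Contra.lt p z K (u ^ 500009) S' ((u : ℝ) ^ 499998) i c) := by
    intro p hp
    have e1 := hL p z K (u ^ 500009) S' ((u : ℝ) ^ 499998) (one_le_pow₀ huR1)
    rw [Real.log_pow] at e1
    refine e1.trans ?_
    have e2 : Real.log p.1 ≤ 1000002 * ν := by
      have : (p.1 : ℝ) ≤ 2 * P := by exact_mod_cast (hG.1 p hp).2
      have := Real.log_le_log p.pos this
      rw [Real.log_mul two_ne_zero hPR.ne'] at this
      linarith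
    have e3 : 0 ≤ avg (range (2 ^ (K - u ^ 500009))) (fun i =>
        ∑ c, Contra.lt p z K (u ^ 500009) S' ((u : ℝ) ^ 499998) i c) :=
      avg_nonneg fun i _ => sum_nonneg fun c _ => Contra.lt_nonneg ..
    rw [mul_comm (1000002 * ν)]
    exact add_le_add (le_of_eq (by norm_num [hν])) (mul_le_mul_of_nonneg_left e2 e3)
  have h8 := avg_le_avg h7
  rw [avg_add, avg_const hne, avg_mul_left] at h8
  have h9 : 2 * P / 2 ^ (1000001 * n) * (2 * ((u ^ 499991 : ℕ) : ℝ) *
      (1 / 10000000 * (u : ℝ) ^ 500010 / P)) = 4 / 10000000 := by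
    have e : (2 : ℝ) ^ (1000001 * n) = (u : ℝ) ^ 499991 * (u : ℝ) ^ 500010 := by
      rw [← pow_add]; exact_mod_cast hpw 1000001
    rw [e, Nat.cast_pow]
    have a1 : (0 : ℝ) < (u : ℝ) ^ 499991 := by positivity
    have a2 : (0 : ℝ) < (u : ℝ) ^ 500010 := by positivity
    generalize (u : ℝ) ^ 499991 = A at *
    generalize (u : ℝ) ^ 500010 = B at *
    field_simp
    norm_num
  rw [h9] at h3
  have h10 : 1 / (u : ℝ) ≤ 1 / 400000000 := one_div_le_one_div_of_le (by norm_num) huR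
  have h11 : 2 / (u : ℝ) = 2 * (1 / u) := by ring
  generalize avg S (fun p => avg (range (2 ^ (K - u ^ 500009))) (fun i =>
    ∑ c, Contra.lt p z K (u ^ 500009) S' ((u : ℝ) ^ 499998) i c)) = lm at h3 h8
  have h12 : lm ≤ 6 / 10000000 := by linarith
  have h13 : 1000002 * ν * lm ≤ 1000002 * ν * (6 / 10000000) :=
    mul_le_mul_of_nonneg_left h12 (by linarith)
  linarith

end Crest.Agent.R2
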