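import Crest.Agent.R2.Basic

/-! Row 2, growth lemma G4: counting tuples. -/

set_option autoImplicit false

open Finset
open scoped Pointwise Classical

namespace Crest.Agent.R2

namespace CountAux

/-- truncation to the first `k` coordinates -/
def trunc (k : ℕ) (s : ℕ → GI) : ℕ → GI := fun i => if i < k then s i else 0

lemma prefix_count (𝒮 : Finset (ℕ → GI)) {J : ℝ} (hJ : 0 ≤ J) (R : ℕ)
    (h : ∀ k < R, ∀ s ∈ 𝒮,
      (((𝒮.filter (fun s' => ∀ i < k, s' i = s i)).image (fun s' => s' k)).card : ℝ) ≤ J) :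
    ∀ k ≤ R, ((𝒮.image (trunc k)).card : ℝ) ≤ J ^ k := by
  intro k
  induction k with
  | zero =>
    intro _
    have : (𝒮.image (trunc 0)).card ≤ 1 := by
      rw [card_le_one]
      intro a ha b hb
      obtain ⟨s, -, rfl⟩ := mem_image.1 ha
      obtain ⟨s', -, rfl⟩ := mem_image.1 hb
      funext i; simp [trunc]
    simpa using (Nat.cast_le (α := ℝ)).2 this
  | succ k ih =>
    intro hk
    have hmaps : ∀ x ∈ 𝒮.image (trunc (k + 1)), trunc k x ∈ 𝒮.image (trunc k) := by
      intro x hx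
      obtain ⟨s, hs, rfl⟩ := mem_image.1 hx
      refine mem_image.2 ⟨s, hs, ?_⟩
      funext i
      simp only [trunc]
      split_ifs with h1 h2
      · rfl
      · omega
      · rfl
    rw [card_eq_sum_card_fiberwise hmaps, Nat.cast_sum, pow_succ]
    refine (sum_le_card_nsmul _ _ J fun y hy => ?_).trans ?_
    · obtain ⟨s, hs, rfl⟩ := mem_image.1 hy
      refine le_trans (Nat.cast_le.2 (card_le_card_of_injOn (fun x => x k) ?_ ?_))
        (h k (by omega) s hs)
      · intro x hx
        obtain ⟨hx1, hx2⟩ := mem_filter.1 (mem_coe.1 hx)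
        obtain ⟨s', hs', rfl⟩ := mem_image.1 hx1
        refine mem_coe.2 (mem_image.2 ⟨s', mem_filter.2 ⟨hs', fun i hi => ?_⟩, by simp [trunc]⟩)
        have := congrFun hx2 i
        simpa [trunc, hi, show i < k + 1 by omega] using this
      · intro x hx x' hx' hxx
        obtain ⟨hx1, hx2⟩ := mem_filter.1 (mem_coe.1 hx)
        obtain ⟨hx1', hx2'⟩ := mem_filter.1 (mem_coe.1 hx')
        obtain ⟨s1, -, rfl⟩ := mem_image.1 hx1
        obtain ⟨s2, -, rfl⟩ := mem_image.1 hx1'
        funext i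
        rcases lt_trichotomy i k with hi | rfl | hi
        · have := congrFun (hx2.trans hx2'.symm) i
          simpa [trunc, hi] using this
        · exact hxx
        · simp [trunc, show ¬ i < k + 1 by omega]
    · rw [nsmul_eq_mul]
      exact mul_le_mul_of_nonneg_right (ih (by omega)) hJ

variable {R : ℕ}

/-- all residues of the tuple lie in `A p` -/
def In (A : (p : SPrime) → Finset (ZMod p.1)) (ω : GI × (Fin R → GI)) (p : SPrime) : Prop :=
  res p ω.1 ∈ A p ∧ ∀ r, res p (ω.2 r) ∈ A p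

/-- the weight of a tuple -/
noncomputable def wt (W : GI → ℝ) (ω : GI × (Fin R → GI)) : ℝ := W ω.1 * ∏ r, W (ω.2 r)

/-- the tuples -/
noncomputable def tup (R : ℕ) (V : Finset GI) : Finset (GI × (Fin R → GI)) :=
  V ×ˢ Fintype.piFinset fun _ => V

lemma mem_tup {V : Finset GI} {ω : GI × (Fin R → GI)} : ω ∈ tup R V ↔ ω.1 ∈ V ∧ ∀ r, ω.2 r ∈ V := by
  simp [tup]

lemma sum_wt (V : Finset GI) (W : GI → ℝ) : ∑ ω ∈ tup R V, wt W ω = (∑ v ∈ V, W v) ^ (R + 1) := by
  rw [tup, sum_product]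
  simp only [wt, ← mul_sum]
  rw [← sum_mul, ← prod_univ_sum (fun _ : Fin R => V) (fun _ v => W v)]
  simp [pow_succ']

/-- the difference vector -/
def sig (c : ℕ → ℕ) (ω : GI × (Fin R → GI)) : ℕ → GI :=
  fun i => if h : i < R then ω.2 ⟨i, h⟩ - (c i : GI) * ω.1 else 0

lemma mem_fibre {A : (p : SPrime) → Finset (ZMod p.1)} {c : ℕ → ℕ} {ω : GI × (Fin R → GI)}
    {p : SPrime} (h : In A ω p) {k : ℕ} (hk : k ≤ R) {s : ℕ → GI} (hs : ∀ i < k, sig c ω i = s i) :
    res p ω.1 ∈ fibre p (A p) c k (fun i => res p (s i)) := by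
  refine mem_filter.2 ⟨h.1, fun i hi => ?_⟩
  have hi' : i < R := by omega
  beta_reduce
  rw [← hs i hi, sig, dif_pos hi', map_sub, map_mul, map_natCast, sub_add_cancel]
  exact h.2 _

lemma good_weight {T : Finset SPrime} (hT : T.Nonempty) {V : Finset GI} {W : GI → ℝ}
    {A : (p : SPrime) → Finset (ZMod p.1)} {β w : ℝ} (hβ : 0 < β) (hW : ∀ v ∈ V, 0 ≤ W v)
    (hW1 : ∑ v ∈ V, W v ≤ 1) (hw : w = β ^ (R + 1) / 2)
    (hA : ∀ p ∈ T, β ≤ ∑ a ∈ A p, push p V id W a) :
    w ≤ ∑ ω ∈ (tup R V).filter (fun ω => w * T.card ≤ (T.filter (In A ω)).card), wt W ω := by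
  have hu : (0 : ℝ) < T.card := by exact_mod_cast hT.card_pos
  have hw0 : 0 < w := by rw [hw]; positivity
  have hwt : ∀ ω ∈ tup R V, 0 ≤ wt W ω := fun ω hω =>
    mul_nonneg (hW _ (mem_tup.1 hω).1) (prod_nonneg fun r _ => hW _ ((mem_tup.1 hω).2 r))
  have h1 : ∀ p ∈ T, 2 * w ≤ ∑ ω ∈ tup R V, if In A ω p then wt W ω else 0 := by
    intro p hp
    have e1 : (tup R V).filter (fun ω => In A ω p) = tup R (V.filter fun v => res p v ∈ A p) := by
      ext ω
      simp only [mem_filter, mem_tup, In, forall_and]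
      tauto
    have e2 : ∑ a ∈ A p, push p V id W a = ∑ v ∈ V.filter (fun v => res p v ∈ A p), W v := by
      have := sum_push_mul p V id W (fun a => if a ∈ A p then 1 else 0)
      simpa [sum_filter] using this
    rw [← sum_filter, e1, sum_wt, ← e2, hw, mul_div_cancel₀ _ two_ne_zero]
    exact pow_le_pow_left₀ hβ.le (hA p hp) _
  have h2 : T.card * (2 * w) ≤ ∑ ω ∈ tup R V, wt W ω * (T.filter (In A ω)).card := by
    refine le_trans ?_ ((sum_le_sum h1).trans_eq ?_)
    · rw [sum_const, nsmul_eq_mul]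
    · rw [sum_comm]
      refine sum_congr rfl fun ω _ => ?_
      rw [← sum_filter, sum_const, nsmul_eq_mul, mul_comm]
  have h3 : ∑ ω ∈ tup R V, wt W ω * (T.filter (In A ω)).card ≤
      ∑ ω ∈ tup R V, ((if w * T.card ≤ (T.filter (In A ω)).card then wt W ω else 0) * T.card +
        wt W ω * (w * T.card)) := by
    refine sum_le_sum fun ω hω => ?_
    have h0 := hwt ω hω
    have hc : ((T.filter (In A ω)).card : ℝ) ≤ T.card := by exact_mod_cast card_filter_le _ _
    split_ifs with h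
    · have := mul_le_mul_of_nonneg_left hc h0
      have : 0 ≤ wt W ω * (w * T.card) := by positivity
      linarith
    · have := mul_le_mul_of_nonneg_left (not_le.1 h).le h0
      linarith
  rw [sum_add_distrib, ← sum_mul, ← sum_mul, ← sum_filter, sum_wt] at h3
  have h4 : (∑ v ∈ V, W v) ^ (R + 1) ≤ 1 := pow_le_one₀ (sum_nonneg hW) hW1
  have h5 := mul_le_mul_of_nonneg_right h4 (by positivity : 0 ≤ w * T.card)
  refine le_of_mul_le_mul_right ?_ hu
  linarith

/-- the centred indicator of `B` -/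
noncomputable def cen (p : SPrime) (B : Finset (ZMod p.1)) (x : ZMod p.1) : ℝ :=
  (if x ∈ B then 1 else 0) - (B.card : ℝ) / p.1

lemma dens_le_one (p : SPrime) (B : Finset (ZMod p.1)) : (B.card : ℝ) / p.1 ≤ 1 := by
  rw [div_le_one p.pos]
  have := card_le_univ B
  rw [ZMod.card] at this
  exact_mod_cast this

lemma sum_cen (p : SPrime) (B : Finset (ZMod p.1)) : ∑ x, cen p B x = 0 := by
  have := p.pos
  simp only [cen, sum_sub_distrib, sum_const, card_univ, ZMod.card, nsmul_eq_mul]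
  rw [sum_ite_mem, univ_inter, sum_const, nsmul_eq_mul, mul_one, mul_div_cancel₀ _ this.ne',
    sub_self]

lemma abs_cen (p : SPrime) (B : Finset (ZMod p.1)) (x : ZMod p.1) : |cen p B x| ≤ 1 := by
  have h1 := dens_le_one p B
  have h0 : 0 ≤ (B.card : ℝ) / p.1 := by positivity
  unfold cen
  split_ifs <;> rw [abs_le] <;> constructor <;> linarith

lemma mean_cen (p : SPrime) (B : Finset (ZMod p.1)) :
    mean p (fun x => cen p B x ^ 2) ≤ (B.card : ℝ) / p.1 := by
  have hp := p.pos
  have e : ∀ x, cen p B x ^ 2 = (1 - 2 * ((B.card : ℝ) / p.1)) * cen p B x +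
      (B.card : ℝ) / p.1 * (1 - (B.card : ℝ) / p.1) := fun x => by
    unfold cen; split_ifs <;> ring
  simp only [mean, e, sum_add_distrib, ← mul_sum, sum_cen, sum_const, card_univ, ZMod.card,
    nsmul_eq_mul, mul_zero, zero_add]
  rw [div_le_iff₀ hp]
  have h0 : 0 ≤ (B.card : ℝ) / p.1 := by positivity
  nlinarith [mul_nonneg (mul_nonneg h0 h0) hp.le]

end CountAux

open CountAux in
theorem count (h : JohnsonStmt) : CountStmt := by
  intro P R t T V W A c s0 Rr β v Φ w hP hT hTne ht hRr hβ hs0 hv hW hc hw hvw hnorm hA hfib hJ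
  obtain ⟨hW, hW1⟩ := hW
  have hu : (0 : ℝ) < T.card := by exact_mod_cast hTne.card_pos
  have hw0 : 0 < w := by rw [hw]; positivity
  have hP0 : (0 : ℝ) < P := by exact_mod_cast (by omega : 0 < P)
  set Jb : ℝ := 1024 * ((2 * P : ℝ) ^ t) ^ 2 * (24 * t * max (T.card * v) t) ^ t /
      (w * T.card / 2) ^ (2 * t) with hJb
  have hJb0 : 0 ≤ Jb := by positivity
  set G := (tup R V).filter (fun ω => w * T.card ≤ (T.filter (In A ω)).card) with hG
  have hGw : w ≤ G.card * s0 ^ (R + 1) := by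
    refine (good_weight hTne hβ (fun v hv => (hW v hv).1) hW1 hw hA).trans ?_
    rw [← nsmul_eq_mul]
    refine sum_le_card_nsmul _ _ _ fun ω hω => ?_
    obtain ⟨h1, h2⟩ := mem_tup.1 (mem_filter.1 hω).1
    rw [wt, pow_succ']
    refine mul_le_mul (hW _ h1).2.1 ?_ (prod_nonneg fun r _ => (hW _ (h2 r)).1) hs0.le
    refine (prod_le_prod (fun r _ => (hW _ (h2 r)).1) fun r _ => (hW _ (h2 r)).2.1).trans_eq ?_
    simp
  have hS : ((G.image (sig c)).card : ℝ) ≤ Jb ^ R := by
    have h1 := prefix_count (G.image (sig c)) hJb0 R (fun k hk s _ => ?_) R le_rfl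
    · rwa [image_congr (g := id), image_id] at h1
      intro s hs
      obtain ⟨ω, -, rfl⟩ := mem_image.1 (mem_coe.1 hs)
      funext i
      simp only [trunc, id, sig]
      split_ifs <;> rfl
    set B : (p : SPrime) → Finset (ZMod p.1) := fun p =>
      A p - (fibre p (A p) c k fun i => res p (s i)).image fun a => (c k : ZMod p.1) * a with hB
    have hBv : ∀ p ∈ T, ((B p).card : ℝ) / p.1 ≤ v := fun p hp => by
      rw [div_le_iff₀' p.pos]; exact (hfib p hp _).1 k hk
    refine h P t T _ (fun p => cen p (B p)) v (w * T.card / 2) (by omega) hT ht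
      (fun p _ => sum_cen p _) (fun p _ => abs_cen p _)
      (fun p hp => (mean_cen p _).trans (hBv p hp)) (by positivity) (fun y hy => ?_) fun y hy => ?_
    · obtain ⟨s', hs', rfl⟩ := mem_image.1 hy
      obtain ⟨ω, hω, rfl⟩ := mem_image.1 (mem_filter.1 hs').1
      obtain ⟨h1, h2⟩ := mem_tup.1 (mem_filter.1 hω).1
      rw [sig, dif_pos hk]
      have h3 : ((((c k : GI) * ω.1).norm : ℤ) : ℝ) ≤ (P * Rr) ^ 2 := by
        rw [Zsqrtd.norm_mul, Zsqrtd.norm_natCast, mul_pow]
        push_cast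
        have h4 : (c k : ℝ) ≤ P := by exact_mod_cast hc k
        have h5 : (0 : ℝ) ≤ ω.1.norm := by exact_mod_cast norm_nonneg' ω.1
        refine mul_le_mul ?_ (hW _ h1).2.2 h5 (by positivity)
        rw [sq]; gcongr
      refine (norm_sub_le_of (by linarith) (by positivity) (hW _ (h2 _)).2.2 h3).trans ?_
      refine pow_le_pow_left₀ (by positivity) (le_trans (le_of_eq (by ring)) hnorm) 2
    · obtain ⟨s', hs', rfl⟩ := mem_image.1 hy
      obtain ⟨hs1, hs2⟩ := mem_filter.1 hs'
      obtain ⟨ω, hω, rfl⟩ := mem_image.1 hs1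
      have h1 : ∑ p ∈ T, ((if In A ω p then (1 : ℝ) else 0) - v) ≤
          ∑ p ∈ T, cen p (B p) (res p (sig c ω k)) := by
        refine sum_le_sum fun p hp => sub_le_sub ?_ (hBv p hp)
        by_cases hin : In A ω p
        · rw [if_pos hin, if_pos]
          rw [sig, dif_pos hk, map_sub, map_mul, map_natCast]
          exact sub_mem_sub (hin.2 _) (mem_image_of_mem _ (mem_fibre hin hk.le hs2))
        · rw [if_neg hin]; split_ifs <;> norm_num
      rw [sum_sub_distrib, sum_const, nsmul_eq_mul, ← sum_filter, sum_const, nsmul_eq_mul,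
        mul_one] at h1
      have h2 := (mem_filter.1 hω).2
      have h3 := mul_le_mul_of_nonneg_left hvw hu.le
      linarith
  have hGne : G.Nonempty := by
    rw [← card_pos]
    by_contra h0
    have : G.card = 0 := by omega
    rw [this] at hGw
    simp at hGw
    linarith
  obtain ⟨s, -, hF⟩ := exists_le_card_fiber_of_mul_le_card_of_maps_to (n := P)
    (fun ω (hω : ω ∈ G) => mem_image_of_mem (sig c) hω) (hGne.image _) (by
      have h1 : ((G.image (sig c)).card : ℝ) * P * s0 ^ (R + 1) ≤ G.card * s0 ^ (R + 1) := by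
        refine le_trans ?_ (hJ.trans hGw)
        calc ((G.image (sig c)).card : ℝ) * P * s0 ^ (R + 1) ≤ Jb ^ R * P * s0 ^ (R + 1) := by gcongr
          _ = _ := by ring
      exact_mod_cast le_of_mul_le_mul_right h1 (by positivity))
  set F := G.filter (fun ω => sig c ω = s) with hFdef
  have hFP : (P : ℝ) ≤ F.card := by exact_mod_cast hF
  have hFne : F.Nonempty := card_pos.1 (by omega)
  have hFV : ∀ ω ∈ F, ω.1 ∈ V := fun ω hω => (mem_tup.1 (mem_filter.1 (mem_filter.1 hω).1).1).1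
  have hsieve := larger_sieve_law hP hT F Prod.fst (R := 4 * Rr ^ 2) (by
      intro ω hω ω' hω' e
      have e2 := (mem_filter.1 (mem_coe.1 hω)).2.trans (mem_filter.1 (mem_coe.1 hω')).2.symm
      refine Prod.ext e (funext fun r => ?_)
      have := congrFun e2 r
      simp only [sig, dif_pos r.2, e] at this
      exact sub_left_injective this) (by nlinarith)
    fun ω hω ω' hω' => norm_sub_le_four (hW _ (hFV ω hω)).2.2 (hW _ (hFV ω' hω')).2.2
  set L : (p : SPrime) → Finset (ZMod p.1) := fun p => fibre p (A p) c R fun i => res p (s i)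
    with hL
  have hΦ : 0 ≤ Φ := by
    obtain ⟨p, hp⟩ := hTne
    have := (Nat.cast_nonneg _).trans (hfib p hp 0).2
    by_contra h'
    nlinarith [p.pos, not_le.1 h']
  have hβ1 : w * T.card ≤ ∑ p ∈ T, ∑ a ∈ L p, law p F Prod.fst a := by
    have e : ∀ p, ∑ a ∈ L p, law p F Prod.fst a =
        avg F fun ω => if res p ω.1 ∈ L p then 1 else 0 := fun p => by
      rw [← sum_law_mul p F Prod.fst fun a => if a ∈ L p then 1 else 0]
      simp
    simp only [e]
    rw [← avg_sum]
    refine le_avg_of_le hFne fun ω hω => ?_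
    obtain ⟨h1, h2⟩ := mem_filter.1 hω
    refine (mem_filter.1 h1).2.trans ?_
    rw [← sum_filter, sum_const, nsmul_eq_mul, mul_one]
    refine Nat.cast_le.2 (card_le_card fun p hp => ?_)
    obtain ⟨hp1, hp2⟩ := mem_filter.1 hp
    exact mem_filter.2 ⟨hp1, mem_fibre hp2 le_rfl fun i _ => congrFun h2 i⟩
  have hβ2 : ∀ p ∈ T, (∑ a ∈ L p, law p F Prod.fst a) ^ 2 ≤
      2 * P * Φ * ∑ a, law p F Prod.fst a ^ 2 := fun p hp => by
    refine sq_sum_le_card_mul_sum_sq.trans (mul_le_mul ?_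
      (sum_le_sum_of_subset_of_nonneg (subset_univ _) fun _ _ _ => sq_nonneg _)
      (sum_nonneg fun _ _ => sq_nonneg _) (by positivity))
    refine (hfib p hp _).2.trans (mul_le_mul_of_nonneg_right ?_ hΦ)
    exact_mod_cast (hT p hp).2
  have h1 : (w * T.card) ^ 2 ≤ T.card * (2 * P * Φ * ∑ p ∈ T, ∑ a, law p F Prod.fst a ^ 2) := by
    refine (pow_le_pow_left₀ (by positivity) hβ1 2).trans (sq_sum_le_card_mul_sum_sq.trans ?_)
    rw [mul_sum T _ (2 * P * Φ)]
    exact mul_le_mul_of_nonneg_left (sum_le_sum hβ2) hu.le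
  have h2 : (T.card : ℝ) / F.card ≤ T.card / P := by gcongr
  have h3 : 2 * P * Φ * ∑ p ∈ T, ∑ a, law p F Prod.fst a ^ 2 ≤
      2 * P * Φ * (Real.log (4 * Rr ^ 2) / Real.log P + T.card / P) :=
    mul_le_mul_of_nonneg_left (by linarith) (by positivity)
  refine le_trans (le_of_mul_le_mul_left ?_ hu) h3
  calc (T.card : ℝ) * (w ^ 2 * T.card) = (w * T.card) ^ 2 := by ring
    _ ≤ _ := h1

end Crest.Agent.R2
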