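import Crest.Agent.R2.Basic

/-! # Row 2: larger sieve bound for the entropy deficiency -/

set_option autoImplicit false

open Finset
open scoped Pointwise Classical

namespace Crest.Agent.R2

namespace DefB

variable {α : Type} [Fintype α]

theorem ent_nonneg (m : α → ℝ) (hm : ∀ a, 0 ≤ m a) (n : ℝ) (hn : (Fintype.card α : ℝ) = n)
    (hn0 : 0 < n) (t : ℝ) (ht : ∑ a, m a = t) :
    0 ≤ ∑ a, m a * Real.log (n * m a / t) := by
  have ht0 : 0 ≤ t := ht ▸ sum_nonneg fun a _ => hm a
  rcases ht0.eq_or_lt with h0 | h0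
  · simp [← h0]
  have h : ∀ a, m a - t / n ≤ m a * Real.log (n * m a / t) := by
    intro a
    rcases (hm a).eq_or_lt with ha | ha
    · rw [← ha]; simp; positivity
    have hx : 0 < n * m a / t := by positivity
    have h1 := Real.one_sub_inv_le_log_of_pos hx
    have h2 : m a * (1 - (n * m a / t)⁻¹) = m a - t / n := by field_simp
    rw [← h2]
    exact mul_le_mul_of_nonneg_left h1 ha.le
  refine le_trans (le_of_eq ?_) (sum_le_sum fun a _ => h a)
  rw [sum_sub_distrib, ht, sum_const, card_univ, nsmul_eq_mul, hn]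
  field_simp
  ring

theorem sq_pos' (m : α → ℝ) (t : ℝ) (ht : ∑ a, m a = t) (ht0 : 0 < t) : 0 < ∑ a, m a ^ 2 := by
  by_contra h
  have h1 : ∑ a, m a ^ 2 = 0 := le_antisymm (not_lt.1 h) (sum_nonneg fun a _ => sq_nonneg _)
  have h2 := (sum_eq_zero_iff_of_nonneg fun a _ => sq_nonneg (m a)).1 h1
  have h3 : ∑ a, m a = 0 := sum_eq_zero fun a ha => by simpa using h2 a ha
  linarith

theorem ent_le (m : α → ℝ) (hm : ∀ a, 0 ≤ m a) (n : ℝ) (hn0 : 0 < n) (t : ℝ)
    (ht : ∑ a, m a = t) (ht0 : 0 < t) :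
    ∑ a, m a * Real.log (n * m a / t) ≤ t * Real.log (n * (∑ a, m a ^ 2) / t ^ 2) := by
  have hs := sq_pos' m t ht ht0
  set Q := n * (∑ a, m a ^ 2) / t ^ 2 with hQ
  have hQ0 : 0 < Q := by positivity
  have h : ∀ a, m a * Real.log (n * m a / t) ≤
      m a * Real.log Q + n / (t * Q) * m a ^ 2 - m a := by
    intro a
    rcases (hm a).eq_or_lt with ha | ha
    · rw [← ha]; simp
    have hx : 0 < n * m a / t := by positivity
    have h1 := Real.log_le_sub_one_of_pos (div_pos hx hQ0)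
    rw [Real.log_div hx.ne' hQ0.ne'] at h1
    have h2 : m a * Real.log Q + n / (t * Q) * m a ^ 2 - m a =
        m a * (Real.log Q + (n * m a / t / Q - 1)) := by field_simp; ring
    rw [h2]
    exact mul_le_mul_of_nonneg_left (by linarith) ha.le
  refine (sum_le_sum fun a _ => h a).trans (le_of_eq ?_)
  rw [sum_sub_distrib, sum_add_distrib, ← sum_mul, ← mul_sum, ht]
  have : n / (t * Q) * ∑ a, m a ^ 2 = t := by
    rw [hQ]; field_simp
  rw [this]; ring

theorem sq_le (m : α → ℝ) (hm : ∀ a, 0 ≤ m a) (t : ℝ) (ht : ∑ a, m a = t) :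
    ∑ a, m a ^ 2 ≤ t ^ 2 := by
  have h : ∀ a, m a ≤ t := fun a => ht ▸ single_le_sum (fun b _ => hm b) (mem_univ a)
  calc ∑ a, m a ^ 2 ≤ ∑ a, m a * t :=
        sum_le_sum fun a _ => by rw [sq]; exact mul_le_mul_of_nonneg_left (h a) (hm a)
    _ = t ^ 2 := by rw [← sum_mul, ht, sq]

/-- the contribution of one label -/
theorem label (P : ℕ) (S : Finset SPrime) (E k : ℕ) (u : ℕ → GI) (w : ℕ → ℝ) (lam : ℝ)
    (hP : 2 ≤ P) (hS : Good P S) (hE : 1 ≤ E) (hu : IsPath E u (2 ^ k))
    (hw0 : ∀ n ∈ range (2 ^ k), 0 ≤ w n) (hw1 : ∀ n ∈ range (2 ^ k), w n ≤ 1 / 2 ^ k)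
    (hlam : 1 ≤ lam) (hl : Real.log (E * 2 ^ k) ≤ lam) :
    avg S (fun p => ∑ a, push p (range (2 ^ k)) u w a *
      Real.log (p.1 * push p (range (2 ^ k)) u w a / ∑ n ∈ range (2 ^ k), w n)) ≤
      (∑ n ∈ range (2 ^ k), w n) * Real.log (100 * lam) + P / 2 ^ k * Real.log (2 * P) := by
  have hP' : (2 : ℝ) ≤ P := by exact_mod_cast hP
  have hlogP : 0 < Real.log P := Real.log_pos (by linarith)
  have hcard : (0 : ℝ) < S.card := by
    by_contra h
    have h0 : (S.card : ℝ) = 0 := le_antisymm (not_lt.1 h) (Nat.cast_nonneg _)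
    have := hS.2
    rw [h0] at this
    linarith
  have hne : S.Nonempty := card_pos.1 (by exact_mod_cast hcard)
  have hlog2P : 0 ≤ Real.log (2 * P) := Real.log_nonneg (by linarith)
  have hlog100 : 0 ≤ Real.log (100 * lam) := Real.log_nonneg (by linarith)
  set t := ∑ n ∈ range (2 ^ k), w n with ht
  have ht0 : 0 ≤ t := sum_nonneg hw0
  have hN : (0 : ℝ) < 2 ^ k := by positivity
  rcases ht0.eq_or_lt with h0 | h0
  · rw [← h0]
    simp only [div_zero, Real.log_zero, mul_zero, sum_const_zero, avg_const hne, zero_mul,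
      zero_add]
    positivity
  have hp0 : ∀ p : SPrime, (0 : ℝ) < p.1 := fun p => by exact_mod_cast p.2.1.pos
  have hQpos : ∀ p : SPrime, 0 < p.1 * (∑ a, push p (range (2 ^ k)) u w a ^ 2) / t ^ 2 := fun p =>
    div_pos (mul_pos (hp0 p) (sq_pos' _ t (sum_push p _ u w) h0)) (by positivity)
  have h1 : ∀ p : SPrime, ∑ a, push p (range (2 ^ k)) u w a *
      Real.log (p.1 * push p (range (2 ^ k)) u w a / t) ≤
      t * Real.log (p.1 * (∑ a, push p (range (2 ^ k)) u w a ^ 2) / t ^ 2) := fun p =>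
    ent_le _ (push_nonneg p u hw0) _ (hp0 p) t (sum_push p _ u w) h0
  by_cases hbig : (P : ℝ) / 2 ^ k ≤ t
  · -- big label
    have hEk : (1 : ℝ) ≤ E * 2 ^ k := by
      have : (1 : ℝ) ≤ E := by exact_mod_cast hE
      have h2 : (1 : ℝ) ≤ 2 ^ k := one_le_pow₀ (by norm_num)
      nlinarith
    have hsv := larger_sieve hP hS.1 (range (2 ^ k)) u w (R := ((E : ℝ) * 2 ^ k) ^ 2) hu.injOn hw0
      (one_le_pow₀ hEk) (fun i hi j hj => by
        have hi' := mem_range.1 hi
        have hj' := mem_range.1 hj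
        have := hu.norm_le (m := 2 ^ k) hi' hj' (by omega) (by omega)
        exact_mod_cast this)
    rw [← ht, Real.log_pow] at hsv
    have hw2 : ∑ i ∈ range (2 ^ k), w i ^ 2 ≤ t ^ 2 / P := by
      calc ∑ i ∈ range (2 ^ k), w i ^ 2 ≤ ∑ i ∈ range (2 ^ k), w i * (1 / 2 ^ k) :=
            sum_le_sum fun i hi => by
              rw [sq]; exact mul_le_mul_of_nonneg_left (hw1 i hi) (hw0 i hi)
        _ = t * (1 / 2 ^ k) := by rw [← sum_mul]
        _ ≤ t * (t / P) := by
            refine mul_le_mul_of_nonneg_left ?_ h0.le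
            rw [div_le_div_iff₀ hN (by linarith)]
            rw [div_le_iff₀ hN] at hbig
            linarith
        _ = t ^ 2 / P := by ring
    have havg : avg S (fun p => p.1 * (∑ a, push p (range (2 ^ k)) u w a ^ 2) / t ^ 2) ≤
        100 * lam := by
      have e1 : avg S (fun p => p.1 * (∑ a, push p (range (2 ^ k)) u w a ^ 2) / t ^ 2) ≤
          avg S (fun p => (2 * P / t ^ 2) * ∑ a, push p (range (2 ^ k)) u w a ^ 2) := by
        refine avg_le_avg fun p hp => ?_
        have hp2 : (p.1 : ℝ) ≤ 2 * P := by exact_mod_cast (hS.1 p hp).2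
        have hs0 : 0 ≤ ∑ a, push p (range (2 ^ k)) u w a ^ 2 := sum_nonneg fun a _ => sq_nonneg _
        rw [div_mul_eq_mul_div]
        gcongr
      refine e1.trans ?_
      rw [avg_mul_left, avg]
      have e2 : (∑ p ∈ S, ∑ a, push p (range (2 ^ k)) u w a ^ 2) ≤
          (2 * lam / Real.log P + S.card / P) * t ^ 2 := by
        refine hsv.trans ?_
        rw [add_mul]
        refine add_le_add ?_ ?_
        · refine mul_le_mul_of_nonneg_right (div_le_div_of_nonneg_right ?_ hlogP.le) (sq_nonneg _)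
          push_cast
          linarith
        · calc (S.card : ℝ) * ∑ i ∈ range (2 ^ k), w i ^ 2 ≤ S.card * (t ^ 2 / P) := by gcongr
            _ = _ := by ring
      have e3 : (P : ℝ) / (Real.log P * S.card) ≤ 24 := by
        rw [div_le_iff₀ (by positivity)]
        have := hS.2
        linarith
      calc 2 * P / t ^ 2 * ((∑ p ∈ S, ∑ a, push p (range (2 ^ k)) u w a ^ 2) / S.card)
          ≤ 2 * P / t ^ 2 * (((2 * lam / Real.log P + S.card / P) * t ^ 2) / S.card) := by gcongr
        _ = 4 * lam * (P / (Real.log P * S.card)) + 2 := by field_simp; ring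
        _ ≤ 4 * lam * 24 + 2 := by gcongr
        _ ≤ 100 * lam := by linarith
    calc _ ≤ avg S (fun p => t *
          Real.log (p.1 * (∑ a, push p (range (2 ^ k)) u w a ^ 2) / t ^ 2)) :=
          avg_le_avg fun p _ => h1 p
      _ = t * avg S (fun p =>
          Real.log (p.1 * (∑ a, push p (range (2 ^ k)) u w a ^ 2) / t ^ 2)) := avg_mul_left _ _ _
      _ ≤ t * Real.log (100 * lam) := by
          refine mul_le_mul_of_nonneg_left ?_ h0.le
          refine (avg_log_le hne fun p _ => hQpos p).trans ?_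
          refine Real.log_le_log ?_ havg
          obtain ⟨p, -, hp⟩ := exists_le_avg hne
            (fun p => p.1 * (∑ a, push p (range (2 ^ k)) u w a ^ 2) / t ^ 2)
          exact (hQpos p).trans_le hp
      _ ≤ _ := le_add_of_nonneg_right (by positivity)
  · -- small label
    refine avg_le_of_le hne fun p hp => (h1 p).trans ?_
    have hp2 : (p.1 : ℝ) ≤ 2 * P := by exact_mod_cast (hS.1 p hp).2
    have h2 : p.1 * (∑ a, push p (range (2 ^ k)) u w a ^ 2) / t ^ 2 ≤ 2 * P := by
      rw [div_le_iff₀ (by positivity)]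
      have := sq_le _ (push_nonneg p u hw0) t (sum_push p _ u w)
      have hs0 : 0 ≤ ∑ a, push p (range (2 ^ k)) u w a ^ 2 := sum_nonneg fun a _ => sq_nonneg _
      gcongr
    calc t * Real.log (p.1 * (∑ a, push p (range (2 ^ k)) u w a ^ 2) / t ^ 2)
        ≤ t * Real.log (2 * P) :=
          mul_le_mul_of_nonneg_left (Real.log_le_log (hQpos p) h2) h0.le
      _ ≤ P / 2 ^ k * Real.log (2 * P) :=
          mul_le_mul_of_nonneg_right (not_le.1 hbig).le hlog2P
      _ ≤ _ := le_add_of_nonneg_left (by positivity)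

end DefB

theorem defBound : DefBoundStmt := by
  intro P S E k u τ T π c lam hP hS hE hu hπ hT hlam hl hc
  have hπ0 : ∀ x ∈ T, ∀ n ∈ range (2 ^ k), 0 ≤ π n x := fun x hx n hn =>
    hπ.1 n (mem_range.1 hn) x hx
  have hπ1 : ∀ x ∈ T, ∀ n ∈ range (2 ^ k), π n x ≤ 1 / 2 ^ k := fun x hx n hn => by
    have h1 := hπ.2 n (mem_range.1 hn)
    have h2 := single_le_sum (f := fun x => π n x) (fun y hy => hπ.1 n (mem_range.1 hn) y hy) hx
    rw [h1] at h2
    simpa using h2
  have hN : (0 : ℝ) < 2 ^ k := by positivity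
  refine ⟨avg_nonneg fun p _ => sum_nonneg fun x hx => ?_, ?_⟩
  · exact DefB.ent_nonneg _ (push_nonneg p u (hπ0 x hx)) _ (by simp [ZMod.card])
      (by exact_mod_cast p.2.1.pos) _ (sum_push p _ u _)
  · unfold defic
    rw [avg_sum]
    refine (sum_le_sum fun x hx => DefB.label P S E k u (fun n => π n x) lam hP hS hE hu
      (hπ0 x hx) (hπ1 x hx) hlam hl).trans ?_
    rw [sum_add_distrib, ← sum_mul, sum_comm, sum_const, nsmul_eq_mul]
    have h1 : ∑ n ∈ range (2 ^ k), ∑ x ∈ T, π n x = 1 := by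
      rw [sum_congr rfl fun n hn => hπ.2 n (mem_range.1 hn), sum_const, card_range, nsmul_eq_mul]
      field_simp
    rw [h1, one_mul]
    have hP' : (2 : ℝ) ≤ P := by exact_mod_cast hP
    have hlog2P : 0 ≤ Real.log (2 * P) := Real.log_nonneg (by linarith)
    have h2 : (T.card : ℝ) * (P / 2 ^ k * Real.log (2 * P)) ≤ 1 := by
      calc (T.card : ℝ) * (P / 2 ^ k * Real.log (2 * P))
          ≤ Real.exp c * (P / 2 ^ k * Real.log (2 * P)) := by gcongr
        _ = Real.exp c * P * Real.log (2 * P) / 2 ^ k := by ring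
        _ ≤ 1 := (div_le_one hN).2 hc
    linarith

end Crest.Agent.R2
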