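import Crest.Prelude.Def_GaussMoat

/-!
# Row 2 (Gaussian moat): definitions and the statements of all intermediate results

Every `...Stmt` below is proved in its own file; `Main.lean` assembles them.
-/

set_option autoImplicit false

open Finset
open scoped Pointwise Classical

namespace Crest.Agent.R2

abbrev GI := GaussianInt

/-- Split rational primes. -/
abbrev SPrime : Type := {p : ℕ // p.Prime ∧ p % 4 = 1}

instance SPrime.fact (p : SPrime) : Fact p.1.Prime := ⟨p.2.1⟩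

theorem SPrime.exists_iota (p : SPrime) : ∃ r : ZMod p.1, r * r = ((-1 : ℤ) : ZMod p.1) := by
  have h : IsSquare (-1 : ZMod p.1) := ZMod.exists_sq_eq_neg_one_iff.2 (by have := p.2.2; omega)
  obtain ⟨r, hr⟩ := h
  exact ⟨r, by simp [← hr]⟩

/-- Reduction of a Gaussian integer modulo a fixed Gaussian prime above `p`. -/
noncomputable def res (p : SPrime) : GI →+* ZMod p.1 :=
  Zsqrtd.lift ⟨p.exists_iota.choose, p.exists_iota.choose_spec⟩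

/-- average over a finset -/
noncomputable def avg {ι : Type} (s : Finset ι) (f : ι → ℝ) : ℝ := (∑ i ∈ s, f i) / s.card

/-- average over `ZMod p` -/
noncomputable def mean (p : SPrime) (G : ZMod p.1 → ℝ) : ℝ := (∑ a, G a) / p.1

/-- `z 0, …, z (n-1)` are distinct and `|z i - z j| ≤ E |i - j|`. -/
def IsPath (E : ℕ) (z : ℕ → GI) (n : ℕ) : Prop :=
  ∀ i < n, ∀ j < n, (z i = z j → i = j) ∧ (z i - z j).norm ≤ ((E : ℤ) * ((i : ℤ) - j)) ^ 2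

def InScale (P : ℕ) (S : Finset SPrime) : Prop := ∀ p ∈ S, P ≤ p.1 ∧ p.1 ≤ 2 * P

/-- many split primes in `[P, 2P]` -/
def Good (P : ℕ) (S : Finset SPrime) : Prop :=
  InScale P S ∧ (P : ℝ) ≤ 24 * Real.log P * S.card

/-- the square `|re|, |im| ≤ R` -/
noncomputable def ball (R : ℕ) : Finset GI :=
  ((Icc (-(R : ℤ)) R) ×ˢ (Icc (-(R : ℤ)) R)).image (fun x => (⟨x.1, x.2⟩ : GI))

/-- push-forward of the weights `w` under `i ↦ u i mod p` -/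
noncomputable def push (p : SPrime) {ι : Type} (s : Finset ι) (u : ι → GI) (w : ι → ℝ)
    (a : ZMod p.1) : ℝ := ∑ i ∈ s with res p (u i) = a, w i

/-- law of `u i mod p` for `i` uniform in `s` -/
noncomputable def law (p : SPrime) {ι : Type} (s : Finset ι) (u : ι → GI) (a : ZMod p.1) : ℝ :=
  ((s.filter (fun i => res p (u i) = a)).card : ℝ) / s.card

/-- mass of the law above height `q / p` -/
noncomputable def exc (p : SPrime) (q : ℝ) {ι : Type} (s : Finset ι) (u : ι → GI) : ℝ :=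
  ∑ a, max (law p s u a - q / p.1) 0

noncomputable def chi (p : SPrime) (ξ : ZMod p.1) (v : GI) : ℂ := ZMod.stdAddChar (ξ * res p v)

/-! ## Tools -/

/-- Johnson-type bound (2t-wise independent Fejér measure + moment bound). -/
def JohnsonStmt : Prop :=
  ∀ (P t : ℕ) (S : Finset SPrime) (V : Finset GI) (f : (p : SPrime) → ZMod p.1 → ℝ) (v a : ℝ),
    1 ≤ P → InScale P S → 1 ≤ t → (∀ p ∈ S, ∑ x, f p x = 0) → (∀ p ∈ S, ∀ x, |f p x| ≤ 1) →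
    (∀ p ∈ S, mean p (fun x => f p x ^ 2) ≤ v) → 0 < a →
    (∀ z ∈ V, (z.norm : ℝ) ≤ ((2 * P : ℝ) ^ t) ^ 2) → (∀ z ∈ V, a ≤ ∑ p ∈ S, f p (res p z)) →
    (V.card : ℝ) ≤ 1024 * ((2 * P : ℝ) ^ t) ^ 2 * (24 * t * max (S.card * v) t) ^ t / a ^ (2 * t)

/-- Weighted bipartite Balog-Szemerédi-Gowers lemma (paths of length three). -/
def BSGStmt : Prop :=
  ∀ {X Y : Type} (s : Finset X) (t : Finset Y) (a : X → ℝ) (b : Y → ℝ) (G : X → Y → Prop)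
    (K σ τ : ℝ), 0 < K → (∀ x ∈ s, 0 ≤ a x ∧ a x ≤ σ) → (∀ y ∈ t, 0 ≤ b y ∧ b y ≤ τ) →
    ∑ x ∈ s, a x ≤ 1 → ∑ y ∈ t, b y ≤ 1 →
    1 / K ≤ ∑ x ∈ s, ∑ y ∈ t, (if G x y then a x * b y else 0) →
    ∃ A ⊆ s, ∃ B ⊆ t,
      1 / (24 * K ^ 2) ≤ ∑ x ∈ A, ∑ y ∈ B, (if G x y then a x * b y else 0) ∧
      ∀ {Γ : Type} [AddCommGroup Γ] [DecidableEq Γ] (α : X → Γ) (β : Y → Γ) (D : Finset Γ),
        Set.InjOn α s → Set.InjOn β t → (∀ x ∈ s, ∀ y ∈ t, G x y → α x + β y ∈ D) →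
        ((A.image α + B.image β).card : ℝ) ≤ 2 ^ 14 * K ^ 5 * σ * τ * (D.card : ℝ) ^ 3

/-- BSG for a sub-probability weight whose convolution square does not flatten. -/
def BSGWStmt : Prop :=
  ∀ {Γ : Type} [AddCommGroup Γ] [Fintype Γ] [DecidableEq Γ] (ν : Γ → ℝ) (K : ℝ), 1 ≤ K →
    (∀ x, 0 ≤ ν x) → ∑ x, ν x ≤ 1 → 0 < ∑ x, ν x ^ 2 →
    ∑ x, ν x ^ 2 ≤ K * ∑ d, (∑ x, ν (x + d) * ν x) ^ 2 →
    ∃ A : Finset Γ, A.Nonempty ∧ 1 ≤ (2 * K) ^ 100 * ∑ x ∈ A, ν x ∧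
      ((A - A).card : ℝ) ≤ (2 * K) ^ 100 * A.card ∧ (A.card : ℝ) * ∑ x, ν x ^ 2 ≤ (2 * K) ^ 100

/-- Six-point lemma (approximate field of multipliers). -/
def SixStmt : Prop :=
  ∀ (A : Finset ℂ) (G : Finset (ℂ × ℂ)) (K : ℝ) (x x' : ℂ), 1 ≤ K → A.Nonempty → G ⊆ A ×ˢ A →
    (A.card : ℝ) ^ 2 ≤ K * G.card → x ≠ 0 → x ≠ 1 → x ≠ -1 → x' ≠ 0 → x' ≠ 1 → x' ≠ -1 → x ≠ x' →
    (∀ e ∈ G, e.1 + x * (e.2 - e.1) ∈ A ∧ e.1 + (x + 1) * (e.2 - e.1) ∈ A ∧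
      e.1 + x' * (e.2 - e.1) ∈ A ∧ e.1 + (x' + 1) * (e.2 - e.1) ∈ A) →
    ∃ d : ℂ, (A.card : ℝ) ≤ 2 ^ 2000 * K ^ 620 * (G.filter (fun e => e.2 - e.1 = d)).card

/-- number of `t < N` with `z (n0 + t) ≡ a` -/
noncomputable def mult (p : SPrime) (z : ℕ → GI) (n0 N : ℕ) (a : ZMod p.1) : ℕ :=
  ((range N).filter (fun t => res p (z (n0 + t)) = a)).card

/-- number of points of the block `[n0, n0 + N)` in residue classes with more than `k` points -/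
noncomputable def cl (p : SPrime) (z : ℕ → GI) (n0 N k : ℕ) : ℕ :=
  ((range N).filter (fun t => k < mult p z n0 N (res p (z (n0 + t))))).card

/-- Clique lemma. -/
def CliqueStmt : Prop :=
  ∀ D : ℕ, ∃ u0 : ℕ, ∀ u ≥ u0, ∀ (P : ℕ) (S : Finset SPrime), u ^ 1000000 ≤ P → P ≤ u ^ 1000001 →
    Good P S → ∀ z : ℕ → GI, IsPath D z (u ^ 1000001) →
    ∃ Exc ⊆ S, Exc.card * u ^ 300000 ≤ S.card ∧
      (∑ p ∈ S \ Exc, cl p z 0 (u ^ 1000001) (u ^ 499991)) * u ^ 500004 ≤ S.card * u ^ 1000001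

/-! ## The growth lemma -/

/-- `W` is a sub-probability weight on `V`, bounded by `s0`, in the disc `norm ≤ R2` -/
def IsWt (V : Finset GI) (W : GI → ℝ) (s0 R2 : ℝ) : Prop :=
  (∀ v ∈ V, 0 ≤ W v ∧ W v ≤ s0 ∧ (v.norm : ℝ) ≤ R2) ∧ ∑ v ∈ V, W v ≤ 1

def IsSym (V : Finset GI) (W : GI → ℝ) : Prop := ∀ v ∈ V, -v ∈ V ∧ W (-v) = W v

/-- `f` is an approximately `W`-invariant unit vector supported on a set of density `≤ 1/q` -/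
def Invar (p : SPrime) (V : Finset GI) (W : GI → ℝ) (q α : ℝ) (f : ZMod p.1 → ℝ) : Prop :=
  (∀ a, 0 ≤ f a) ∧ ∑ a, f a ^ 2 ≤ 1 ∧ ((univ.filter (fun a => f a ≠ 0)).card : ℝ) * q ≤ p.1 ∧
    α ≤ ∑ v ∈ V, W v * ∑ a, f a * f (a + res p v)

def NoGrowth (S : Finset SPrime) (q α s0 R2 : ℝ) : Prop :=
  ∀ (V : Finset GI) (W : GI → ℝ) (T : Finset SPrime) (f : (p : SPrime) → ZMod p.1 → ℝ),
    IsWt V W s0 R2 → IsSym V W → T ⊆ S → α * S.card ≤ T.card →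
    (∀ p ∈ T, Invar p V W q α (f p)) → False

/-- G1: flattening pigeonhole -/
def FlattenStmt : Prop :=
  ∀ (P j : ℕ) (T : Finset SPrime) (V : Finset GI) (W : GI → ℝ)
    (f : (p : SPrime) → ZMod p.1 → ℝ) (q α s0 R2 r K : ℝ),
    2 ≤ P → InScale P T → T.Nonempty → 1 ≤ j → 0 < q → 0 < α → 1 ≤ R2 → 0 < K → 0 ≤ s0 →
    IsWt V W s0 R2 → IsSym V W → (∀ p ∈ T, Invar p V W q α (f p)) →
    2 * P * (Real.log (4 * R2) / (T.card * Real.log P) + s0) ≤ r →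
    2 * r ≤ K ^ j * (q * α ^ 2 ^ (j + 1)) →
    ∃ T' ⊆ T, T.card ≤ 2 * j * T'.card ∧ ∃ (V' : Finset GI) (W' : GI → ℝ),
      IsWt V' W' s0 (4 ^ j * R2) ∧ ∀ p ∈ T',
        q * α ^ 2 ^ (j + 1) ≤ p.1 * ∑ a, push p V' id W' a ^ 2 ∧
        ∑ a, push p V' id W' a ^ 2 ≤
          K * ∑ d, (∑ x, push p V' id W' (x + d) * push p V' id W' x) ^ 2

/-- `{a ∈ A | ∀ i < r, s i + c i * a ∈ A}` -/
noncomputable def fibre (p : SPrime) (A : Finset (ZMod p.1)) (c : ℕ → ℕ) (r : ℕ)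
    (s : ℕ → ZMod p.1) : Finset (ZMod p.1) :=
  A.filter (fun a => ∀ i < r, s i + (c i : ZMod p.1) * a ∈ A)

/-- G3: choice of multipliers -/
def MultStmt : Prop :=
  ∀ (P R : ℕ) (T : Finset SPrime) (A : (p : SPrime) → Finset (ZMod p.1)) (K v a0 : ℝ),
    2 ≤ P → InScale P T → 1 ≤ K → 0 < v → v ≤ 1 / 16 → K * a0 ≤ v →
    (∀ p ∈ T, (A p).Nonempty ∧ (((A p) - (A p)).card : ℝ) ≤ K * (A p).card ∧
      ((A p).card : ℝ) ≤ p.1 * a0) →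
    ∃ T' ⊆ T, (T.card : ℝ) ≤ (10 * Real.log P) ^ R * T'.card ∧ ∃ c : ℕ → ℕ, (∀ i, c i ≤ P) ∧
      ∀ p ∈ T', ∀ s : ℕ → ZMod p.1,
        (∀ r < R, (((A p) - ((fibre p (A p) c r s).image (fun a => (c r : ZMod p.1) * a))).card : ℝ)
          ≤ p.1 * v) ∧
        ((fibre p (A p) c R s).card : ℝ) ≤
          p.1 * max (K ^ (60 * (R + 1) ^ 2) * a0 * (a0 / v) ^ R) (4 * K ^ 3 * √(v / P))

/-- G4: counting tuples -/
def CountStmt : Prop :=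
  ∀ (P R t : ℕ) (T : Finset SPrime) (V : Finset GI) (W : GI → ℝ)
    (A : (p : SPrime) → Finset (ZMod p.1)) (c : ℕ → ℕ) (s0 Rr β v Φ w : ℝ),
    2 ≤ P → InScale P T → T.Nonempty → 1 ≤ t → 1 ≤ Rr → 0 < β → 0 < s0 → 0 ≤ v →
    IsWt V W s0 (Rr ^ 2) → (∀ i, c i ≤ P) → w = β ^ (R + 1) / 2 → v ≤ w / 2 →
    (1 + P) * Rr ≤ (2 * P : ℝ) ^ t →
    (∀ p ∈ T, β ≤ ∑ a ∈ A p, push p V id W a) →
    (∀ p ∈ T, ∀ s : ℕ → ZMod p.1,
      (∀ r < R, (((A p) - ((fibre p (A p) c r s).image (fun a => (c r : ZMod p.1) * a))).card : ℝ)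
          ≤ p.1 * v) ∧ ((fibre p (A p) c R s).card : ℝ) ≤ p.1 * Φ) →
    P * s0 ^ (R + 1) * (1024 * ((2 * P : ℝ) ^ t) ^ 2 * (24 * t * max (T.card * v) t) ^ t /
      (w * T.card / 2) ^ (2 * t)) ^ R ≤ w →
    w ^ 2 * T.card ≤ 2 * P * Φ * (Real.log (4 * Rr ^ 2) / Real.log P + T.card / P)

def GrowthOK (a η b : ℝ) : Prop :=
  ∃ h0 : ℝ, ∀ h ≥ h0, ∀ (P : ℕ) (S : Finset SPrime), h ^ 40 = Real.log P → Good P S →
    ∀ y ρ α q : ℝ, h ^ 5 ≤ y → y ≤ a * h ^ 40 → h ^ 80 ≤ ρ → ρ ≤ Real.exp y →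
      Real.exp (-h ^ 4) ≤ α → Real.exp (b * y) ≤ q →
      NoGrowth S q α (Real.exp (-(1 - η) * ρ)) (Real.exp (2 * ρ))

def GrowthStmt : Prop :=
  ∀ (R : ℕ) (a σ η b : ℝ), 1 ≤ R → 0 < a → 0 < σ → σ < 1 → 0 < η →
    R * a * (1 - σ) + (R + 1) * η < 1 → a * (2 - σ) < 1 → a * (1 + σ) < 1 →
    1 + R * σ < (R + 1) * b → GrowthOK a η b

/-! ## The projection theorem -/

/-- a channel from the uniform measure on `range N` to labels in `T` -/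
def IsChan {τ : Type} (N : ℕ) (T : Finset τ) (π : ℕ → τ → ℝ) : Prop :=
  (∀ n < N, ∀ x ∈ T, 0 ≤ π n x) ∧ ∀ n < N, ∑ x ∈ T, π n x = 1 / N

/-- conditional entropy deficiency of `u n mod p` given the label -/
noncomputable def defic (p : SPrime) {τ : Type} (N : ℕ) (u : ℕ → GI) (T : Finset τ)
    (π : ℕ → τ → ℝ) : ℝ :=
  ∑ x ∈ T, ∑ a, push p (range N) u (fun n => π n x) a *
    Real.log (p.1 * push p (range N) u (fun n => π n x) a / ∑ n ∈ range N, π n x)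

noncomputable def excW (p : SPrime) (q : ℝ) {τ : Type} (N : ℕ) (u : ℕ → GI) (T : Finset τ)
    (π : ℕ → τ → ℝ) : ℝ :=
  ∑ x ∈ T, ∑ a, max (push p (range N) u (fun n => π n x) a - q / p.1 * ∑ n ∈ range N, π n x) 0

/-- P1: return-displacement dichotomy -/
def ProjStepStmt : Prop :=
  ∀ (S : Finset SPrime) (E k k' : ℕ) (u : ℕ → GI) {τ : Type} (T : Finset τ) (π : ℕ → τ → ℝ)
    (q w κ c α1 : ℝ), S.Nonempty → k' ≤ k → IsPath E u (2 ^ k) → IsChan (2 ^ k) T π →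
    0 < q → 0 < w → w ≤ 1 → 0 ≤ κ → (T.card : ℝ) ≤ Real.exp c →
    α1 = w ^ 2 / 4 * Real.exp (-((4 * κ / w + 1) * 4 / w ^ 2)) →
    NoGrowth S q (α1 * w / 8) (16 * Real.exp c / (α1 * w * 2 ^ k')) (((E : ℝ) * 2 ^ k') ^ 2) →
    avg S (fun p => excW p q (2 ^ k) u T π) ≤ w ∨
    ∃ (T' : Finset (τ × GI)) (π' : ℕ → τ × GI → ℝ), IsChan (2 ^ k) T' π' ∧
      T'.card ≤ T.card * (2 * (E * 2 ^ k') + 1) ^ 2 ∧
      avg S (fun p => defic p (2 ^ k) u T π) + κ ≤ avg S (fun p => defic p (2 ^ k) u T' π') ∧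
      avg S (fun p => excW p q (2 ^ k) u T π) ≤ avg S (fun p => excW p q (2 ^ k) u T' π')

/-- P2: larger sieve bound for the deficiency -/
def DefBoundStmt : Prop :=
  ∀ (P : ℕ) (S : Finset SPrime) (E k : ℕ) (u : ℕ → GI) {τ : Type} (T : Finset τ)
    (π : ℕ → τ → ℝ) (c lam : ℝ), 2 ≤ P → Good P S → 1 ≤ E → IsPath E u (2 ^ k) →
    IsChan (2 ^ k) T π → (T.card : ℝ) ≤ Real.exp c → 1 ≤ lam → Real.log (E * 2 ^ k) ≤ lam →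
    Real.exp c * P * Real.log (2 * P) ≤ 2 ^ k →
    0 ≤ avg S (fun p => defic p (2 ^ k) u T π) ∧
      avg S (fun p => defic p (2 ^ k) u T π) ≤ Real.log (100 * lam) + 1

def ProjOK (a b μ : ℝ) : Prop :=
  ∃ h0 : ℝ, ∀ h ≥ h0, ∀ (P : ℕ) (S : Finset SPrime), h ^ 40 = Real.log P → Good P S →
    ∀ y : ℝ, h ^ 5 ≤ y → y ≤ a * h ^ 40 → ∀ E k : ℕ, 1 ≤ E →
      Real.log E ≤ Real.exp ((1 - μ) * y) → Real.exp y / 2 ≤ k →
      Real.log E + k * Real.log 2 ≤ Real.exp y → ∀ u : ℕ → GI, IsPath E u (2 ^ k) →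
      ∀ {τ : Type} (C : ℕ → τ),
        (((range (2 ^ k)).image C).card : ℝ) ≤ Real.exp (Real.exp ((1 - μ) * y)) →
        avg (range (2 ^ k)) (fun n => avg S (fun p =>
          exc p (Real.exp (b * y)) ((range (2 ^ k)).filter (fun n' => C n' = C n)) u)) ≤ 1 / h

def ProjStmt : Prop :=
  ∀ a η b μ : ℝ, 0 < η → η < 1 → 0 < μ → μ ≤ 1 / 2 → GrowthOK a η b → ProjOK a b μ

/-! ## Under-visiting of holes -/

def IsHole (S : Finset SPrime) (q : ℝ) (G : (p : SPrime) → ZMod p.1 → ℝ) : Prop :=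
  ∀ p ∈ S, (∀ a, 0 ≤ G p a ∧ G p a ≤ q) ∧ mean p (G p) ≤ 1

def UnderA (D : ℕ) (S : Finset SPrime) (k : ℕ) (q ε : ℝ) : Prop :=
  ∀ z : ℕ → GI, IsPath D z (2 ^ k) → ∀ G, IsHole S q G →
    avg S (fun p => mean p (G p)) - ε ≤
      avg S (fun p => avg (range (2 ^ k)) (fun n => G p (res p (z n))))

def UnderC (D : ℕ) (S : Finset SPrime) (k : ℕ) (q1 q2 ε : ℝ) : Prop :=
  ∀ z : ℕ → GI, IsPath D z (2 ^ k) → ∀ G, IsHole S q1 G →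
    ∀ μ : (p : SPrime) → ZMod p.1 → ℝ,
      (∀ p ∈ S, (∀ a, 0 ≤ μ p a ∧ μ p a ≤ q2 / p.1) ∧ ∑ a, μ p a ≤ 1) →
      avg S (fun p => mean p (G p) * ∑ a, μ p a) - ε ≤
        avg S (fun p => avg (range (2 ^ k)) (fun n => ∑ c, μ p c * G p (res p (z n) + c)))

def UnderM (D : ℕ) (S : Finset SPrime) (k b : ℕ) (q M ε : ℝ) : Prop :=
  ∀ z : ℕ → GI, IsPath D z (2 ^ k) → ∀ G, IsHole S q G →
    avg S (fun p => mean p (G p)) - ε ≤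
      avg S (fun p => avg (range (2 ^ (k - b))) (fun β =>
        min M (avg (range (2 ^ b)) (fun t => G p (res p (z (β * 2 ^ b + t)))))))

/-- level lemma, explicit form -/
def LevelCoreStmt : Prop :=
  ∀ (D : ℕ) (S : Finset SPrime) (k k' b J l : ℕ) (q q' M ε ε' w Lb : ℝ),
    S.Nonempty → b ≤ k' → k' ≤ k → 1 ≤ J → 1 ≤ l → 0 < ε → ε ≤ 1 / 2 → 0 < M → 0 < q' → 0 ≤ q →
    0 ≤ w → 0 ≤ ε' →
    (∀ z : ℕ → GI, IsPath D z (2 ^ b) →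
      avg S (fun p => p.1 * ∑ a, law p (range (2 ^ b)) z a ^ 2) ≤ Lb) →
    q' * Lb ≤ ε * M → q ≤ ε * M * l →
    q' * Real.exp (-(2 * ε * J / M * ε)) ≤ ε * (2 * ε * J / M) →
    (∀ u : ℕ → GI, IsPath (D * 2 ^ k') u (2 ^ (k - k')) → ∀ {τ : Type} (C : ℕ → τ),
      ((range (2 ^ (k - k'))).image C).card ≤
        ((2 * (D * 2 ^ k') + 1) ^ 2 * ((2 * (D * 2 ^ b) + 1) ^ 2) ^ l) ^ J →
      avg (range (2 ^ (k - k'))) (fun n => avg S (fun p =>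
        exc p q' ((range (2 ^ (k - k'))).filter (fun n' => C n' = C n)) u)) ≤ w) →
    UnderC D S k' q q' ε' → UnderM D S k b q M (ε' + w + 5 * ε)

def LevelOK (D : ℕ) (a b μ : ℝ) : Prop :=
  ∃ h0 : ℝ, ∀ h ≥ h0, ∀ (P : ℕ) (S : Finset SPrime), h ^ 40 = Real.log P → Good P S →
    ∀ bb : ℕ, P ≤ 2 ^ bb → 2 ^ bb ≤ P ^ 2 → ∀ y x y' ε' : ℝ, h ^ 5 ≤ y → y ≤ a * h ^ 40 →
      0 ≤ x → x ≤ (1 - 2 * μ) * y → h ^ 5 / 2 ≤ y' → b * y + y' ≤ (1 - 2 * μ) * y → 0 ≤ ε' →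
      UnderC D S ⌊Real.exp y'⌋₊ (Real.exp x) (Real.exp (b * y)) ε' →
      UnderM D S ⌊Real.exp y⌋₊ bb (Real.exp x) (Real.exp (b * y) * h ^ 50) (ε' + 6 / h)

def LevelStmt : Prop :=
  ∀ (D : ℕ) (a b μ : ℝ), 1 ≤ D → a ≤ 1 → 0 < b → 0 < μ → μ ≤ 1 / 4 → ProjOK a b μ → LevelOK D a b μ

/-! ## Bias -/

def ECoreStmt : Prop :=
  ∃ h0 : ℝ, ∀ h ≥ h0, ∀ (P : ℕ) (S : Finset SPrime), h ^ 40 = Real.log P → Good P S →
    ∀ T ⊆ S, Real.exp (-(4 * h ^ 5)) * S.card ≤ T.card → ∀ ρ : ℝ, h ^ 80 ≤ ρ →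
      ρ ≤ Real.exp (4 * h ^ 5) → ∀ (ξ : (p : SPrime) → ZMod p.1) (e : SPrime → ℂ) (Z : Finset GI),
      (∀ p ∈ T, ξ p ≠ 0 ∧ ‖e p‖ ≤ 1) → (∀ z ∈ Z, (z.norm : ℝ) ≤ Real.exp (2 * ρ)) →
      (∀ z ∈ Z, 1 / (2 * h ^ 10) ≤ avg T (fun p => (e p * chi p (ξ p) z).re)) →
      (Z.card : ℝ) ≤ Real.exp ((1 - 1 / h ^ 29) * ρ)

/-- every path of length `2 ^ k` has average bias at most `β` -/
def BiasLe (D : ℕ) (S : Finset SPrime) (k : ℕ) (β : ℝ) : Prop :=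
  ∀ z : ℕ → GI, IsPath D z (2 ^ k) → ∀ ξ : (p : SPrime) → ZMod p.1, (∀ p ∈ S, ξ p ≠ 0) →
    avg S (fun p => ‖∑ n ∈ range (2 ^ k), chi p (ξ p) (z n)‖ / 2 ^ k) ≤ β

def BiasStmt : Prop :=
  ∀ D : ℕ, 1 ≤ D → ∃ h0 : ℝ, ∀ h ≥ h0, ∀ (P : ℕ) (S : Finset SPrime), h ^ 40 = Real.log P →
    Good P S → ∀ (y : ℝ) (k : ℕ), h ^ 5 ≤ y → y ≤ 3 * h ^ 5 → Real.exp y / 2 ≤ k →
      BiasLe D S k (Real.exp (-(18 / 100 * y)))

def FourierStmt : Prop :=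
  ∀ (D : ℕ) (S : Finset SPrime) (k : ℕ) (q1 q2 β : ℝ), 0 ≤ q1 → 0 ≤ q2 →
    BiasLe D S k β → UnderC D S k q1 q2 (β * √(q1 * q2))

/-- the under-visiting theorem -/
def UnderStmt : Prop :=
  ∀ (D : ℕ) (ε : ℝ), 1 ≤ D → 0 < ε → ∃ P0 : ℕ, ∀ P ≥ P0, ∀ S : Finset SPrime, Good P S →
    ∀ (b k : ℕ) (q M : ℝ), P ≤ 2 ^ b → 2 ^ b ≤ P ^ 2 → 4 / 10 * Real.log P ≤ Real.log k →
      Real.log k ≤ 50002 / 100000 * Real.log P → 1 ≤ q →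
      Real.log q ≤ (1 - 1 / 100000) * Real.log k → 0 ≤ M → (P : ℝ) ≤ M ^ 5 →
      UnderM D S k b q M ε

/-! ## Entropy and the first level -/

/-- size of the fibre of `f` through `i` -/
noncomputable def fib {ι α : Type} (s : Finset ι) (f : ι → α) (i : ι) : ℕ :=
  (s.filter (fun j => f j = f i)).card

/-- conditional entropy `H(f | g)` under the uniform measure on `s` -/
noncomputable def cH {ι α β : Type} (s : Finset ι) (f : ι → α) (g : ι → β) : ℝ :=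
  avg s (fun i => Real.log ((fib s g i : ℝ) / fib s (fun j => (f j, g j)) i))

/-- residues modulo the primes of `S` -/
noncomputable def resAt (S : Finset SPrime) (v : GI) : (p : SPrime) → ZMod p.1 :=
  fun p => if p ∈ S then res p v else 0

/-- the steps in the `i`-th window of length `2 ^ l` -/
def incr (z : ℕ → GI) (l i : ℕ) : Fin (2 ^ l) → GI :=
  fun t => z (i * 2 ^ l + t + 1) - z (i * 2 ^ l + t)

noncomputable def phi (z : ℕ → GI) (K l : ℕ) (S : Finset SPrime) : ℝ :=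
  cH (range (2 ^ (K - l))) (incr z l) (fun i => resAt S (z (i * 2 ^ l))) / 2 ^ l

/-- sampling data: a block in the window and `r` pieces in the block -/
def omega (k1 b l1 r : ℕ) : Finset (ℕ × (Fin r → ℕ)) :=
  range (2 ^ (k1 - b)) ×ˢ Fintype.piFinset (fun _ => range (2 ^ (b - l1)))

def samp (z : ℕ → GI) (k1 b l1 r : ℕ) (ω : ℕ × (Fin r → ℕ)) (i : ℕ) :
    Fin r → Fin (2 ^ l1 + 1) → GI :=
  fun j t => z (i * 2 ^ k1 + ω.1 * 2 ^ b + ω.2 j * 2 ^ l1 + t) - z (i * 2 ^ k1)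

noncomputable def psi (z : ℕ → GI) (K k1 b l1 r : ℕ) (S : Finset SPrime) : ℝ :=
  avg (omega k1 b l1 r) (fun ω =>
    cH (range (2 ^ (K - k1))) (samp z k1 b l1 r ω) (fun i => resAt S (z (i * 2 ^ k1))))

def PhiStmt : Prop :=
  (∀ z K l S, 0 ≤ phi z K l S) ∧
  (∀ (D : ℕ) z K l S, l ≤ K → IsPath D z (2 ^ K + 1) →
    phi z K l S ≤ Real.log ((2 * D + 1) ^ 2)) ∧
  (∀ z K l l' S, l ≤ l' → l' ≤ K → phi z K l' S ≤ phi z K l S) ∧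
  (∀ z K k1 b l1 r S S', S ⊆ S' → psi z K k1 b l1 r S' ≤ psi z K k1 b l1 r S)

def PsiUpperStmt : Prop :=
  ∀ (D : ℕ) (z : ℕ → GI) (K k1 b l1 r : ℕ) (S : Finset SPrime), l1 ≤ b → b ≤ k1 → k1 ≤ K →
    IsPath D z (2 ^ K + 1) →
    psi z K k1 b l1 r S ≤ Real.log ((2 * (D * 2 ^ k1) + 1) ^ 2) +
      r * Real.log ((2 * (D * 2 ^ b) + 1) ^ 2) + r * 2 ^ l1 * phi z K l1 S

def PsiLowerStmt : Prop :=
  ∀ (z : ℕ → GI) (K k1 b l1 r : ℕ) (S : Finset SPrime), l1 ≤ b → b ≤ k1 → k1 ≤ K →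
    r * 2 ^ l1 * (1 - r / 2 ^ (b - l1)) * phi z K k1 S ≤ psi z K k1 b l1 r S

def GreedyStmt : Prop :=
  ∀ (Ψ : Finset SPrime → ℝ) (J : Finset ℕ) (Pr : ℕ → Finset SPrime) (t : ℕ → ℕ) (τ c : ℕ → ℝ)
    (S0 S1 : Finset SPrime), (∀ S S', S ⊆ S' → Ψ S' ≤ Ψ S) → S0 ⊆ S1 →
    (∀ j ∈ J, Pr j ⊆ S1 ∧ (Pr j).Nonempty ∧ 0 ≤ c j ∧ ∀ p ∈ Pr j, Real.log p.1 ≤ c j) →
    Ψ S0 - Ψ S1 < ∑ j ∈ J, t j * τ j →
    ∃ j ∈ J, ∃ S', S0 ⊆ S' ∧ S' ⊆ S1 ∧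
      ∑ p ∈ S', Real.log p.1 ≤ ∑ p ∈ S0, Real.log p.1 + ∑ j' ∈ J with j' ≤ j, t j' * c j' ∧
      avg (Pr j) (fun p => Ψ S' - Ψ (insert p S')) ≤ τ j

def HalfStmt : Prop :=
  ∀ (D P K k1 : ℕ) (S S' : Finset SPrime) (z : ℕ → GI), 1 ≤ D → 2 ≤ P → InScale P S →
    S.Nonempty → k1 ≤ K → IsPath D z (2 ^ K + 1) → P ^ S.card ≤ (2 ^ (K - k1)) ^ 2 →
    Real.log P / 2 - (Real.log (2 * (D * 2 ^ k1)) + ∑ p ∈ S', Real.log p.1) / S.card ≤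
      avg S (fun p => cH (range (2 ^ (K - k1))) (fun i => res p (z (i * 2 ^ k1)))
        (fun i => resAt S' (z (i * 2 ^ k1))))

/-- conditional law of the residue of the window start given the residues mod `S'` -/
noncomputable def claw (p : SPrime) (z : ℕ → GI) (K k1 : ℕ) (S' : Finset SPrime) (i : ℕ)
    (c : ZMod p.1) : ℝ :=
  law p ((range (2 ^ (K - k1))).filter
    (fun i' => resAt S' (z (i' * 2 ^ k1)) = resAt S' (z (i * 2 ^ k1)))) (fun i' => z (i' * 2 ^ k1)) c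

def LightStmt : Prop :=
  ∀ (p : SPrime) (z : ℕ → GI) (K k1 : ℕ) (S' : Finset SPrime) (h0 : ℝ), 1 ≤ h0 →
    cH (range (2 ^ (K - k1))) (fun i => res p (z (i * 2 ^ k1)))
        (fun i => resAt S' (z (i * 2 ^ k1))) ≤
      Real.log h0 + 1 + avg (range (2 ^ (K - k1))) (fun i =>
        ∑ c, if claw p z K k1 S' i c ≤ 1 / h0 then claw p z K k1 S' i c else 0) * Real.log p.1

def HitStmt : Prop :=
  ∀ (D P K k1 b l1 r kk : ℕ) (S S' : Finset SPrime) (z : ℕ → GI) (τ : ℝ), InScale P S →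
    S.Nonempty → l1 ≤ b → b ≤ k1 → k1 ≤ K → r * kk = 2 ^ (b - l1) → (D * 2 ^ l1) ^ 2 < P →
    IsPath D z (2 ^ K + 1) → (∀ p ∈ S, ∀ i ≤ 2 ^ K, res p (z i) ≠ 0) →
    avg S (fun p => psi z K k1 b l1 r S' - psi z K k1 b l1 r (insert p S')) ≤ τ →
    avg S (fun p => avg (range (2 ^ (K - k1))) (fun i => avg (range (2 ^ (k1 - b))) (fun β =>
      ∑ c, claw p z K k1 S' i c *
        (min (mult p z (i * 2 ^ k1 + β * 2 ^ b) (2 ^ b) (res p (z (i * 2 ^ k1)) - c)) kk : ℕ))))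
      ≤ 2 * kk * τ

def ContraStmt : Prop :=
  ∀ D : ℕ, 1 ≤ D → ∃ n0 : ℕ, ∀ n ≥ n0, ∀ u : ℕ, u = 2 ^ n → ∀ (P : ℕ) (S S' : Finset SPrime),
    u ^ 1000000 ≤ P → P ≤ u ^ 1000001 → Good P S →
    ∑ p ∈ S', Real.log p.1 ≤ P / 50000000 → ∀ K : ℕ, u ^ 1000002 ≤ K → ∀ z : ℕ → GI,
    IsPath D z (2 ^ K + 1) → (∀ p ∈ S, ∀ i ≤ 2 ^ K, res p (z i) ≠ 0) →
    1 / 10000000 * (u : ℝ) ^ 500010 / P <
      avg S (fun p => psi z K (u ^ 500009) (1000001 * n) (499999 * n) (u ^ 11) S' -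
        psi z K (u ^ 500009) (1000001 * n) (499999 * n) (u ^ 11) (insert p S'))

/-- split primes in `[2 ^ j, 2 ^ (j + 1))` -/
def scale (j : ℕ) : Finset SPrime :=
  (Ico (2 ^ j) (2 ^ (j + 1))).subtype (fun p => p.Prime ∧ p % 4 = 1)

/-- split primes `≤ N` -/
def upto (N : ℕ) : Finset SPrime := (range (N + 1)).subtype (fun p => p.Prime ∧ p % 4 = 1)

def ManyGood (n : ℕ) : Prop :=
  n ≤ 50 * ((Ico (1000000 * n) (1000001 * n)).filter (fun j => Good (2 ^ j) (scale j))).card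

def PrimesStmt : Prop := ∀ n0 : ℕ, ∃ n ≥ n0, ManyGood n

def StepStmt : Prop :=
  ∀ D : ℕ, 1 ≤ D → ∃ n0 : ℕ, ∀ n ≥ n0, ∀ u : ℕ, u = 2 ^ n → ManyGood n →
    ∀ S0 : Finset SPrime, ∑ p ∈ S0, Real.log p.1 ≤ (u : ℝ) ^ 999999 → ∀ K : ℕ, u ^ 1000002 ≤ K →
    ∀ z : ℕ → GI, IsPath D z (2 ^ K + 1) →
    (∀ p ∈ upto (2 * u ^ 1000001), ∀ i ≤ 2 ^ K, res p (z i) ≠ 0) →
    1 / 10 ^ 24 ≤ phi z K (499999 * n) S0 - phi z K (u ^ 500009) (S0 ∪ upto (2 * u ^ 1000001))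

def NoPathStmt : Prop :=
  ∀ D : ℕ, ∃ N B : ℕ, ∀ z : ℕ → GI, IsPath D z N → ∃ p ∈ upto B, ∃ i < N, res p (z i) = 0

def FinalStmt : Prop :=
  ∀ D : ℝ, ∃ B : ℕ, ∀ c : (Crest.NumberTheoryR.gaussianPrimeGraph D).ConnectedComponent,
    c.supp.Finite ∧ c.supp.ncard ≤ B

end Crest.Agent.R2
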