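import Crest.Agent.R2.ECoreB

/-! Row 2, `ECore`: few points have a large character mean (numerics). -/

set_option autoImplicit false

open Finset
open scoped Pointwise Classical

namespace Crest.Agent.R2

namespace ECoreAux

theorem pow_ge {h : ℝ} (hh : 10 ≤ h) (a b : ℕ) : 10 ^ a * h ^ b ≤ h ^ (a + b) := by
  rw [pow_add]
  gcongr

theorem pow_le_exp {h : ℝ} (hh : 0 ≤ h) (a : ℕ) : h ^ a ≤ Real.exp (a * h) := by
  rw [Real.exp_nat_mul]
  gcongr
  linarith [Real.add_one_le_exp h]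

theorem ten_pow_le_exp {h : ℝ} (hh : 10 ≤ h) (a : ℕ) : (10 : ℝ) ^ a ≤ Real.exp (a * h) :=
  le_trans (by gcongr) (pow_le_exp (by linarith) a)

theorem num_tu {h ρ u t : ℝ} (hh : 10 ≤ h) (hρ : ρ ≤ Real.exp (4 * h ^ 5))
    (hu : Real.exp (h ^ 40) ≤ 24 * h ^ 40 * Real.exp (4 * h ^ 5) * u) (ht : t * h ^ 40 ≤ 3 * ρ) :
    t ≤ u := by
  have h0 : 0 < h := by linarith
  have h1 : 24 * h ^ 40 * Real.exp (4 * h ^ 5) * t ≤ Real.exp (h ^ 40) := by
    calc 24 * h ^ 40 * Real.exp (4 * h ^ 5) * t = 24 * Real.exp (4 * h ^ 5) * (t * h ^ 40) := by ring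
      _ ≤ 24 * Real.exp (4 * h ^ 5) * (3 * Real.exp (4 * h ^ 5)) := by gcongr _ * ?_; linarith
      _ ≤ 10 ^ 2 * Real.exp (4 * h ^ 5) * Real.exp (4 * h ^ 5) := by
        nlinarith [mul_pos (Real.exp_pos (4 * h ^ 5)) (Real.exp_pos (4 * h ^ 5))]
      _ ≤ Real.exp ((2 : ℕ) * h) * Real.exp (4 * h ^ 5) * Real.exp (4 * h ^ 5) := by
        gcongr; exact ten_pow_le_exp hh 2
      _ ≤ Real.exp (h ^ 40) := by
        rw [← Real.exp_add, ← Real.exp_add, Real.exp_le_exp]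
        have := pow_ge hh 35 5
        have := pow_ge hh 4 1
        norm_num at *
        nlinarith
  have h2 : 0 < 24 * h ^ 40 * Real.exp (4 * h ^ 5) := by positivity
  exact le_of_mul_le_mul_left (h1.trans hu) h2

theorem num_M {h ρ u P : ℝ} {t : ℕ} (hh : 10 ≤ h) (hρ0 : h ^ 80 ≤ ρ)
    (hρ : ρ ≤ Real.exp (4 * h ^ 5)) (hP : P = Real.exp (h ^ 40)) (hu0 : 0 < u)
    (hu : P ≤ 24 * h ^ 40 * Real.exp (4 * h ^ 5) * u) (ht : t * h ^ 40 ≤ ρ + 1 + h ^ 40) :
    1024 * ((2 * P) ^ t) ^ 2 * (24 * t * max u t) ^ t / (u * ((1 / (2 * h ^ 10)) ^ 2 / 2)) ^ (2 * t)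
      ≤ Real.exp ((1 + 1 / h ^ 29) * ρ) := by
  have h0 : 0 < h := by linarith
  have h40 : h ^ 40 ≤ ρ := le_trans (pow_le_pow_right₀ (by linarith) (by norm_num)) hρ0
  have h1 : 1 ≤ h ^ 40 := one_le_pow₀ (by linarith)
  have ht3 : t * h ^ 40 ≤ 3 * ρ := by linarith
  have htu : (t : ℝ) ≤ u := num_tu hh hρ (hP ▸ hu) ht3
  have hP0 : 0 < P := by rw [hP]; positivity
  rw [max_eq_left htu]
  have e1 : 1024 * ((2 * P) ^ t) ^ 2 * (24 * t * u) ^ t /
      (u * ((1 / (2 * h ^ 10)) ^ 2 / 2)) ^ (2 * t) =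
      1024 * (6144 * P * (P / u) * (t * h ^ 40)) ^ t := by
    rw [← pow_mul, mul_comm t 2, pow_mul, pow_mul, mul_assoc, ← mul_pow, mul_div_assoc, ← div_pow]
    congr 2
    field_simp
    ring
  rw [e1]
  have hQ : 6144 * P * (P / u) * (t * h ^ 40) ≤ Real.exp (h ^ 40 + 9 * h ^ 5) := by
    have h2 : P / u ≤ 24 * h ^ 40 * Real.exp (4 * h ^ 5) := by rwa [div_le_iff₀ hu0]
    calc 6144 * P * (P / u) * (t * h ^ 40)
        ≤ 6144 * P * (24 * h ^ 40 * Real.exp (4 * h ^ 5)) * (3 * Real.exp (4 * h ^ 5)) := by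
          gcongr _ * ?_ * ?_; linarith
      _ = 442368 * h ^ 40 * (P * Real.exp (4 * h ^ 5) * Real.exp (4 * h ^ 5)) := by ring
      _ ≤ Real.exp ((6 : ℕ) * h) * Real.exp ((40 : ℕ) * h) *
            (P * Real.exp (4 * h ^ 5) * Real.exp (4 * h ^ 5)) := by
          gcongr
          · exact le_trans (by norm_num) (ten_pow_le_exp hh 6)
          · exact pow_le_exp h0.le 40
      _ ≤ _ := by
          rw [hP]
          simp only [← Real.exp_add, Real.exp_le_exp]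
          have := pow_ge hh 4 1
          norm_num at *
          linarith
  calc 1024 * (6144 * P * (P / u) * (t * h ^ 40)) ^ t
      ≤ Real.exp ((4 : ℕ) * h) * Real.exp (h ^ 40 + 9 * h ^ 5) ^ t := by
        gcongr
        exact le_trans (by norm_num) (ten_pow_le_exp hh 4)
    _ ≤ _ := by
        rw [← Real.exp_nat_mul, ← Real.exp_add, Real.exp_le_exp]
        obtain ⟨y, rfl⟩ : ∃ y, ρ = h ^ 35 * y := ⟨ρ / h ^ 35, by field_simp⟩
        have hy : h ^ 45 ≤ y := by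
          have : h ^ 35 * h ^ 45 ≤ h ^ 35 * y := by rw [← pow_add]; exact hρ0
          exact le_of_mul_le_mul_left this (by positivity)
        have h3 : t * h ^ 5 ≤ 3 * y := by
          have : h ^ 35 * (t * h ^ 5) ≤ h ^ 35 * (3 * y) := by linarith [show h ^ 35 * (t * h ^ 5) = t * h ^ 40 by ring]
          exact le_of_mul_le_mul_left this (by positivity)
        have e2 : (1 + 1 / h ^ 29) * (h ^ 35 * y) = h ^ 35 * y + h ^ 6 * y := by field_simp
        have h4 : h ^ 40 ≤ h ^ 45 := pow_le_pow_right₀ (by linarith) (by norm_num)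
        have h5 : h ≤ h ^ 40 := le_self_pow₀ (by linarith) (by norm_num)
        have h6 : 10 ^ 6 * y ≤ h ^ 6 * y := by gcongr; linarith
        rw [e2]
        norm_num at *
        nlinarith

theorem num_K0 {h : ℝ} (hh : 10 ≤ h) : 2 / (1 / (2 * h ^ 10)) ^ 2 ≤ Real.exp (21 * h) := by
  have h0 : 0 < h := by linarith
  have e : 2 / (1 / (2 * h ^ 10)) ^ 2 = 8 * h ^ 20 := by field_simp; norm_num
  rw [e, show 21 * h = (1 : ℕ) * h + (20 : ℕ) * h by push_cast; ring, Real.exp_add]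
  gcongr
  · exact le_trans (by norm_num) (ten_pow_le_exp hh 1)
  · exact pow_le_exp h0.le 20

theorem num_K {h w K0 x : ℝ} (hh : 10 ≤ h) (hw : h ^ 51 ≤ w) (h1 : 0 ≤ K0)
    (hK0 : K0 ≤ Real.exp (21 * h)) (h2 : 0 ≤ x) (hx : x ≤ Real.exp (2 * w)) :
    (24 * 2 ^ 14 * K0 ^ 7 * x ^ 3) ^ 3 * (24 * K0 ^ 2) ≤ Real.exp (19 * w) := by
  calc (24 * 2 ^ 14 * K0 ^ 7 * x ^ 3) ^ 3 * (24 * K0 ^ 2)
      ≤ (Real.exp ((6 : ℕ) * h) * Real.exp (21 * h) ^ 7 * Real.exp (2 * w) ^ 3) ^ 3 *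
        (Real.exp ((2 : ℕ) * h) * Real.exp (21 * h) ^ 2) := by
        gcongr
        · exact le_trans (by norm_num) (ten_pow_le_exp hh 6)
        · exact le_trans (by norm_num) (ten_pow_le_exp hh 2)
    _ ≤ _ := by
        simp only [← Real.exp_nat_mul, ← Real.exp_add, Real.exp_le_exp]
        have := pow_ge hh 50 1
        norm_num at *
        linarith

theorem num_a1 {h n : ℝ} (h0 : 0 < h) (hn1 : 80 * h ^ 25 ≤ n) :
    Real.exp (10 * h ^ 5) ≤ Real.exp (n * (1 / (2 * h ^ 10)) ^ 2 / 2) := by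
  rw [Real.exp_le_exp]
  calc 10 * h ^ 5 = 80 * h ^ 25 * (1 / (2 * h ^ 10)) ^ 2 / 2 := by field_simp; norm_num
    _ ≤ _ := by gcongr

theorem num_a2 {h ρ u P : ℝ} (h0 : 0 < h) (hρ0 : 3 ≤ ρ) (hρ : ρ ≤ Real.exp (4 * h ^ 5))
    (hu0 : 0 < u) (hu : P ≤ 24 * h ^ 40 * Real.exp (4 * h ^ 5) * u) :
    2 * P * (Real.log (4 * Real.exp (2 * ρ)) / h ^ 40 / u) ≤ 144 * Real.exp (8 * h ^ 5) := by
  have b1 : Real.log (4 * Real.exp (2 * ρ)) ≤ 3 * Real.exp (4 * h ^ 5) := by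
    rw [Real.log_mul (by norm_num) (Real.exp_pos _).ne', Real.log_exp]
    have := Real.log_le_sub_one_of_pos (show (0 : ℝ) < 4 by norm_num)
    linarith
  have b2 : 0 ≤ Real.log (4 * Real.exp (2 * ρ)) :=
    Real.log_nonneg (by linarith [Real.one_le_exp (show 0 ≤ 2 * ρ by linarith)])
  calc 2 * P * (Real.log (4 * Real.exp (2 * ρ)) / h ^ 40 / u)
      ≤ 2 * (24 * h ^ 40 * Real.exp (4 * h ^ 5) * u) *
        (3 * Real.exp (4 * h ^ 5) / h ^ 40 / u) := by gcongr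
    _ = 144 * (Real.exp (4 * h ^ 5) * Real.exp (4 * h ^ 5)) := by field_simp; norm_num
    _ = _ := by rw [← Real.exp_add]; congr 2; ring

end ECoreAux

open ECoreAux in
theorem eCore (hJ : JohnsonStmt) (hB : BSGStmt) : ECoreStmt := by
  refine ⟨10, fun h hh P S hP hS T hTS hT ρ hρ0 hρ ξ e Z hξ hZn hZ => ?_⟩
  by_contra hcon
  rw [not_le] at hcon
  have hh : 10 ≤ h := hh
  have h0 : 0 < h := by linarith
  have h1 : 1 ≤ h ^ 40 := one_le_pow₀ (by linarith)
  have hP2 : 2 ≤ P := by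
    by_contra h2
    have : P = 0 ∨ P = 1 := by omega
    rcases this with rfl | rfl <;> simp at hP <;> linarith
  have hP0 : (0 : ℝ) < P := by exact_mod_cast (by omega : 0 < P)
  have hPe : (P : ℝ) = Real.exp (h ^ 40) := by rw [hP, Real.exp_log hP0]
  have hu : (P : ℝ) ≤ 24 * h ^ 40 * Real.exp (4 * h ^ 5) * T.card := by
    have h2 := hS.2
    rw [← hP] at h2
    have h3 : (S.card : ℝ) ≤ Real.exp (4 * h ^ 5) * T.card := by
      rw [Real.exp_neg, inv_mul_le_iff₀ (Real.exp_pos _)] at hT; exact hT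
    refine h2.trans ?_
    rw [mul_assoc (24 * h ^ 40)]
    gcongr
  have hu0 : (0 : ℝ) < T.card := by
    by_contra h2
    have : (T.card : ℝ) = 0 := le_antisymm (not_lt.1 h2) (Nat.cast_nonneg _)
    rw [this] at hu; linarith
  have hZ0 : (0 : ℝ) < Z.card := lt_trans (Real.exp_pos _) hcon
  have h40 : 10 ^ 40 * h ^ 40 ≤ ρ := (pow_ge hh 40 40).trans hρ0
  have hh40 : h ≤ h ^ 40 := le_self_pow₀ (by linarith) (by norm_num)
  have hρpos : 0 < ρ := by linarith
  obtain ⟨w, hw⟩ : ∃ w, ρ = h ^ 29 * w := ⟨ρ / h ^ 29, by field_simp⟩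
  have hw1 : h ^ 51 ≤ w := by
    have : h ^ 29 * h ^ 51 ≤ h ^ 29 * w := by rw [← pow_add, ← hw]; exact hρ0
    exact le_of_mul_le_mul_left this (by positivity)
  have hw0 : 0 < w := lt_of_lt_of_le (by positivity) hw1
  have hw2 : 1 / h ^ 29 * ρ = w := by rw [hw]; field_simp
  set t := ⌈(ρ + 1) / h ^ 40⌉₊ with ht
  set n := ⌈80 * h ^ 25⌉₊ with hn
  have ht1 : ρ + 1 ≤ t * h ^ 40 := by
    rw [← div_le_iff₀ (by positivity)]; exact Nat.le_ceil _
  have ht2 : t * h ^ 40 ≤ ρ + 1 + h ^ 40 := by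
    have := (Nat.ceil_lt_add_one (show 0 ≤ (ρ + 1) / h ^ 40 by positivity)).le
    calc t * h ^ 40 ≤ ((ρ + 1) / h ^ 40 + 1) * h ^ 40 := by gcongr
      _ = _ := by field_simp
  have hn1 : 80 * h ^ 25 ≤ n := Nat.le_ceil _
  have hn2 : n ≤ 81 * h ^ 25 := by
    have := (Nat.ceil_lt_add_one (show 0 ≤ 80 * h ^ 25 by positivity)).le
    have : 1 ≤ h ^ 25 := one_le_pow₀ (by linarith)
    linarith
  have hK0 := num_K0 hh
  have key := core hJ hB (t := t) (n := n) hP2 (hS.1.mono hTS) (card_pos.1 (by exact_mod_cast hu0))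
    (Nat.ceil_pos.2 (by positivity)) ξ e (card_pos.1 (by exact_mod_cast hZ0))
    (β := 1 / (2 * h ^ 10)) (R := Real.exp (2 * ρ)) (M := Real.exp ((1 + 1 / h ^ 29) * ρ))
    (K := Real.exp (19 * w)) (by positivity) (Real.one_le_exp (by positivity)) hξ hZn hZ ?_ ?_
    (num_M hh hρ0 hρ hPe hu0 hu ht2) rfl
    (num_K hh hw1 (div_nonneg zero_le_two (sq_nonneg _)) hK0
      (div_nonneg (Real.exp_pos _).le hZ0.le) ?_)
  · -- final contradiction
    have a1 := num_a1 h0 hn1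
    have a2 := num_a2 h0 (by linarith) hρ hu0 hu
    rw [← hP] at key
    have a3 : P * (Real.exp (19 * w) ^ n * (24 * (2 / (1 / (2 * h ^ 10)) ^ 2) ^ 2) / Z.card) ≤ 1 := by
      rw [← mul_div_assoc, div_le_one hZ0]
      refine le_trans ?_ hcon.le
      calc P * (Real.exp (19 * w) ^ n * (24 * (2 / (1 / (2 * h ^ 10)) ^ 2) ^ 2))
          ≤ P * (Real.exp (19 * w) ^ n * (Real.exp ((2 : ℕ) * h) * Real.exp (21 * h) ^ 2)) := by
            gcongr
            exact le_trans (by norm_num) (ten_pow_le_exp hh 2)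
        _ ≤ _ := by
            rw [hPe]
            simp only [← Real.exp_nat_mul, ← Real.exp_add, Real.exp_le_exp]
            have c1 : (n : ℝ) * (19 * w) ≤ 81 * h ^ 25 * (19 * w) := by gcongr
            have c2 : 10 ^ 4 * h ^ 25 * w ≤ ρ := by
              rw [hw]; gcongr; exact pow_ge hh 4 25
            have c3 : 10 ^ 29 * w ≤ ρ := by rw [hw]; gcongr
            rw [sub_mul, hw2]
            norm_num at *
            nlinarith
    have a4 : Real.exp (10 * h ^ 5) = Real.exp (2 * h ^ 5) * Real.exp (8 * h ^ 5) := by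
      rw [← Real.exp_add]; congr 1; ring
    have a5 := Real.add_one_le_exp (2 * h ^ 5)
    have a6 : 10 ^ 5 ≤ h ^ 5 := by gcongr
    have a7 : 1 ≤ Real.exp (8 * h ^ 5) := Real.one_le_exp (by positivity)
    nlinarith
  · have : 2 * Real.exp ρ ≤ (2 * P : ℝ) ^ t := by
      calc 2 * Real.exp ρ ≤ Real.exp (ρ + 1) := by
            rw [Real.exp_add]
            nlinarith [Real.add_one_le_exp 1, Real.exp_pos ρ]
        _ ≤ (P : ℝ) ^ t := by rw [hPe, ← Real.exp_nat_mul, Real.exp_le_exp]; exact ht1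
        _ ≤ _ := by gcongr; linarith
    calc 4 * Real.exp (2 * ρ) = (2 * Real.exp ρ) ^ 2 := by
          rw [mul_pow, ← Real.exp_nat_mul]; norm_num
      _ ≤ _ := by gcongr
  · have : (2 : ℝ) ^ n ≤ P := by
      calc (2 : ℝ) ^ n ≤ Real.exp 1 ^ n := by gcongr; linarith [Real.add_one_le_exp 1]
        _ ≤ P := by
          rw [hPe, ← Real.exp_nat_mul, Real.exp_le_exp]
          have := pow_ge hh 15 25
          have : 0 < h ^ 25 := by positivity
          norm_num at *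
          linarith
    exact_mod_cast this
  · rw [div_le_iff₀ hZ0]
    refine le_trans (le_of_eq ?_) (mul_le_mul_of_nonneg_left hcon.le (Real.exp_pos _).le)
    rw [← Real.exp_add, add_mul, sub_mul, hw2]; congr 1; ring

end Crest.Agent.R2
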