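import Crest.Agent.R2.Basic

/-! Row 2, `ECore`, part A: Riesz products and the collision lower bound. -/

set_option autoImplicit false

open Finset
open scoped Pointwise Classical

namespace Crest.Agent.R2.ECoreAux

/-- the character `a ↦ e(k ξ a / p)` -/
noncomputable def ch (p : SPrime) (ξ : ZMod p.1) (k : ℤ) (a : ZMod p.1) : ℂ :=
  ZMod.stdAddChar (((k : ZMod p.1) * ξ) * a)

theorem ch_add (p : SPrime) (ξ : ZMod p.1) (k l : ℤ) (a : ZMod p.1) :
    ch p ξ (k + l) a = ch p ξ k a * ch p ξ l a := by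
  simp [ch, add_mul, AddChar.map_add_eq_mul]

theorem ch_neg (p : SPrime) (ξ : ZMod p.1) (k : ℤ) (a : ZMod p.1) :
    ch p ξ (-k) a = (starRingEnd ℂ) (ch p ξ k a) := by
  unfold ch
  rw [Int.cast_neg, neg_mul, neg_mul, AddChar.map_neg_eq_conj]

theorem norm_ch (p : SPrime) (ξ : ZMod p.1) (k : ℤ) (a : ZMod p.1) : ‖ch p ξ k a‖ = 1 := by
  simp [ch, ZMod.stdAddChar_apply]

theorem sum_ch (p : SPrime) {ξ : ZMod p.1} (hξ : ξ ≠ 0) {k : ℤ} (h1 : 1 ≤ |k|)
    (h2 : |k| + 1 ≤ p.1) : ∑ a, ch p ξ k a = 0 := by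
  apply sum_stdAddChar_mul p
  refine mul_ne_zero ?_ hξ
  intro h
  have hd := (ZMod.intCast_zmod_eq_zero_iff_dvd k p.1).1 h
  have := Int.le_of_dvd (by omega) ((dvd_abs _ _).2 hd)
  omega

/-- Riesz product -/
noncomputable def rz (p : SPrime) (ξ : ZMod p.1) (c : ℂ) (d d' : ℕ → ℂ) (n : ℕ)
    (a : ZMod p.1) : ℂ :=
  ∏ r ∈ range n, (c + d r * ch p ξ (2 ^ r) a + d' r * ch p ξ (-2 ^ r) a)

theorem rz_orth (p : SPrime) {ξ : ZMod p.1} (hξ : ξ ≠ 0) (c : ℂ) (d d' : ℕ → ℂ) (n : ℕ) :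
    ∀ k : ℤ, 2 ^ n ≤ |k| → |k| + 2 ^ n ≤ p.1 → ∑ a, rz p ξ c d d' n a * ch p ξ k a = 0 := by
  induction n with
  | zero =>
    intro k h1 h2
    simpa [rz] using sum_ch p hξ (by simpa using h1) (by simpa using h2)
  | succ n ih =>
    intro k h1 h2
    have e : ∀ a, rz p ξ c d d' (n + 1) a * ch p ξ k a =
        c * (rz p ξ c d d' n a * ch p ξ k a) + d n * (rz p ξ c d d' n a * ch p ξ (k + 2 ^ n) a)
          + d' n * (rz p ξ c d d' n a * ch p ξ (k + -2 ^ n) a) := by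
      intro a
      simp only [rz, prod_range_succ, ch_add]; ring
    have hp : (0 : ℤ) < 2 ^ n := by positivity
    rw [pow_succ] at h1 h2
    generalize (2 : ℤ) ^ n = q at *
    simp only [e, sum_add_distrib, ← mul_sum]
    rw [ih k (by omega) (by omega), ih (k + q) ?_ ?_, ih (k + -q) ?_ ?_]
    · simp
    all_goals
      rcases abs_cases k with h | h <;> rcases abs_cases (k + q) with h' | h' <;>
        rcases abs_cases (k + -q) with h'' | h'' <;> omega

theorem sum_rz (p : SPrime) {ξ : ZMod p.1} (hξ : ξ ≠ 0) (c : ℂ) (d d' : ℕ → ℂ) (n : ℕ)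
    (hn : 2 ^ n ≤ p.1) : ∑ a, rz p ξ c d d' n a = c ^ n * p.1 := by
  induction n with
  | zero => simp [rz, ZMod.card]
  | succ n ih =>
    have e : ∀ a, rz p ξ c d d' (n + 1) a =
        c * rz p ξ c d d' n a + d n * (rz p ξ c d d' n a * ch p ξ (2 ^ n) a)
          + d' n * (rz p ξ c d d' n a * ch p ξ (-2 ^ n) a) := by
      intro a
      simp only [rz, prod_range_succ]; ring
    have hn' : (2 : ℤ) ^ n + 2 ^ n ≤ p.1 := by
      have : (2 : ℤ) ^ (n + 1) ≤ p.1 := by exact_mod_cast hn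
      rw [pow_succ] at this; omega
    have ha : |(2 : ℤ) ^ n| = 2 ^ n := abs_of_pos (by positivity)
    simp only [e, sum_add_distrib, ← mul_sum]
    rw [ih (le_trans (Nat.pow_le_pow_right two_pos (Nat.le_succ n)) hn),
      rz_orth p hξ c d d' n _ (by rw [ha]) (by rw [ha]; exact hn'),
      rz_orth p hξ c d d' n _ (by rw [abs_neg, ha]) (by rw [abs_neg, ha]; exact hn')]
    ring

theorem exp_le_cosh (l t : ℝ) (ht : |t| ≤ 1) :
    Real.exp (l * t) ≤ Real.cosh l + Real.sinh l * t := by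
  have h1 := abs_le.1 ht
  have := convexOn_exp.2 (Set.mem_univ l) (Set.mem_univ (-l))
    (show 0 ≤ (1 + t) / 2 by linarith) (show 0 ≤ (1 - t) / 2 by linarith) (by ring)
  simp only [smul_eq_mul] at this
  rw [show (1 + t) / 2 * l + (1 - t) / 2 * -l = l * t by ring] at this
  rw [Real.cosh_eq, Real.sinh_eq]
  linarith

/-- the lacunary sum -/
noncomputable def lac (p : SPrime) (ξ : ZMod p.1) (e : ℕ → ℂ) (n : ℕ) (a : ZMod p.1) : ℝ :=
  ∑ r ∈ range n, (e r * ch p ξ (2 ^ r) a).re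

theorem mgf (p : SPrime) {ξ : ZMod p.1} (hξ : ξ ≠ 0) (e : ℕ → ℂ) (he : ∀ r, ‖e r‖ ≤ 1) (n : ℕ)
    (hn : 2 ^ n ≤ p.1) (l : ℝ) :
    ∑ a, Real.exp (l * lac p ξ e n a) ≤ p.1 * Real.exp (n * (l ^ 2 / 2)) := by
  have h1 : ∀ a, Real.exp (l * lac p ξ e n a) ≤
      ∏ r ∈ range n, (Real.cosh l + Real.sinh l * (e r * ch p ξ (2 ^ r) a).re) := by
    intro a
    rw [lac, mul_sum, Real.exp_sum]
    refine prod_le_prod (fun _ _ => (Real.exp_pos _).le) fun r _ => exp_le_cosh _ _ ?_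
    refine (Complex.abs_re_le_norm _).trans ?_
    rw [norm_mul, norm_ch, mul_one]; exact he r
  have h2 : ∀ a, ((∏ r ∈ range n, (Real.cosh l + Real.sinh l * (e r * ch p ξ (2 ^ r) a).re) : ℝ) : ℂ)
      = rz p ξ (Real.cosh l) (fun r => Real.sinh l * e r / 2)
        (fun r => Real.sinh l * (starRingEnd ℂ) (e r) / 2) n a := by
    intro a
    rw [rz, Complex.ofReal_prod]
    refine prod_congr rfl fun r _ => ?_
    rw [ch_neg, Complex.ofReal_add, Complex.ofReal_mul, Complex.re_eq_add_conj, map_mul]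
    ring
  have h3 : ∑ a, ∏ r ∈ range n, (Real.cosh l + Real.sinh l * (e r * ch p ξ (2 ^ r) a).re)
      = Real.cosh l ^ n * p.1 := by
    apply Complex.ofReal_injective
    rw [Complex.ofReal_sum]
    simp only [h2]
    rw [sum_rz p hξ _ _ _ n hn]
    push_cast; ring
  refine (sum_le_sum fun a _ => h1 a).trans ?_
  rw [h3, mul_comm, Real.exp_nat_mul]
  gcongr
  exact Real.cosh_le_exp_half_sq l

theorem coll_lower (p : SPrime) {ξ : ZMod p.1} (hξ : ξ ≠ 0) (e : ℕ → ℂ) (he : ∀ r, ‖e r‖ ≤ 1)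
    (n : ℕ) (hn : 2 ^ n ≤ p.1) (s : ℝ) {B : Finset GI} (hB : B.Nonempty) :
    Real.exp (2 * s * avg B (fun z => lac p ξ e n (res p z)) - 2 * n * s ^ 2) ≤
      p.1 * ∑ a, law p B id a ^ 2 := by
  have h1 := exp_avg_le hB (fun z => s * lac p ξ e n (res p z))
  rw [avg_mul_left] at h1
  have h2 := sum_law_mul p B id (fun a => Real.exp (s * lac p ξ e n a))
  simp only [id] at h2
  rw [← h2] at h1
  have h3 := sum_mul_sq_le_sq_mul_sq univ (law p B id) (fun a => Real.exp (s * lac p ξ e n a))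
  have h4 := mgf p hξ e he n hn (2 * s)
  have h5 : ∀ a, Real.exp (s * lac p ξ e n a) ^ 2 = Real.exp (2 * s * lac p ξ e n a) := by
    intro a; rw [← Real.exp_nat_mul]; congr 1; push_cast; ring
  simp only [h5] at h3
  have h6 : Real.exp (s * avg B (fun z => lac p ξ e n (res p z))) ^ 2 ≤
      (∑ a, law p B id a ^ 2) * (p.1 * Real.exp (n * ((2 * s) ^ 2 / 2))) :=
    ((pow_le_pow_left₀ (Real.exp_pos _).le h1 2).trans h3).trans
      (mul_le_mul_of_nonneg_left h4 (sum_nonneg fun _ _ => sq_nonneg _))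
  rw [Real.exp_sub, div_le_iff₀ (Real.exp_pos _)]
  rw [← Real.exp_nat_mul, show (n : ℝ) * ((2 * s) ^ 2 / 2) = 2 * n * s ^ 2 by ring,
    Nat.cast_ofNat, ← mul_assoc] at h6
  linarith

end Crest.Agent.R2.ECoreAux
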