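import Crest.Agent.R2.ECoreA

/-! Row 2, `ECore`, part B: the combinatorial core. -/

set_option autoImplicit false

open Finset
open scoped Pointwise Classical

namespace Crest.Agent.R2.ECoreAux

/-- doubling chain inside a set with small `A - 2A` -/
theorem chain {A : Finset GI} (hA : A.Nonempty) {K : ℝ} (hK0 : 0 ≤ K)
    (hK : ((A - 2 • A).card : ℝ) ≤ K * A.card) (n : ℕ) :
    ∃ B ⊆ A, ∃ c : ℕ → GI, (A.card : ℝ) ≤ K ^ n * B.card ∧
      ∀ z ∈ B, ∀ r ≤ n, 2 ^ r * z + c r ∈ A := by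
  induction n with
  | zero =>
    refine ⟨A, Subset.rfl, fun _ => 0, by simp, fun z hz r hr => ?_⟩
    obtain rfl : r = 0 := by omega
    simpa using hz
  | succ n ih =>
    obtain ⟨B, hBA, c, hc, hB⟩ := ih
    have hne : (A - 2 • A).Nonempty := hA.sub hA.nsmul
    have hApos : (0 : ℝ) < A.card := by exact_mod_cast hA.card_pos
    obtain ⟨s, hs, hmax⟩ := exists_max_image (A - 2 • A)
      (fun s => (B.filter (fun z => 2 ^ (n + 1) * z + (2 * c n + s) ∈ A)).card) hne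
    have h1 : B.card * A.card ≤ (A - 2 • A).card *
        (B.filter (fun z => 2 ^ (n + 1) * z + (2 * c n + s) ∈ A)).card := by
      refine card_mul_le_card_mul (fun z s => 2 ^ (n + 1) * z + (2 * c n + s) ∈ A)
        (fun z hz => ?_) (fun s' hs' => hmax s' hs')
      refine card_le_card_of_injOn (fun a => a - 2 * (2 ^ n * z + c n)) (fun a ha => ?_)
        (fun a _ b _ h => by simpa using h)
      have hy := hB z hz n le_rfl
      simp only [coe_bipartiteAbove, Set.mem_ofPred_eq]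
      constructor
      · refine sub_mem_sub ha ?_
        rw [two_nsmul, two_mul]
        exact add_mem_add hy hy
      · have : 2 ^ (n + 1) * z + (2 * c n + (a - 2 * (2 ^ n * z + c n))) = a := by ring
        rw [this]; exact ha
    refine ⟨B.filter (fun z => 2 ^ (n + 1) * z + (2 * c n + s) ∈ A),
      (filter_subset _ _).trans hBA, fun r => if r = n + 1 then 2 * c n + s else c r, ?_, ?_⟩
    · have h2 : (B.card : ℝ) * A.card ≤ (A - 2 • A).card *
          (B.filter (fun z => 2 ^ (n + 1) * z + (2 * c n + s) ∈ A)).card := by exact_mod_cast h1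
      have h3 : (B.card : ℝ) ≤
          K * (B.filter (fun z => 2 ^ (n + 1) * z + (2 * c n + s) ∈ A)).card := by
        have := h2.trans (mul_le_mul_of_nonneg_right hK (Nat.cast_nonneg _))
        nlinarith
      refine hc.trans ?_
      rw [pow_succ, mul_assoc]
      exact mul_le_mul_of_nonneg_left h3 (pow_nonneg hK0 _)
    · intro z hz r hr
      by_cases h : r = n + 1
      · subst h; simpa using (mem_filter.1 hz).2
      · simpa [h] using hB z (mem_filter.1 hz).1 r (by omega)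

/-- mean real part of the character -/
noncomputable def gg (T : Finset SPrime) (ξ : (p : SPrime) → ZMod p.1) (v : GI) : ℝ :=
  avg T (fun p => (chi p (ξ p) v).re)

theorem gg_le_one {T : Finset SPrime} (hT : T.Nonempty) (ξ : (p : SPrime) → ZMod p.1) (v : GI) :
    gg T ξ v ≤ 1 :=
  avg_le_of_le hT fun _ _ => (Complex.re_le_norm _).trans (norm_chi _ _ _).le

theorem pairs {T : Finset SPrime} (hT : T.Nonempty) (ξ : (p : SPrime) → ZMod p.1)
    (e : SPrime → ℂ) {Z : Finset GI} (hZ : Z.Nonempty) {β : ℝ} (hβ : 0 ≤ β)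
    (he : ∀ p ∈ T, ‖e p‖ ≤ 1) (hz : ∀ z ∈ Z, β ≤ avg T (fun p => (e p * chi p (ξ p) z).re)) :
    β ^ 2 / 2 ≤ ∑ x ∈ Z, ∑ y ∈ Z,
      if β ^ 2 / 2 ≤ gg T ξ (x - y) then (1 / Z.card : ℝ) * (1 / Z.card) else 0 := by
  have hc : (0 : ℝ) < Z.card := by exact_mod_cast hZ.card_pos
  have h1 : β ≤ avg T (fun p => ‖∑ z ∈ Z, chi p (ξ p) z‖ / Z.card) := by
    refine (le_avg_of_le hZ hz).trans ?_
    rw [avg_comm]
    refine avg_le_avg fun p hp => ?_
    unfold avg
    rw [← Complex.re_sum, ← mul_sum]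
    gcongr
    refine (Complex.re_le_norm _).trans ?_
    rw [norm_mul]
    exact mul_le_of_le_one_left (norm_nonneg _) (he p hp)
  have h2 : ∀ p : SPrime, (‖∑ z ∈ Z, chi p (ξ p) z‖ / Z.card) ^ 2 =
      avg Z (fun x => avg Z (fun y => (chi p (ξ p) (x - y)).re)) := by
    intro p
    simp only [avg, ← sum_div, chi_sub, ← Complex.re_sum, ← mul_sum, ← sum_mul, ← map_sum]
    rw [Complex.mul_conj, Complex.normSq_eq_norm_sq, Complex.ofReal_re, div_pow, div_div, sq (Z.card : ℝ)]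
  have h3 : β ^ 2 ≤ avg Z (fun x => avg Z (fun y => gg T ξ (x - y))) := by
    refine (pow_le_pow_left₀ hβ h1 2).trans ((avg_sq_le _ _).trans (le_of_eq ?_))
    simp only [h2]
    rw [avg_comm]
    exact avg_congr fun x _ => avg_comm _ _ _
  have h4 : avg Z (fun x => avg Z (fun y => gg T ξ (x - y))) ≤
      avg Z (fun x => avg Z (fun y => β ^ 2 / 2 + if β ^ 2 / 2 ≤ gg T ξ (x - y) then 1 else 0)) := by
    refine avg_le_avg fun x _ => avg_le_avg fun y _ => ?_
    have := gg_le_one hT ξ (x - y)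
    split_ifs with h
    · nlinarith [sq_nonneg β]
    · linarith
  simp only [avg_add, avg_const hZ] at h4
  have h5 : avg Z (fun x => avg Z (fun y => if β ^ 2 / 2 ≤ gg T ξ (x - y) then (1 : ℝ) else 0)) =
      ∑ x ∈ Z, ∑ y ∈ Z,
        if β ^ 2 / 2 ≤ gg T ξ (x - y) then (1 / Z.card : ℝ) * (1 / Z.card) else 0 := by
    simp only [avg, sum_div]
    refine sum_congr rfl fun x _ => sum_congr rfl fun y _ => ?_
    split_ifs <;> simp [div_eq_mul_inv]
  linarith

/-- BSG + Plünnecke-Ruzsa -/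
theorem struct (hB : BSGStmt) {Z : Finset GI} (hZ : Z.Nonempty) (G : GI → GI → Prop) {K M : ℝ}
    (hK : 0 < K) (D : Finset GI) (hD : ∀ x ∈ Z, ∀ y ∈ Z, G x y → x - y ∈ D) (hM : (D.card : ℝ) ≤ M)
    (h : 1 / K ≤ ∑ x ∈ Z, ∑ y ∈ Z, if G x y then (1 / Z.card : ℝ) * (1 / Z.card) else 0) :
    ∃ A ⊆ Z, (Z.card : ℝ) ≤ 24 * K ^ 2 * A.card ∧ ((A - 2 • A).card : ℝ) ≤
      (24 * 2 ^ 14 * K ^ 7 * (M / Z.card) ^ 3) ^ 3 * (24 * K ^ 2) * A.card := by
  have hc : (0 : ℝ) < Z.card := by exact_mod_cast hZ.card_pos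
  obtain ⟨A, hA, B, hBZ, h1, h2⟩ := hB Z Z (fun _ => 1 / Z.card) (fun _ => 1 / Z.card) G K
    (1 / Z.card) (1 / Z.card) hK (fun _ _ => ⟨by positivity, le_rfl⟩)
    (fun _ _ => ⟨by positivity, le_rfl⟩) (by simp [hc.ne']) (by simp [hc.ne']) h
  have h3 := h2 id (fun y => -y) D (Set.injOn_id _) (fun x _ y _ h => neg_injective h)
    (fun x hx y hy hG => by simpa [sub_eq_add_neg] using hD x hx y hy hG)
  rw [image_id] at h3
  set B' := B.image (fun y => -y) with hB'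
  have hBc : B'.card = B.card := card_image_of_injective _ neg_injective
  have h4 : 1 / (24 * K ^ 2) ≤ (A.card : ℝ) * B.card / Z.card ^ 2 := by
    refine h1.trans ?_
    calc _ ≤ ∑ _x ∈ A, ∑ _y ∈ B, (1 / Z.card : ℝ) * (1 / Z.card) :=
          sum_le_sum fun x _ => sum_le_sum fun y _ => by split_ifs <;> [exact le_rfl; positivity]
      _ = _ := by simp only [sum_const, nsmul_eq_mul]; field_simp
  rw [div_le_div_iff₀ (by positivity) (by positivity)] at h4
  have hAZ : (A.card : ℝ) ≤ Z.card := by exact_mod_cast card_le_card hA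
  have hBZ' : (B.card : ℝ) ≤ Z.card := by exact_mod_cast card_le_card hBZ
  have hA0 : (0 : ℝ) ≤ A.card := Nat.cast_nonneg _
  have hB0 : (0 : ℝ) ≤ B.card := Nat.cast_nonneg _
  have hK2 : 0 < 24 * K ^ 2 := by positivity
  have h5 : (Z.card : ℝ) ≤ 24 * K ^ 2 * A.card := by
    have : (A.card : ℝ) * B.card * (24 * K ^ 2) ≤ A.card * Z.card * (24 * K ^ 2) := by gcongr
    nlinarith
  have h6 : (Z.card : ℝ) ≤ 24 * K ^ 2 * B.card := by
    have : (A.card : ℝ) * B.card * (24 * K ^ 2) ≤ Z.card * B.card * (24 * K ^ 2) := by gcongr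
    nlinarith
  have hBpos : (0 : ℝ) < B.card := by
    by_contra h0
    have : (B.card : ℝ) = 0 := by linarith
    rw [this] at h6; linarith
  have hB'ne : B'.Nonempty := by
    rw [← card_pos, hBc]; exact_mod_cast hBpos
  have h7 := pluennecke_ruzsa_inequality_nsmul_sub_nsmul_add hB'ne A 1 2
  rw [one_nsmul, add_comm B' A, hBc] at h7
  have h8 : ((A - 2 • A).card : ℝ) ≤ (((A + B').card : ℝ) / B.card) ^ 3 * B.card := by
    have : (((A - 2 • A).card : ℚ≥0) : ℝ) ≤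
        (((((A + B').card : ℚ≥0) / B.card) ^ (1 + 2) * B.card : ℚ≥0) : ℝ) := by exact_mod_cast h7
    simpa using this
  have hM0 : 0 ≤ M := le_trans (Nat.cast_nonneg _) hM
  have h9 : ((A + B').card : ℝ) / B.card ≤ 24 * 2 ^ 14 * K ^ 7 * (M / Z.card) ^ 3 := by
    rw [div_le_iff₀ hBpos]
    refine h3.trans ?_
    calc 2 ^ 14 * K ^ 5 * (1 / Z.card) * (1 / Z.card) * (D.card : ℝ) ^ 3
        ≤ 2 ^ 14 * K ^ 5 * (1 / Z.card) * (1 / Z.card) * M ^ 3 := by gcongr
      _ = 2 ^ 14 * K ^ 5 * (M / Z.card) ^ 3 * Z.card := by field_simp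
      _ ≤ 2 ^ 14 * K ^ 5 * (M / Z.card) ^ 3 * (24 * K ^ 2 * B.card) := by gcongr
      _ = _ := by ring
  refine ⟨A, hA, h5, h8.trans ?_⟩
  rw [mul_assoc _ (24 * K ^ 2)]
  gcongr
  exact hBZ'.trans h5

theorem johnson (hJ : JohnsonStmt) {P t : ℕ} {T : Finset SPrime} (hP : 1 ≤ P) (hT : InScale P T)
    (hTne : T.Nonempty) (ht : 1 ≤ t) (ξ : (p : SPrime) → ZMod p.1) (hξ : ∀ p ∈ T, ξ p ≠ 0)
    (V : Finset GI) {γ : ℝ} (hγ : 0 < γ) (hV : ∀ v ∈ V, (v.norm : ℝ) ≤ ((2 * P : ℝ) ^ t) ^ 2)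
    (hg : ∀ v ∈ V, γ ≤ gg T ξ v) :
    (V.card : ℝ) ≤ 1024 * ((2 * P : ℝ) ^ t) ^ 2 * (24 * t * max (T.card : ℝ) t) ^ t /
      (T.card * γ) ^ (2 * t) := by
  have hc : (0 : ℝ) < T.card := by exact_mod_cast hTne.card_pos
  have hab : ∀ (p : SPrime) (x : ZMod p.1), |(ZMod.stdAddChar (ξ p * x)).re| ≤ 1 := fun p x =>
    (Complex.abs_re_le_norm _).trans (by simp [ZMod.stdAddChar_apply])
  have := hJ P t T V (fun p a => (ZMod.stdAddChar (ξ p * a)).re) 1 (T.card * γ) hP hT ht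
    (fun p hp => by rw [← Complex.re_sum, sum_stdAddChar_mul p (hξ p hp)]; rfl)
    (fun p _ x => hab p x) (fun p _ => ?_) (by positivity) hV (fun v hv => ?_)
  · simpa using this
  · unfold mean
    rw [div_le_one p.pos]
    refine (sum_le_sum (g := fun _ => (1 : ℝ)) fun a _ => ?_).trans (by simp [ZMod.card])
    exact (sq_le_one_iff_abs_le_one _).2 (hab p a)
  · have := hg v hv
    rw [gg, avg, le_div_iff₀ hc] at this
    simpa [chi, mul_comm] using this

theorem ch_res (p : SPrime) (ξ : ZMod p.1) (r : ℕ) (z : GI) :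
    ch p ξ (2 ^ r) (res p z) = chi p ξ (2 ^ r * z) := by
  unfold ch chi
  congr 1
  rw [map_mul, map_pow, map_ofNat]
  push_cast; ring

theorem core (hJ : JohnsonStmt) (hB : BSGStmt) {P t n : ℕ} {T : Finset SPrime} (hP : 2 ≤ P)
    (hT : InScale P T) (hTne : T.Nonempty) (ht : 1 ≤ t) (ξ : (p : SPrime) → ZMod p.1)
    (e : SPrime → ℂ) {Z : Finset GI} (hZ : Z.Nonempty) {β R M K0 K : ℝ} (hβ : 0 < β) (hR1 : 1 ≤ R)
    (hξ : ∀ p ∈ T, ξ p ≠ 0 ∧ ‖e p‖ ≤ 1) (hR : ∀ z ∈ Z, (z.norm : ℝ) ≤ R)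
    (hz : ∀ z ∈ Z, β ≤ avg T (fun p => (e p * chi p (ξ p) z).re))
    (hRt : 4 * R ≤ ((2 * P : ℝ) ^ t) ^ 2) (hn : 2 ^ n ≤ P)
    (hM : 1024 * ((2 * P : ℝ) ^ t) ^ 2 * (24 * t * max (T.card : ℝ) t) ^ t /
      (T.card * (β ^ 2 / 2)) ^ (2 * t) ≤ M) (hK0 : K0 = 2 / β ^ 2)
    (hK : (24 * 2 ^ 14 * K0 ^ 7 * (M / Z.card) ^ 3) ^ 3 * (24 * K0 ^ 2) ≤ K) :
    Real.exp (n * β ^ 2 / 2) ≤ 2 * P * (Real.log (4 * R) / Real.log P / T.card +
      K ^ n * (24 * K0 ^ 2) / Z.card) := by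
  have hc : (0 : ℝ) < T.card := by exact_mod_cast hTne.card_pos
  have hZc : (0 : ℝ) < Z.card := by exact_mod_cast hZ.card_pos
  have hK0pos : 0 < K0 := by rw [hK0]; positivity
  have hD : (((Z - Z).filter (fun v => β ^ 2 / 2 ≤ gg T ξ v)).card : ℝ) ≤ M := by
    refine le_trans (johnson hJ (by omega) hT hTne ht ξ (fun p hp => (hξ p hp).1) _
      (γ := β ^ 2 / 2) (by positivity) (fun v hv => ?_) (fun v hv => (mem_filter.1 hv).2)) hM
    obtain ⟨x, hx, y, hy, rfl⟩ := mem_sub.1 (mem_filter.1 hv).1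
    exact (norm_sub_le_four (hR x hx) (hR y hy)).trans hRt
  have hM0 : 0 ≤ M := le_trans (Nat.cast_nonneg _) hD
  obtain ⟨A, hAZ, hA1, hA2⟩ := struct hB hZ (fun x y => β ^ 2 / 2 ≤ gg T ξ (x - y)) hK0pos _
    (fun x hx y hy h => mem_filter.2 ⟨sub_mem_sub hx hy, h⟩) hD (by
      rw [hK0, one_div_div]
      convert pairs hTne ξ e hZ hβ.le (fun p hp => (hξ p hp).2) hz)
  have hApos : (0 : ℝ) < A.card := by
    by_contra h0
    have : (A.card : ℝ) = 0 := le_antisymm (not_lt.1 h0) (Nat.cast_nonneg _)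
    rw [this] at hA1; linarith
  have hAne : A.Nonempty := card_pos.1 (by exact_mod_cast hApos)
  have hKn : 0 ≤ K := le_trans (by positivity) hK
  obtain ⟨B, hBA, c, hB1, hB2⟩ := chain hAne hKn
    (hA2.trans (mul_le_mul_of_nonneg_right hK hApos.le)) n
  have hBpos : (0 : ℝ) < B.card := by
    by_contra h0
    have : (B.card : ℝ) = 0 := le_antisymm (not_lt.1 h0) (Nat.cast_nonneg _)
    rw [this] at hB1; linarith
  have hBne : B.Nonempty := card_pos.1 (by exact_mod_cast hBpos)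
  -- lower bound for the collision probabilities
  set F : SPrime → ℝ := fun p =>
    avg B (fun z => lac p (ξ p) (fun r => e p * chi p (ξ p) (c r)) n (res p z)) with hF
  have h1 : n * β ≤ avg T F := by
    rw [hF, avg_comm]
    refine le_avg_of_le hBne fun z hzB => ?_
    simp only [lac]
    rw [avg_sum]
    refine le_trans (by simp) (sum_le_sum (f := fun _ => β) fun r hr => ?_)
    have := hz _ (hAZ (hB2 z hzB r (mem_range.1 hr).le))
    refine this.trans (le_of_eq (avg_congr fun p _ => ?_))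
    rw [ch_res, chi_add]; congr 1; ring
  have h2 : Real.exp (n * β ^ 2 / 2) ≤ avg T (fun p => p.1 * ∑ a, law p B id a ^ 2) := by
    have h3 := exp_avg_le hTne (fun p => 2 * (β / 2) * F p - 2 * n * (β / 2) ^ 2)
    rw [avg_sub, avg_mul_left, avg_const hTne] at h3
    refine le_trans (Real.exp_le_exp.2 ?_) (h3.trans (avg_le_avg fun p hp => ?_))
    · nlinarith [mul_le_mul_of_nonneg_left h1 hβ.le]
    · refine coll_lower p (hξ p hp).1 _ (fun r => ?_) n (hn.trans (hT p hp).1) _ hBne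
      rw [norm_mul, norm_chi, mul_one]; exact (hξ p hp).2
  have h4 := larger_sieve_law hP hT B id (R := 4 * R) (Set.injOn_id _) (by linarith)
    (fun x hx y hy => norm_sub_le_four (hR x (hAZ (hBA hx))) (hR y (hAZ (hBA hy))))
  have h5 : avg T (fun p => p.1 * ∑ a, law p B id a ^ 2) ≤
      2 * P * avg T (fun p => ∑ a, law p B id a ^ 2) := by
    rw [← avg_mul_left]
    refine avg_le_avg fun p hp => mul_le_mul_of_nonneg_right ?_ (sum_nonneg fun _ _ => sq_nonneg _)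
    exact_mod_cast (hT p hp).2
  refine h2.trans (h5.trans (mul_le_mul_of_nonneg_left ?_ (by positivity)))
  unfold avg
  refine (div_le_div_of_nonneg_right h4 hc.le).trans ?_
  rw [add_div]
  refine add_le_add le_rfl ?_
  rw [div_div, mul_comm, ← div_div, div_self hc.ne', div_le_div_iff₀ hBpos hZc, one_mul]
  refine hA1.trans ?_
  nlinarith [mul_le_mul_of_nonneg_left hB1 (show 0 ≤ 24 * K0 ^ 2 by positivity)]

end Crest.Agent.R2.ECoreAux
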