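import Crest.Agent.R2.Basic

/-! Conditional Shannon entropy for the uniform measure on a finset. -/

set_option autoImplicit false

open Finset
open scoped Classical

namespace Crest.Agent.R2

variable {ι κ α α' β β' γ δ : Type} {s : Finset ι}

theorem fib_pos {f : ι → α} {i : ι} (hi : i ∈ s) : 0 < fib s f i :=
  card_pos.2 ⟨i, mem_filter.2 ⟨hi, rfl⟩⟩

theorem fib_le_fib {f : ι → α} {f' : ι → α'} {i : ι} (h : ∀ j ∈ s, f j = f i → f' j = f' i) :
    fib s f i ≤ fib s f' i :=
  card_le_card fun j hj => mem_filter.2 ⟨(mem_filter.1 hj).1, h j (mem_filter.1 hj).1 (mem_filter.1 hj).2⟩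

theorem fib_congr {f : ι → α} {f' : ι → α'} {i : ι} (h : ∀ j ∈ s, f j = f i ↔ f' j = f' i) :
    fib s f i = fib s f' i :=
  le_antisymm (fib_le_fib fun j hj => (h j hj).1) (fib_le_fib fun j hj => (h j hj).2)

theorem fib_pos' {f : ι → α} {i : ι} (hi : i ∈ s) : (0 : ℝ) < fib s f i := by
  exact_mod_cast fib_pos hi

theorem fib_eq_sum (s : Finset ι) (f : ι → α) (i : ι) :
    (fib s f i : ℝ) = ∑ j ∈ s, if f j = f i then 1 else 0 := by
  rw [fib, card_filter]; push_cast; rfl

/-- the reciprocal fibre sizes sum to at most one over a fibre -/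
theorem sum_inv_fib_le (s : Finset ι) (f : ι → α) (a : α) :
    ∑ j ∈ s, (if f j = a then (1 : ℝ) / fib s f j else 0) ≤ 1 := by
  rw [← sum_filter]
  rcases (s.filter (fun j => f j = a)).eq_empty_or_nonempty with h | h
  · rw [h]; simp
  · have e : ∀ j ∈ s.filter (fun j => f j = a),
        (1 : ℝ) / fib s f j = 1 / (s.filter (fun j => f j = a)).card := by
      intro j hj
      rw [fib, (mem_filter.1 hj).2]
    rw [sum_congr rfl e, sum_const, nsmul_eq_mul]
    have : (0 : ℝ) < (s.filter (fun j => f j = a)).card := by exact_mod_cast h.card_pos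
    rw [mul_one_div_cancel this.ne']

/-- Gibbs inequality, in the form that also controls impossible events -/
theorem hit_aux (f : ι → α) (g : ι → β) (y : ι → γ) (E : α → γ → Prop)
    (h : ∀ i ∈ s, ¬ E (f i) (y i)) :
    avg s (fun i => avg (s.filter (fun i' => g i' = g i))
      (fun i' => if E (f i) (y i') then 1 else 0)) ≤ cH s f g - cH s f (fun i => (g i, y i)) := by
  set ρ : ι → ℝ := fun j => (fib s (fun i => (f i, g i)) j : ℝ) * fib s (fun i => (g i, y i)) j /
    (fib s g j * fib s (fun i => (f i, g i, y i)) j) with hρ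
  have h1 : avg s (fun j => 1 - ρ j) ≤ cH s f g - cH s f (fun i => (g i, y i)) := by
    rw [cH, cH, ← avg_sub]
    refine avg_le_avg fun j hj => ?_
    have p1 := fib_pos' (f := g) hj
    have p2 := fib_pos' (f := fun i => (f i, g i)) hj
    have p3 := fib_pos' (f := fun i => (g i, y i)) hj
    have p4 := fib_pos' (f := fun i => (f i, g i, y i)) hj
    have := Real.log_le_sub_one_of_pos (x := ρ j) (by rw [hρ]; positivity)
    simp only [hρ] at this ⊢
    rw [Real.log_div (by positivity) (by positivity), Real.log_mul p2.ne' p3.ne',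
      Real.log_mul p1.ne' p4.ne'] at this
    rw [Real.log_div p1.ne' p2.ne', Real.log_div p3.ne' p4.ne']
    linarith
  refine le_trans ?_ h1
  unfold avg
  refine div_le_div_of_nonneg_right ?_ (Nat.cast_nonneg _)
  have h2 : ∑ j ∈ s, ρ j = ∑ i ∈ s, ∑ i' ∈ s, ∑ j ∈ s,
      (if (f i, g i) = (f j, g j) ∧ (g i', y i') = (g j, y j) then
        1 / ((fib s g j : ℝ) * fib s (fun i => (f i, g i, y i)) j) else 0) := by
    rw [eq_comm]
    refine (sum_congr rfl fun i _ => sum_comm).trans (sum_comm.trans ?_)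
    refine sum_congr rfl fun j _ => ?_
    simp only [hρ]
    rw [fib_eq_sum s (fun i => (f i, g i)), fib_eq_sum s (fun i => (g i, y i)), sum_mul_sum,
      sum_div]
    refine sum_congr rfl fun i _ => ?_
    rw [sum_div]
    refine sum_congr rfl fun i' _ => ?_
    by_cases a1 : (f i, g i) = (f j, g j) <;> by_cases a2 : (g i', y i') = (g j, y j) <;>
      simp [a1, a2]
  have h3 : ∀ i ∈ s, ∀ i' ∈ s, ∑ j ∈ s,
      (if (f i, g i) = (f j, g j) ∧ (g i', y i') = (g j, y j) then
        1 / ((fib s g j : ℝ) * fib s (fun i => (f i, g i, y i)) j) else 0) ≤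
      if g i' = g i ∧ ¬ E (f i) (y i') then 1 / (fib s g i : ℝ) else 0 := by
    intro i hi i' _
    have p1 := fib_pos' (f := g) hi
    by_cases hc : g i' = g i ∧ ¬ E (f i) (y i')
    · rw [if_pos hc]
      have := mul_le_mul_of_nonneg_left
        (sum_inv_fib_le s (fun i => (f i, g i, y i)) (f i, g i, y i')) (one_div_pos.2 p1).le
      rw [mul_one, mul_sum] at this
      refine le_trans (sum_le_sum fun j hj => ?_) this
      by_cases a : (f i, g i) = (f j, g j) ∧ (g i', y i') = (g j, y j)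
      · rw [if_pos a]
        obtain ⟨a1, a2⟩ := a
        simp only [Prod.mk.injEq] at a1 a2
        rw [if_pos (by simp only [Prod.mk.injEq]; exact ⟨a1.1.symm, a1.2.symm, a2.2.symm⟩)]
        have e : fib s g j = fib s g i := by unfold fib; rw [a1.2]
        rw [e, one_div_mul_one_div]
      · rw [if_neg a]
        have := fib_pos' (f := fun i => (f i, g i, y i)) hj
        split_ifs <;> positivity
    · rw [if_neg hc]
      refine le_of_eq (sum_eq_zero fun j hj => if_neg ?_)
      rintro ⟨a1, a2⟩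
      simp only [Prod.mk.injEq] at a1 a2
      exact hc ⟨a2.1.trans a1.2.symm, by rw [a1.1, a2.2]; exact h j hj⟩
  have h4 : ∀ i ∈ s, (∑ i' ∈ s.filter (fun i' => g i' = g i),
      (if E (f i) (y i') then (1 : ℝ) else 0)) / (s.filter (fun i' => g i' = g i)).card +
      ∑ i' ∈ s, (if g i' = g i ∧ ¬ E (f i) (y i') then 1 / (fib s g i : ℝ) else 0) = 1 := by
    intro i hi
    have p1 := fib_pos' (f := g) hi
    change _ / (fib s g i : ℝ) + _ = 1
    rw [sum_filter, sum_div, ← sum_add_distrib]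
    have e : ∀ i' ∈ s, (if g i' = g i then (if E (f i) (y i') then (1 : ℝ) else 0) else 0) /
        (fib s g i : ℝ) + (if g i' = g i ∧ ¬ E (f i) (y i') then 1 / (fib s g i : ℝ) else 0) =
        (if g i' = g i then 1 else 0) / (fib s g i : ℝ) := by
      intro i' _
      by_cases a1 : g i' = g i <;> by_cases a2 : E (f i) (y i') <;> simp [a1, a2]
    rw [sum_congr rfl e, ← sum_div, ← fib_eq_sum, div_self p1.ne']
  rw [sum_sub_distrib, h2, ← sum_sub_distrib]
  refine sum_le_sum fun i hi => ?_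
  have := sum_le_sum (h3 i hi)
  linarith [h4 i hi]

theorem cH_nonneg (s : Finset ι) (f : ι → α) (g : ι → β) : 0 ≤ cH s f g := by
  refine avg_nonneg fun i hi => Real.log_nonneg ?_
  rw [le_div_iff₀ (fib_pos' hi), one_mul]
  exact_mod_cast fib_le_fib fun j _ h => (Prod.ext_iff.1 h).2

theorem cH_congr {f : ι → α} {f' : ι → α'} {g : ι → β} {g' : ι → β'}
    (hg : ∀ i ∈ s, ∀ j ∈ s, g i = g j ↔ g' i = g' j)
    (hf : ∀ i ∈ s, ∀ j ∈ s, g i = g j → (f i = f j ↔ f' i = f' j)) : cH s f g = cH s f' g' := by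
  refine avg_congr fun i hi => ?_
  rw [fib_congr (f := g) (f' := g') fun j hj => hg j hj i hi,
    fib_congr (f := fun j => (f j, g j)) (f' := fun j => (f' j, g' j)) fun j hj => ?_]
  simp only [Prod.mk.injEq]
  constructor
  · rintro ⟨h1, h2⟩
    exact ⟨(hf j hj i hi h2).1 h1, (hg j hj i hi).1 h2⟩
  · rintro ⟨h1, h2⟩
    have h3 := (hg j hj i hi).2 h2
    exact ⟨(hf j hj i hi h3).2 h1, h3⟩

/-- if `(g, f')` determines `f` then `H(f | g) ≤ H(f' | g)` -/
theorem cH_mono_left {f : ι → α} {f' : ι → α'} {g : ι → β}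
    (h : ∀ i ∈ s, ∀ j ∈ s, g i = g j → f' i = f' j → f i = f j) : cH s f g ≤ cH s f' g := by
  refine avg_le_avg fun i hi => ?_
  refine Real.log_le_log (div_pos (fib_pos' hi) (fib_pos' hi)) ?_
  refine div_le_div_of_nonneg_left (Nat.cast_nonneg _) (fib_pos' hi) ?_
  exact_mod_cast fib_le_fib fun j hj e => by
    simp only [Prod.mk.injEq] at e ⊢
    exact ⟨h j hj i hi e.2 e.1, e.2⟩

/-- if `g` determines `g'` then `H(f | g) ≤ H(f | g')` -/
theorem cH_mono_right {f : ι → α} {g : ι → β} {g' : ι → β'}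
    (h : ∀ i ∈ s, ∀ j ∈ s, g i = g j → g' i = g' j) : cH s f g ≤ cH s f g' := by
  have h1 := hit_aux (s := s) f g' g (fun _ _ => False) (fun _ _ h => h)
  have h2 : cH s f (fun i => (g' i, g i)) = cH s f g :=
    cH_congr (fun i hi j hj => by
      simp only [Prod.mk.injEq]
      exact ⟨fun e => e.2, fun e => ⟨h i hi j hj e, e⟩⟩) (fun _ _ _ _ _ => Iff.rfl)
  have h4 := le_trans (avg_nonneg fun _ _ => avg_nonneg fun _ _ => by simp) h1
  linarith

theorem cH_chain (s : Finset ι) (f : ι → α) (f' : ι → α') (g : ι → β) :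
    cH s (fun i => (f i, f' i)) g = cH s f g + cH s f' (fun i => (f i, g i)) := by
  rw [cH, cH, cH, ← avg_add]
  refine avg_congr fun i hi => ?_
  rw [fib_congr (f := fun j => ((f j, f' j), g j)) (f' := fun j => (f' j, f j, g j))
    (fun j _ => by simp only [Prod.mk.injEq]; tauto),
    Real.log_div (fib_pos' hi).ne' (fib_pos' hi).ne',
    Real.log_div (fib_pos' hi).ne' (fib_pos' hi).ne',
    Real.log_div (fib_pos' hi).ne' (fib_pos' hi).ne']
  ring

theorem cH_pair_le (s : Finset ι) (f : ι → α) (f' : ι → α') (g : ι → β) :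
    cH s (fun i => (f i, f' i)) g ≤ cH s f g + cH s f' g := by
  rw [cH_chain]
  exact add_le_add le_rfl (cH_mono_right fun i _ j _ h => (Prod.ext_iff.1 h).2)

theorem cH_le_log_card {f : ι → α} (g : ι → β) (T : Finset α) (h : ∀ i ∈ s, f i ∈ T) :
    cH s f g ≤ Real.log T.card := by
  rcases s.eq_empty_or_nonempty with rfl | hs
  · simpa [cH, avg] using Real.log_natCast_nonneg T.card
  have hT : (0 : ℝ) < T.card := by
    obtain ⟨i, hi⟩ := hs
    exact_mod_cast card_pos.2 ⟨_, h i hi⟩
  have hs' : (0 : ℝ) < s.card := by exact_mod_cast hs.card_pos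
  have h1 : cH s f g ≤ avg s (fun i =>
      (fib s g i : ℝ) / fib s (fun j => (f j, g j)) i / T.card - 1 + Real.log T.card) := by
    refine avg_le_avg fun i hi => ?_
    have p := div_pos (fib_pos' (f := g) hi) (fib_pos' (f := fun j => (f j, g j)) hi)
    have := Real.log_le_sub_one_of_pos (div_pos p hT)
    rw [Real.log_div p.ne' hT.ne'] at this
    linarith
  rw [avg_add, avg_sub, avg_const hs, avg_const hs] at h1
  have h2 : ∑ j ∈ s, (fib s g j : ℝ) / fib s (fun j => (f j, g j)) j ≤ s.card * T.card := by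
    calc ∑ j ∈ s, (fib s g j : ℝ) / fib s (fun j => (f j, g j)) j
        = ∑ j ∈ s, ∑ i ∈ s, ∑ a ∈ T,
            (if (f j, g j) = (a, g i) then (1 : ℝ) / fib s (fun j => (f j, g j)) j else 0) := by
          refine sum_congr rfl fun j hj => ?_
          rw [fib_eq_sum s g, sum_div]
          refine sum_congr rfl fun i _ => ?_
          rw [sum_eq_single_of_mem (f j) (h j hj) (fun a _ ha => if_neg fun e =>
            ha (Prod.ext_iff.1 e).1.symm)]
          by_cases e : g i = g j
          · simp [e]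
          · simp [e, Ne.symm e]
      _ = ∑ i ∈ s, ∑ a ∈ T, ∑ j ∈ s,
            (if (f j, g j) = (a, g i) then (1 : ℝ) / fib s (fun j => (f j, g j)) j else 0) :=
          sum_comm.trans (sum_congr rfl fun i _ => sum_comm)
      _ ≤ ∑ i ∈ s, ∑ a ∈ T, (1 : ℝ) := sum_le_sum fun i _ => sum_le_sum fun a _ => by
          refine le_trans (le_of_eq (sum_congr rfl fun j _ => ?_))
            (sum_inv_fib_le s (fun j => (f j, g j)) (a, g i))
          congr
      _ = _ := by simp
  have h3 : avg s (fun i => (fib s g i : ℝ) / fib s (fun j => (f j, g j)) i / T.card) ≤ 1 := by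
    rw [avg, ← sum_div, div_div, div_le_one (by positivity), mul_comm]
    exact h2
  linarith

/-- the coordinates before `j` -/
noncomputable def pre {r : ℕ} (F : ι → Fin r → α) (j : Fin r) (i : ι) : Fin r → Option α :=
  fun j' => if j' < j then some (F i j') else none

theorem pre_eq_iff {r : ℕ} (F : ι → Fin r → α) (j : Fin r) (i i' : ι) :
    pre F j i = pre F j i' ↔ ∀ j' < j, F i j' = F i' j' := by
  rw [funext_iff]
  refine forall_congr' fun j' => ?_
  unfold pre
  by_cases h : j' < j <;> simp [h]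

theorem cH_eq_zero {f : ι → α} {g : ι → β} (h : ∀ i ∈ s, ∀ j ∈ s, g i = g j → f i = f j) :
    cH s f g = 0 := by
  refine le_antisymm ?_ (cH_nonneg _ _ _)
  have h1 : cH s f g ≤ cH s (fun _ => ()) g := cH_mono_left fun i hi j hj e _ => h i hi j hj e
  have h2 := cH_le_log_card (s := s) (f := fun _ => ()) g {()} (fun _ _ => mem_singleton_self _)
  simpa using h1.trans h2

/-- the coordinates before `m` -/
noncomputable def preN {r : ℕ} (F : ι → Fin r → α) (m : ℕ) (i : ι) : Fin r → Option α :=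
  fun j' => if j'.1 < m then some (F i j') else none

theorem preN_eq_iff {r : ℕ} (F : ι → Fin r → α) (m : ℕ) (i i' : ι) :
    preN F m i = preN F m i' ↔ ∀ j' : Fin r, j'.1 < m → F i j' = F i' j' := by
  rw [funext_iff]
  refine forall_congr' fun j' => ?_
  unfold preN
  by_cases h : j'.1 < m <;> simp [h]

theorem cH_preN (s : Finset ι) {r : ℕ} (F : ι → Fin r → α) (g : ι → β) (m : ℕ) (hm : m ≤ r) :
    cH s (preN F m) g = ∑ j ∈ univ.filter (fun j : Fin r => j.1 < m),
      cH s (fun i => F i j) (fun i => (g i, pre F j i)) := by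
  induction m with
  | zero =>
    rw [cH_eq_zero fun i _ j _ _ => (preN_eq_iff F 0 i j).2 fun _ h => absurd h (Nat.not_lt_zero _)]
    simp
  | succ m ih =>
    have e : univ.filter (fun j : Fin r => j.1 < m + 1) =
        insert ⟨m, hm⟩ (univ.filter (fun j : Fin r => j.1 < m)) := by
      ext j
      simp only [mem_filter, mem_univ, true_and, mem_insert, Fin.ext_iff]
      omega
    rw [e, sum_insert (by simp), ← ih (by omega), add_comm _ (cH s (preN F m) g)]
    have h1 : cH s (preN F (m + 1)) g = cH s (fun i => (preN F m i, F i ⟨m, hm⟩)) g := by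
      refine cH_congr (fun _ _ _ _ => Iff.rfl) fun i _ j _ _ => ?_
      simp only [Prod.mk.injEq, preN_eq_iff]
      constructor
      · intro h
        exact ⟨fun j' hj' => h j' (by omega), h _ (Nat.lt_succ_self m)⟩
      · rintro ⟨h1, h2⟩ j' hj'
        by_cases h3 : j'.1 < m
        · exact h1 j' h3
        · have : j' = ⟨m, hm⟩ := Fin.ext (by simp only; omega)
          rw [this]; exact h2
    rw [h1, cH_chain]
    congr 1
    refine cH_congr (fun i _ j _ => ?_) (fun _ _ _ _ _ => Iff.rfl)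
    simp only [Prod.mk.injEq, preN_eq_iff, pre_eq_iff]
    exact and_comm

/-- chain rule -/
theorem cH_pi_eq (s : Finset ι) {r : ℕ} (F : ι → Fin r → α) (g : ι → β) :
    cH s F g = ∑ j, cH s (fun i => F i j) (fun i => (g i, pre F j i)) := by
  have h1 := cH_preN s F g r le_rfl
  rw [filter_true_of_mem fun j _ => j.2] at h1
  rw [← h1]
  refine cH_congr (fun _ _ _ _ => Iff.rfl) fun i _ j _ _ => ?_
  rw [preN_eq_iff, funext_iff]
  exact ⟨fun h j' _ => h j', fun h j' => h j' j'.2⟩

theorem cH_pi_le {r : ℕ} (F : ι → Fin r → α) (g : ι → β) (g' : Fin r → ι → γ)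
    (h : ∀ j, ∀ i ∈ s, ∀ i' ∈ s, g i = g i' → (∀ j' < j, F i j' = F i' j') → g' j i = g' j i') :
    cH s F g ≤ ∑ j, cH s (fun i => F i j) (g' j) := by
  rw [cH_pi_eq]
  refine sum_le_sum fun j _ => cH_mono_right fun i hi i' hi' e => ?_
  simp only [Prod.mk.injEq, pre_eq_iff] at e
  exact h j i hi i' hi' e.1 e.2

/-- Shearer-type lower bound: `X` determines the coordinates in `I` -/
theorem cH_shearer {r : ℕ} (F : ι → Fin r → α) (g : ι → β) (X : ι → δ) (I : Finset (Fin r))
    (h : ∀ j ∈ I, ∀ i ∈ s, ∀ i' ∈ s, g i = g i' → X i = X i' → F i j = F i' j) :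
    ∑ j ∈ I, cH s (fun i => F i j) (fun i => (g i, pre F j i)) ≤ cH s X g := by
  set F' : ι → Fin r → Option α := fun i j => if j ∈ I then some (F i j) else none with hF'
  have h1 : cH s F' g ≤ cH s X g := cH_mono_left fun i hi i' hi' e1 e2 => funext fun j => by
    simp only [hF']
    split_ifs with hj
    · rw [h j hj i hi i' hi' e1 e2]
    · rfl
  refine le_trans ?_ h1
  rw [cH_pi_eq s F' g]
  refine le_trans (sum_le_sum fun j hj => ?_)
    (sum_le_sum_of_subset_of_nonneg (subset_univ I) fun j _ _ => cH_nonneg _ _ _)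
  refine le_trans (cH_mono_right (g' := fun i => (g i, pre F' j i)) fun i _ i' _ e => ?_)
    (cH_mono_left fun i _ i' _ _ e => ?_)
  · simp only [Prod.mk.injEq, pre_eq_iff] at e ⊢
    exact ⟨e.1, fun j' hj' => by simp only [hF', e.2 j' hj']⟩
  · simpa [hF', hj] using e

/-- subadditivity for a dependent family -/
theorem cH_dep_le {P : Type} (S : Finset P) {A : P → Type} (F : (p : P) → ι → A p) (X : ι → δ)
    (g : ι → β) (h : ∀ i ∈ s, ∀ i' ∈ s, g i = g i' → (∀ p ∈ S, F p i = F p i') → X i = X i') :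
    cH s X g ≤ ∑ p ∈ S, cH s (F p) g := by
  set Y : Finset P → ι → (p : P) → Option (A p) :=
    fun S i p => if p ∈ S then some (F p i) else none with hY
  have hYe : ∀ S i i', Y S i = Y S i' ↔ ∀ p ∈ S, F p i = F p i' := by
    intro S i i'
    rw [funext_iff]
    refine forall_congr' fun p => ?_
    by_cases hp : p ∈ S <;> simp [hY, hp]
  have h1 : ∀ S, cH s (Y S) g ≤ ∑ p ∈ S, cH s (F p) g := by
    intro S
    induction S using Finset.induction_on with
    | empty => rw [cH_eq_zero fun i _ j _ _ => (hYe ∅ i j).2 (by simp)]; simp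
    | insert p S hp ih =>
      rw [sum_insert hp]
      refine le_trans (cH_mono_left (f' := fun i => (F p i, Y S i)) fun i _ i' _ _ e => ?_)
        ((cH_pair_le _ _ _ _).trans (add_le_add le_rfl ih))
      simp only [Prod.mk.injEq, hYe] at e
      rw [hYe]
      intro q hq
      rcases mem_insert.1 hq with rfl | hq
      · exact e.1
      · exact e.2 q hq
  exact (cH_mono_left fun i hi i' hi' e1 e2 => h i hi i' hi' e1 ((hYe S i i').1 e2)).trans (h1 S)

theorem fib_bij {ι' : Type} {s' : Finset ι'} (e : ι → ι') (he : Set.BijOn e s s') (f : ι' → α)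
    (i : ι) : fib s (fun i => f (e i)) i = fib s' f (e i) := by
  refine card_bij (fun j _ => e j) (fun j hj => ?_) (fun j hj j' hj' h => ?_) (fun j hj => ?_)
  · exact mem_filter.2 ⟨he.1 (mem_filter.1 hj).1, (mem_filter.1 hj).2⟩
  · exact he.2.1 (mem_filter.1 hj).1 (mem_filter.1 hj').1 h
  · obtain ⟨l, hl, rfl⟩ := he.2.2 (mem_filter.1 hj).1
    exact ⟨l, mem_filter.2 ⟨hl, (mem_filter.1 hj).2⟩, rfl⟩

theorem cH_bij {ι' : Type} {s' : Finset ι'} (e : ι → ι') (he : Set.BijOn e s s') (f : ι' → α)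
    (g : ι' → β) : cH s (fun i => f (e i)) (fun i => g (e i)) = cH s' f g := by
  have hc : s.card = s'.card := card_nbij e he.1 he.2.1 he.2.2
  unfold cH avg
  rw [hc]
  congr 1
  refine sum_nbij e (fun i hi => he.1 hi) he.2.1 he.2.2 fun i _ => ?_
  rw [fib_bij e he g, fib_bij e he (fun j => (f j, g j))]

theorem fib_prod {t : Finset κ} {h : ι × κ → α} {h' : ι → α'} {i : ι} {o : κ} (ho : o ∈ t)
    (H : ∀ j o', h (j, o') = h (i, o) ↔ o' = o ∧ h' j = h' i) :
    fib (s ×ˢ t) h (i, o) = fib s h' i := by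
  symm
  refine card_bij (fun j _ => (j, o)) (fun j hj => ?_) (fun j _ j' _ e => (Prod.ext_iff.1 e).1)
    (fun x hx => ?_)
  · exact mem_filter.2 ⟨mem_product.2 ⟨(mem_filter.1 hj).1, ho⟩,
      (H j o).2 ⟨rfl, (mem_filter.1 hj).2⟩⟩
  · obtain ⟨j, o'⟩ := x
    obtain ⟨h1, h2⟩ := mem_filter.1 hx
    obtain ⟨rfl, h3⟩ := (H j o').1 h2
    exact ⟨j, mem_filter.2 ⟨(mem_product.1 h1).1, h3⟩, rfl⟩

/-- conditioning on the second coordinate lowers the entropy -/
theorem cH_prod_ge (s : Finset ι) (t : Finset κ) (f : ι × κ → α) (g : ι × κ → β) :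
    avg t (fun o => cH s (fun i => f (i, o)) (fun i => g (i, o))) ≤ cH (s ×ˢ t) f g := by
  refine le_trans (le_of_eq ?_)
    (cH_mono_right (g := fun x => (g x, x.2)) fun i _ j _ e => (Prod.ext_iff.1 e).1)
  unfold cH
  rw [avg_product, avg_comm]
  refine avg_congr fun i _ => avg_congr fun o ho => ?_
  rw [fib_prod (h := fun x => (g x, x.2)) (h' := fun i => g (i, o)) ho,
    fib_prod (h := fun x => (f x, g x, x.2)) (h' := fun i => (f (i, o), g (i, o))) ho]
  · intro j o'
    simp only [Prod.mk.injEq]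
    constructor
    · rintro ⟨h1, h2, rfl⟩; exact ⟨rfl, h1, h2⟩
    · rintro ⟨rfl, h1, h2⟩; exact ⟨h1, h2, rfl⟩
  · intro j o'
    simp only [Prod.mk.injEq]
    constructor
    · rintro ⟨h1, rfl⟩; exact ⟨rfl, h1⟩
    · rintro ⟨rfl, h1⟩; exact ⟨h1, rfl⟩

theorem cH_range_mul (a b : ℕ) (f : ℕ → α) (g : ℕ → β) :
    avg (range b) (fun o => cH (range a) (fun i => f (i * b + o)) (fun i => g (i * b + o))) ≤
      cH (range (a * b)) f g := by
  have he : Set.BijOn (fun x : ℕ × ℕ => x.1 * b + x.2) (range a ×ˢ range b : Finset (ℕ × ℕ))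
      (range (a * b) : Finset ℕ) := by
    refine ⟨fun x hx => ?_, fun x hx y hy e => ?_, fun n hn => ?_⟩
    · simp only [coe_product, coe_range, Set.mem_prod, Set.mem_Iio] at hx ⊢
      calc x.1 * b + x.2 < x.1 * b + b := by omega
        _ = (x.1 + 1) * b := by ring
        _ ≤ a * b := Nat.mul_le_mul_right _ hx.1
    · simp only [coe_product, coe_range, Set.mem_prod, Set.mem_Iio] at hx hy e
      have hb : 0 < b := by omega
      have e1 : (x.1 * b + x.2) / b = (y.1 * b + y.2) / b := by rw [e]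
      rw [Nat.add_comm, Nat.add_mul_div_right _ _ hb, Nat.add_comm (y.1 * b),
        Nat.add_mul_div_right _ _ hb, Nat.div_eq_of_lt hx.2, Nat.div_eq_of_lt hy.2] at e1
      have e2 : x.1 = y.1 := by omega
      rw [e2] at e
      exact Prod.ext e2 (by omega)
    · simp only [coe_range, Set.mem_Iio] at hn
      have hb : 0 < b := Nat.pos_of_ne_zero fun h => by simp [h] at hn
      refine ⟨(n / b, n % b), ?_, Nat.div_add_mod' n b⟩
      simp only [coe_product, coe_range, Set.mem_prod, Set.mem_Iio]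
      exact ⟨(Nat.div_lt_iff_lt_mul hb).2 hn, Nat.mod_lt _ hb⟩
  rw [← cH_bij _ he f g]
  exact cH_prod_ge (range a) (range b) (fun x => f (x.1 * b + x.2)) (fun x => g (x.1 * b + x.2))

theorem cH_sub_le (s : Finset ι) (f : ι → α) (g : ι → β) :
    cH s f (fun _ => ()) - cH s g (fun _ => ()) ≤ cH s f g := by
  have h1 : cH s f (fun _ => ()) ≤ cH s (fun i => (g i, f i)) (fun _ => ()) :=
    cH_mono_left fun i _ j _ _ e => (Prod.ext_iff.1 e).2
  rw [cH_chain] at h1
  have h2 : cH s f (fun i => (g i, ())) = cH s f g :=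
    cH_congr (fun i _ j _ => by simp) (fun _ _ _ _ _ => Iff.rfl)
  linarith

theorem le_cH_of_fib (hs : s.Nonempty) {f : ι → α} {B : ℝ} (h : ∀ i ∈ s, (fib s f i : ℝ) ≤ B) :
    Real.log (s.card / B) ≤ cH s f (fun _ => ()) := by
  refine le_avg_of_le hs fun i hi => ?_
  have hs' : (0 : ℝ) < s.card := by exact_mod_cast hs.card_pos
  have e1 : fib s (fun _ => ()) i = s.card := by simp [fib]
  rw [e1, fib_congr (f := fun j => (f j, ())) (f' := f) fun j _ => by simp]
  exact Real.log_le_log (div_pos hs' ((fib_pos' hi).trans_le (h i hi)))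
    (div_le_div_of_nonneg_left hs'.le (fib_pos' hi) (h i hi))

/-- an event that never happens has probability at most the mutual information after
decoupling -/
theorem hit_le_info (f : ι → α) (g : ι → β) (y : ι → γ) (E : α → γ → Prop)
    (h : ∀ i ∈ s, ¬ E (f i) (y i)) :
    avg s (fun i => avg (s.filter (fun i' => g i' = g i))
      (fun i' => if E (f i) (y i') then 1 else 0)) ≤ cH s f g - cH s f (fun i => (g i, y i)) := by
  exact hit_aux f g y E h

end Crest.Agent.R2
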