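import Crest.Agent.R2.Basic

/-! Row 2: the flattening pigeonhole. -/

set_option autoImplicit false

open Finset
open scoped Pointwise Classical

namespace Crest.Agent.R2

namespace Flatten

section Group
variable {Γ : Type} [AddCommGroup Γ] [Fintype Γ]

/-- autocorrelation -/
def cv (ν : Γ → ℝ) (d : Γ) : ℝ := ∑ x, ν (x + d) * ν x

/-- the form `⟨T_ν f, f⟩` -/
def form (ν f : Γ → ℝ) : ℝ := ∑ d, ν d * ∑ a, f a * f (a + d)

theorem sum_shift (g : Γ → ℝ) (c : Γ) : ∑ a, g (a + c) = ∑ a, g a :=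
  Equiv.sum_comp (Equiv.addRight c) g

theorem sum_shift' (g : Γ → ℝ) (c : Γ) : ∑ a, g (c + a) = ∑ a, g a :=
  Equiv.sum_comp (Equiv.addLeft c) g

theorem form_eq (ν f : Γ → ℝ) : form ν f = ∑ a, f a * ∑ d, ν d * f (a + d) := by
  unfold form
  simp only [mul_sum]
  rw [sum_comm]
  exact sum_congr rfl fun a _ => sum_congr rfl fun d _ => by ring

theorem form_cv (ν f : Γ → ℝ) : form (cv ν) f = ∑ a, (∑ d, ν d * f (a + d)) ^ 2 := by
  have e1 : form (cv ν) f = ∑ y, ∑ x, ν x * ν y * ∑ a, f (a + y) * f (a + x) := by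
    unfold form cv
    simp only [sum_mul]
    rw [sum_comm]
    refine sum_congr rfl fun y _ => ?_
    rw [← sum_shift' (fun x => ν x * ν y * ∑ a, f (a + y) * f (a + x)) y]
    refine sum_congr rfl fun d _ => ?_
    rw [← sum_shift (fun a => f a * f (a + d)) y]
    simp only [add_assoc]
  have e2 : ∑ a, (∑ d, ν d * f (a + d)) ^ 2 =
      ∑ a, ∑ y, ∑ x, ν y * f (a + y) * (ν x * f (a + x)) := by
    simp only [sq, sum_mul_sum]
  rw [e1, e2, sum_comm (f := fun a y => ∑ x, ν y * f (a + y) * (ν x * f (a + x)))]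
  refine sum_congr rfl fun y _ => ?_
  rw [sum_comm (f := fun a x => ν y * f (a + y) * (ν x * f (a + x)))]
  refine sum_congr rfl fun x _ => ?_
  rw [mul_sum]
  exact sum_congr rfl fun a _ => by ring

theorem sq_form_le (ν : Γ → ℝ) {f : Γ → ℝ} (hf : ∑ a, f a ^ 2 ≤ 1) :
    form ν f ^ 2 ≤ form (cv ν) f := by
  rw [form_cv, form_eq]
  refine (sum_mul_sq_le_sq_mul_sq _ _ _).trans ?_
  exact mul_le_of_le_one_left (sum_nonneg fun _ _ => sq_nonneg _) hf

theorem corr_le_one {f : Γ → ℝ} (hf : ∑ a, f a ^ 2 ≤ 1) (d : Γ) : ∑ a, f a * f (a + d) ≤ 1 := by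
  have h1 := sum_shift (fun a => f a ^ 2) d
  have h2 : ∑ a, f a * f (a + d) ≤ ∑ a, (f a ^ 2 + f (a + d) ^ 2) / 2 :=
    sum_le_sum fun a _ => by nlinarith [sq_nonneg (f a - f (a + d))]
  rw [← sum_div, sum_add_distrib, h1] at h2
  linarith

theorem sq_form_le_supp (ν : Γ → ℝ) {f : Γ → ℝ} (hf : ∑ a, f a ^ 2 ≤ 1) :
    form ν f ^ 2 ≤ (univ.filter fun a => f a ≠ 0).card * ∑ d, ν d ^ 2 := by
  have h0 : 0 ≤ ∑ d, ν d ^ 2 := sum_nonneg fun _ _ => sq_nonneg _
  have e : form ν f = ∑ a ∈ univ.filter fun a => f a ≠ 0, f a * ∑ d, ν d * f (a + d) := by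
    rw [form_eq, sum_filter]
    refine sum_congr rfl fun a _ => ?_
    by_cases h : f a = 0 <;> simp [h]
  rw [e]
  refine (sum_mul_sq_le_sq_mul_sq _ _ _).trans ?_
  have h1 : ∑ a ∈ univ.filter fun a => f a ≠ 0, f a ^ 2 ≤ 1 :=
    (sum_le_sum_of_subset_of_nonneg (filter_subset _ _) fun _ _ _ => sq_nonneg _).trans hf
  have h2 : ∑ a ∈ univ.filter fun a => f a ≠ 0, (∑ d, ν d * f (a + d)) ^ 2 ≤
      (univ.filter fun a => f a ≠ 0).card * ∑ d, ν d ^ 2 := by
    rw [← nsmul_eq_mul]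
    refine sum_le_card_nsmul _ _ _ fun a _ => (sum_mul_sq_le_sq_mul_sq _ _ _).trans ?_
    rw [sum_shift' (fun d => f d ^ 2) a]
    exact mul_le_of_le_one_right h0 hf
  exact (mul_le_of_le_one_left (sum_nonneg fun _ _ => sq_nonneg _) h1).trans h2

end Group

/-- the weight of the difference of two independent samples -/
noncomputable def dW (V : Finset GI) (W : GI → ℝ) (v : GI) : ℝ :=
  ∑ y ∈ V, ∑ x ∈ V, if x - y = v then W x * W y else 0

theorem sum_dW_mul (V : Finset GI) (W F : GI → ℝ) :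
    ∑ v ∈ V - V, dW V W v * F v = ∑ y ∈ V, ∑ x ∈ V, W x * W y * F (x - y) := by
  unfold dW
  simp only [sum_mul]
  rw [sum_comm]
  refine sum_congr rfl fun y hy => ?_
  rw [sum_comm]
  refine sum_congr rfl fun x hx => ?_
  simp only [ite_mul, zero_mul]
  rw [sum_ite_eq, if_pos (sub_mem_sub hx hy)]

theorem isWt_dW {V : Finset GI} {W : GI → ℝ} {s0 R2 : ℝ} (hs : 0 ≤ s0) (h : IsWt V W s0 R2) :
    IsWt (V - V) (dW V W) s0 (4 * R2) := by
  obtain ⟨h1, h2⟩ := h
  have h0 : 0 ≤ ∑ v ∈ V, W v := sum_nonneg fun v hv => (h1 v hv).1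
  refine ⟨fun v hv => ⟨?_, ?_, ?_⟩, ?_⟩
  · refine sum_nonneg fun y hy => sum_nonneg fun x hx => ?_
    split_ifs
    · exact mul_nonneg (h1 x hx).1 (h1 y hy).1
    · exact le_rfl
  · have h3 : dW V W v ≤ ∑ y ∈ V, s0 * W y := by
      refine sum_le_sum fun y hy => ?_
      simp only [sub_eq_iff_eq_add]
      rw [sum_ite_eq']
      split_ifs with hx
      · exact mul_le_mul_of_nonneg_right (h1 _ hx).2.1 (h1 y hy).1
      · exact mul_nonneg hs (h1 y hy).1
    rw [← mul_sum] at h3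
    exact h3.trans (mul_le_of_le_one_right hs h2)
  · obtain ⟨x, hx, y, hy, rfl⟩ := mem_sub.1 hv
    exact norm_sub_le_four (h1 x hx).2.2 (h1 y hy).2.2
  · have h3 := sum_dW_mul V W fun _ => 1
    simp only [mul_one, ← sum_mul, ← mul_sum] at h3
    rw [h3]
    exact mul_le_one₀ h2 h0 h2

theorem push_eq (p : SPrime) (V : Finset GI) (W : GI → ℝ) (a : ZMod p.1) :
    push p V id W a = ∑ v ∈ V, W v * if res p v = a then 1 else 0 := by
  unfold push
  rw [sum_filter]
  refine sum_congr rfl fun v _ => ?_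
  by_cases h : res p v = a <;> simp [h]

theorem push_dW (p : SPrime) (V : Finset GI) (W : GI → ℝ) :
    push p (V - V) id (dW V W) = cv (push p V id W) := by
  funext d
  rw [push_eq, sum_dW_mul]
  unfold cv
  have h := sum_push_mul p V id W fun a => push p V id W (a + d)
  rw [sum_congr rfl fun x _ => mul_comm (push p V id W (x + d)) (push p V id W x), h]
  refine sum_congr rfl fun y _ => ?_
  rw [push_eq, mul_sum]
  refine sum_congr rfl fun x _ => ?_
  simp only [map_sub, id, sub_eq_iff_eq_add']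
  ring

/-- iterated differences -/
noncomputable def it (V : Finset GI) (W : GI → ℝ) : ℕ → Finset GI × (GI → ℝ) :=
  fun n => (fun s : Finset GI × (GI → ℝ) => (s.1 - s.1, dW s.1 s.2))^[n] (V, W)

theorem it_succ (V : Finset GI) (W : GI → ℝ) (n : ℕ) :
    it V W (n + 1) = ((it V W n).1 - (it V W n).1, dW (it V W n).1 (it V W n).2) :=
  Function.iterate_succ_apply' _ _ _

theorem isWt_it {V : Finset GI} {W : GI → ℝ} {s0 R2 : ℝ} (hs : 0 ≤ s0) (h : IsWt V W s0 R2)
    (n : ℕ) : IsWt (it V W n).1 (it V W n).2 s0 (4 ^ n * R2) := by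
  induction n with
  | zero => simpa [it] using h
  | succ n ih =>
    rw [it_succ, pow_succ', mul_assoc]
    exact isWt_dW hs ih

/-- the laws of the iterated differences -/
noncomputable def nu (p : SPrime) (V : Finset GI) (W : GI → ℝ) (n : ℕ) : ZMod p.1 → ℝ :=
  push p (it V W n).1 id (it V W n).2

theorem nu_succ (p : SPrime) (V : Finset GI) (W : GI → ℝ) (n : ℕ) :
    nu p V W (n + 1) = cv (nu p V W n) := by
  unfold nu
  rw [it_succ]
  exact push_dW p _ _

theorem form_nu {p : SPrime} {V : Finset GI} {W : GI → ℝ} {q α : ℝ} {f : ZMod p.1 → ℝ}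
    (hα : 0 < α) (h : Invar p V W q α f) (n : ℕ) : α ^ 2 ^ n ≤ form (nu p V W n) f := by
  induction n with
  | zero =>
    rw [pow_zero, pow_one]
    exact h.2.2.2.trans_eq (sum_push_mul p V id W fun d => ∑ a, f a * f (a + d)).symm
  | succ n ih =>
    rw [nu_succ, pow_succ, pow_mul]
    exact (pow_le_pow_left₀ (by positivity) ih 2).trans (sq_form_le _ h.2.1)

theorem alpha_le_one {p : SPrime} {V : Finset GI} {W : GI → ℝ} {q α s0 R2 : ℝ} {f : ZMod p.1 → ℝ}
    (hW : IsWt V W s0 R2) (h : Invar p V W q α f) : α ≤ 1 := by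
  refine h.2.2.2.trans (le_trans (sum_le_sum fun v hv => ?_) hW.2)
  exact mul_le_of_le_one_right (hW.1 v hv).1 (corr_le_one h.2.1 _)

theorem lower_nu {p : SPrime} {V : Finset GI} {W : GI → ℝ} {q α s0 R2 : ℝ} {f : ZMod p.1 → ℝ}
    (hq : 0 < q) (hα : 0 < α) (hW : IsWt V W s0 R2) (h : Invar p V W q α f) {i j : ℕ}
    (hij : i ≤ j) : q * α ^ 2 ^ (j + 1) ≤ p.1 * ∑ a, nu p V W i a ^ 2 := by
  have h1 : α ^ 2 ^ (j + 1) ≤ (α ^ 2 ^ i) ^ 2 := by
    rw [← pow_mul, ← pow_succ]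
    exact pow_le_pow_of_le_one hα.le (alpha_le_one hW h)
      (Nat.pow_le_pow_right (by norm_num) (by omega))
  have h2 := (pow_le_pow_left₀ (by positivity) (form_nu hα h i) 2).trans
    (sq_form_le_supp _ h.2.1)
  have h3 : 0 ≤ ∑ a, nu p V W i a ^ 2 := sum_nonneg fun _ _ => sq_nonneg _
  calc _ ≤ q * ((univ.filter fun a => f a ≠ 0).card * ∑ a, nu p V W i a ^ 2) :=
        mul_le_mul_of_nonneg_left (h1.trans (by convert h2)) hq.le
    _ = (univ.filter fun a => f a ≠ 0).card * q * ∑ a, nu p V W i a ^ 2 := by ring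
    _ ≤ _ := mul_le_mul_of_nonneg_right (by convert h.2.2.1) h3

theorem exists_flat {r : ℕ → ℝ} {K : ℝ} (hK : 0 < K) {j : ℕ} (hj : 1 ≤ j) (h : r 0 ≤ K ^ j * r j) :
    ∃ i < j, r i ≤ K * r (i + 1) := by
  by_contra hc
  push Not at hc
  have key : ∀ n, n + 1 ≤ j → K ^ (n + 1) * r (n + 1) < r 0 := by
    intro n
    induction n with
    | zero => intro _; simpa using hc 0 (by omega)
    | succ n ih =>
      intro hn
      have h1 := mul_lt_mul_of_pos_left (hc (n + 1) (by omega)) (pow_pos hK (n + 1))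
      have h2 := ih (by omega)
      rw [pow_succ K (n + 1), mul_assoc]
      linarith
  obtain ⟨n, rfl⟩ : ∃ n, j = n + 1 := ⟨j - 1, by omega⟩
  linarith [key n le_rfl]

end Flatten

open Flatten

theorem flatten : FlattenStmt := by
  intro P j T V W f q α s0 R2 r K hP hT hne hj hq hα hR hK hs hW _ hI hr hr2
  have hP1 : (1 : ℝ) < P := by exact_mod_cast hP
  have hlP : 0 < Real.log P := Real.log_pos hP1
  have hlR : 0 < Real.log (4 * R2) := Real.log_pos (by linarith)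
  have hT0 : (0 : ℝ) < T.card := by exact_mod_cast hne.card_pos
  have hr0 : 0 < r := lt_of_lt_of_le (by positivity) hr
  -- the larger sieve
  have h1 : ∑ p ∈ T, (p.1 : ℝ) * ∑ a, nu p V W 0 a ^ 2 ≤ T.card * r := by
    have e1 := larger_sieve hP hT V id W (R := 4 * R2) (fun _ _ _ _ h => h)
      (fun v hv => (hW.1 v hv).1) (by linarith)
      fun v hv w hw => norm_sub_le_four (hW.1 v hv).2.2 (hW.1 w hw).2.2
    have e0 : 0 ≤ ∑ v ∈ V, W v := sum_nonneg fun v hv => (hW.1 v hv).1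
    have e2 : (∑ v ∈ V, W v) ^ 2 ≤ 1 := pow_le_one₀ e0 hW.2
    have e3 : ∑ v ∈ V, W v ^ 2 ≤ s0 := by
      calc _ ≤ ∑ v ∈ V, s0 * W v := sum_le_sum fun v hv => by
            rw [sq]; exact mul_le_mul_of_nonneg_right (hW.1 v hv).2.1 (hW.1 v hv).1
        _ = s0 * ∑ v ∈ V, W v := (mul_sum _ _ _).symm
        _ ≤ s0 := mul_le_of_le_one_right hs hW.2
    calc _ ≤ ∑ p ∈ T, 2 * (P : ℝ) * ∑ a, push p V id W a ^ 2 := sum_le_sum fun p hp =>
          mul_le_mul_of_nonneg_right (by exact_mod_cast (hT p hp).2)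
            (sum_nonneg fun _ _ => sq_nonneg _)
      _ = 2 * P * ∑ p ∈ T, ∑ a, push p V id W a ^ 2 := (mul_sum _ _ _).symm
      _ ≤ 2 * P * (Real.log (4 * R2) / Real.log P * 1 + T.card * s0) := by
          refine mul_le_mul_of_nonneg_left (e1.trans ?_) (by positivity)
          gcongr
      _ = T.card * (2 * P * (Real.log (4 * R2) / (T.card * Real.log P) + s0)) := by
          field_simp
      _ ≤ _ := mul_le_mul_of_nonneg_left hr hT0.le
  -- Markov
  set T0 := T.filter fun p => (p.1 : ℝ) * ∑ a, nu p V W 0 a ^ 2 ≤ 2 * r with hT0def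
  have h2 : T.card ≤ 2 * T0.card := by
    have e1 := card_filter_add_card_filter_not (s := T)
      fun p => (p.1 : ℝ) * ∑ a, nu p V W 0 a ^ 2 ≤ 2 * r
    rw [← hT0def] at e1
    set T1 := T.filter fun p => ¬ (p.1 : ℝ) * ∑ a, nu p V W 0 a ^ 2 ≤ 2 * r
    have e2 : T1.card • (2 * r) ≤ ∑ p ∈ T1, (p.1 : ℝ) * ∑ a, nu p V W 0 a ^ 2 :=
      card_nsmul_le_sum _ _ _ fun p hp => (not_le.1 (mem_filter.1 hp).2).le
    have e3 := (e2.trans (sum_le_sum_of_subset_of_nonneg (filter_subset _ _) fun p _ _ =>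
      mul_nonneg p.pos.le (sum_nonneg fun _ _ => sq_nonneg _))).trans h1
    rw [nsmul_eq_mul, ← mul_assoc] at e3
    have e4 : T1.card * 2 ≤ T.card := by exact_mod_cast le_of_mul_le_mul_right e3 hr0
    omega
  -- pigeonhole
  set Ts : ℕ → Finset SPrime := fun i => T.filter fun p =>
    ∑ a, nu p V W i a ^ 2 ≤ K * ∑ a, nu p V W (i + 1) a ^ 2 with hTs
  have h3 : T0 ⊆ (range j).biUnion Ts := by
    intro p hp
    obtain ⟨hp1, hp2⟩ := mem_filter.1 hp
    have e1 := lower_nu hq hα hW (hI p hp1) (le_refl j)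
    have e2 : ∑ a, nu p V W 0 a ^ 2 ≤ K ^ j * ∑ a, nu p V W j a ^ 2 := by
      refine le_of_mul_le_mul_left (hp2.trans (hr2.trans ?_)) p.pos
      rw [mul_left_comm (p.1 : ℝ)]
      exact mul_le_mul_of_nonneg_left e1 (pow_pos hK j).le
    obtain ⟨i, hi, h⟩ := exists_flat (r := fun i => ∑ a, nu p V W i a ^ 2) hK hj e2
    exact mem_biUnion.2 ⟨i, mem_range.2 hi, mem_filter.2 ⟨hp1, h⟩⟩
  obtain ⟨i, hi, hmax⟩ := exists_max_image (range j) (fun i => (Ts i).card)
    ⟨0, mem_range.2 (by omega)⟩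
  have h4 : T0.card ≤ j * (Ts i).card := by
    refine (card_le_card h3).trans (card_biUnion_le.trans ?_)
    simpa using sum_le_card_nsmul _ _ _ hmax
  rw [mem_range] at hi
  refine ⟨Ts i, filter_subset _ _, ?_, (it V W i).1, (it V W i).2, ?_, fun p hp => ?_⟩
  · rw [mul_assoc]
    omega
  · obtain ⟨e1, e2⟩ := isWt_it hs hW i
    refine ⟨fun v hv => ⟨(e1 v hv).1, (e1 v hv).2.1, (e1 v hv).2.2.trans ?_⟩, e2⟩
    exact mul_le_mul_of_nonneg_right (pow_le_pow_right₀ (by norm_num) hi.le) (by linarith)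
  · obtain ⟨hp1, hp2⟩ := mem_filter.1 hp
    refine ⟨lower_nu hq hα hW (hI p hp1) hi.le, ?_⟩
    rw [nu_succ] at hp2
    exact hp2

end Crest.Agent.R2
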