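import Crest.Agent.R2.Basic

/-!
# Row 2: small bias implies equidistribution against convolutions (Parseval + Cauchy-Schwarz)
-/

set_option autoImplicit false

open Finset
open scoped Pointwise Classical

namespace Crest.Agent.R2

namespace Fourier

/-- the discrete Fourier transform of a real function -/
noncomputable def ft (p : SPrime) (f : ZMod p.1 → ℝ) (ξ : ZMod p.1) : ℂ :=
  ∑ x, (f x : ℂ) * ZMod.stdAddChar (ξ * x)

theorem anchor : True := by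
  have := @ft.eq_1
  trivial

theorem conj_e (p : SPrime) (a : ZMod p.1) :
    (starRingEnd ℂ) (ZMod.stdAddChar a) = ZMod.stdAddChar (-a) :=
  (AddChar.map_neg_eq_conj _ a).symm

theorem sum_e (p : SPrime) (a : ZMod p.1) :
    ∑ ξ : ZMod p.1, ZMod.stdAddChar (ξ * a) = if a = 0 then (p.1 : ℂ) else 0 := by
  split_ifs with h
  · simp [h]
  · simpa only [mul_comm] using sum_stdAddChar_mul p h

theorem parseval (p : SPrime) (f : ZMod p.1 → ℝ) :
    ∑ ξ, ‖ft p f ξ‖ ^ 2 = p.1 * ∑ x, f x ^ 2 := by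
  have h1 : ∀ ξ, ((‖ft p f ξ‖ ^ 2 : ℝ) : ℂ) =
      ∑ x, ∑ y, (f x : ℂ) * f y * ZMod.stdAddChar (ξ * (x - y)) := fun ξ => by
    rw [← Complex.normSq_eq_norm_sq, ← Complex.mul_conj, ft, map_sum, sum_mul_sum]
    refine sum_congr rfl fun x _ => sum_congr rfl fun y _ => ?_
    rw [map_mul (starRingEnd ℂ), conj_e, Complex.conj_ofReal, mul_sub, sub_eq_add_neg, AddChar.map_add_eq_mul]
    ring
  have h2 : ((∑ ξ, ‖ft p f ξ‖ ^ 2 : ℝ) : ℂ) = ((p.1 * ∑ x, f x ^ 2 : ℝ) : ℂ) := by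
    rw [Complex.ofReal_sum, sum_congr rfl fun ξ _ => h1 ξ, sum_comm]
    push_cast
    rw [mul_sum]
    refine sum_congr rfl fun x _ => ?_
    rw [sum_comm]
    simp only [← mul_sum, sum_e, sub_eq_zero, mul_ite, mul_zero, sum_ite_eq, mem_univ, if_true]
    ring
  exact_mod_cast h2

theorem ft_shift (p : SPrime) (G : ZMod p.1 → ℝ) (y ξ : ZMod p.1) :
    ft p (fun c => G (y + c)) ξ = ZMod.stdAddChar (-ξ * y) * ft p G ξ := by
  rw [ft, ft, mul_sum, ← Equiv.sum_comp (Equiv.addLeft y) fun x =>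
    ZMod.stdAddChar (-ξ * y) * ((G x : ℂ) * ZMod.stdAddChar (ξ * x))]
  refine sum_congr rfl fun c _ => ?_
  rw [Equiv.coe_addLeft, mul_left_comm, ← AddChar.map_add_eq_mul]
  congr 2
  ring

/-- the operator norm of averaging over translates on mean zero functions -/
theorem sum_sq_le (p : SPrime) {s : Finset ℕ} (hs : s.Nonempty) (z : ℕ → GI) (G : ZMod p.1 → ℝ)
    {β : ℝ} (hβ : ∀ ξ ≠ 0, ‖∑ n ∈ s, chi p ξ (z n)‖ / s.card ≤ β) :
    ∑ c, (avg s (fun n => G (res p (z n) + c)) - mean p G) ^ 2 ≤ β ^ 2 * ∑ x, G x ^ 2 := by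
  have hp := p.pos
  have hs' : (0 : ℝ) < s.card := by exact_mod_cast hs.card_pos
  refine le_of_mul_le_mul_left ?_ hp
  rw [← parseval, mul_left_comm, ← parseval, mul_sum]
  refine sum_le_sum fun ξ _ => ?_
  have e : ft p (fun c => avg s (fun n => G (res p (z n) + c)) - mean p G) ξ =
      (∑ n ∈ s, chi p (-ξ) (z n)) / s.card * ft p G ξ -
        mean p G * ∑ c : ZMod p.1, ZMod.stdAddChar (ξ * c) := by
    rw [div_mul_eq_mul_div, sum_mul]
    simp only [chi, ← ft_shift]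
    simp only [ft, avg]
    rw [sum_comm, sum_div, mul_sum, ← sum_sub_distrib]
    refine sum_congr rfl fun c _ => ?_
    push_cast
    rw [← sum_mul]
    ring
  rw [e]
  by_cases hξ : ξ = 0
  · have hp' : (p.1 : ℂ) ≠ 0 := by exact_mod_cast hp.ne'
    have hs'' : (s.card : ℂ) ≠ 0 := by exact_mod_cast hs'.ne'
    have : (∑ n ∈ s, chi p (-ξ) (z n)) / s.card * ft p G ξ -
        mean p G * ∑ c : ZMod p.1, ZMod.stdAddChar (ξ * c) = 0 := by
      simp [hξ, chi, ft, mean, hp', hs'']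
    rw [this, norm_zero]
    simp only [ne_eq, OfNat.ofNat_ne_zero, not_false_eq_true, zero_pow]
    positivity
  · rw [sum_stdAddChar_mul p hξ, mul_zero, sub_zero, norm_mul, norm_div, Complex.norm_natCast,
      mul_pow]
    gcongr
    exact hβ _ (neg_ne_zero.2 hξ)

theorem prime_bound (p : SPrime) {s : Finset ℕ} (hs : s.Nonempty) (z : ℕ → GI)
    {G μ : ZMod p.1 → ℝ} {β q1 q2 : ℝ} (hβ0 : 0 ≤ β) (hq1 : 0 ≤ q1) (hq2 : 0 ≤ q2)
    (hβ : ∀ ξ ≠ 0, ‖∑ n ∈ s, chi p ξ (z n)‖ / s.card ≤ β)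
    (hG : ∀ a, 0 ≤ G a ∧ G a ≤ q1) (hG1 : mean p G ≤ 1)
    (hμ : ∀ a, 0 ≤ μ a ∧ μ a ≤ q2 / p.1) (hμ1 : ∑ a, μ a ≤ 1) :
    mean p G * ∑ a, μ a - β * √(q1 * q2) ≤ avg s (fun n => ∑ c, μ c * G (res p (z n) + c)) := by
  have hp := p.pos
  have h1 : ∑ x, G x ^ 2 ≤ q1 * p.1 := by
    rw [mean, div_le_one hp] at hG1
    calc ∑ x, G x ^ 2 ≤ ∑ x, q1 * G x := sum_le_sum fun x _ => by nlinarith [hG x]
      _ ≤ q1 * p.1 := by rw [← mul_sum]; gcongr
  have h2 : ∑ x, μ x ^ 2 ≤ q2 / p.1 := by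
    calc ∑ x, μ x ^ 2 ≤ ∑ x, q2 / p.1 * μ x := sum_le_sum fun x _ => by nlinarith [hμ x]
      _ ≤ q2 / p.1 * 1 := by rw [← mul_sum]; gcongr
      _ = q2 / p.1 := mul_one _
  have h3 := sum_mul_sq_le_sq_mul_sq univ μ
    fun c => avg s (fun n => G (res p (z n) + c)) - mean p G
  have h4 := (sum_sq_le p hs z G hβ).trans (mul_le_mul_of_nonneg_left h1 (sq_nonneg β))
  have h5 := h3.trans (mul_le_mul h2 h4 (sum_nonneg fun _ _ => sq_nonneg _) (by positivity))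
  have h6 : q2 / p.1 * (β ^ 2 * (q1 * p.1)) = (β * √(q1 * q2)) ^ 2 := by
    rw [mul_pow, Real.sq_sqrt (by positivity)]
    field_simp
  rw [h6] at h5
  have h7 := (abs_le.1 (abs_le_of_sq_le_sq h5 (by positivity))).1
  rw [avg_sum]
  simp only [avg_mul_left]
  simp only [mul_sub, sum_sub_distrib, ← sum_mul] at h7
  linarith

end Fourier

theorem fourier : FourierStmt := by
  intro D S k q1 q2 β hq1 hq2 hB z hz G hG μ hμ
  have hex : ∀ p : SPrime, ∃ ξ : ZMod p.1, ξ ≠ 0 ∧ ∀ ξ' ≠ 0,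
      ‖∑ n ∈ range (2 ^ k), chi p ξ' (z n)‖ ≤ ‖∑ n ∈ range (2 ^ k), chi p ξ (z n)‖ := fun p => by
    obtain ⟨ξ, h1, h2⟩ := exists_max_image (univ.filter fun ξ : ZMod p.1 => ξ ≠ 0)
      (fun ξ => ‖∑ n ∈ range (2 ^ k), chi p ξ (z n)‖) ⟨1, by simp⟩
    exact ⟨ξ, (mem_filter.1 h1).2, fun ξ' h => h2 ξ' (by simpa using h)⟩
  choose ξ hξ0 hξ using hex
  have h1 := mul_le_mul_of_nonneg_right (hB z hz ξ fun p _ => hξ0 p) (Real.sqrt_nonneg (q1 * q2))
  rw [← avg_mul_right] at h1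
  refine (sub_le_sub_left h1 _).trans ?_
  rw [← avg_sub]
  refine avg_le_avg fun p hp => Fourier.prime_bound p (by simp) z (by positivity) hq1 hq2
    (fun ξ' h => ?_) (hG p hp).1 (hG p hp).2 (hμ p hp).1 (hμ p hp).2
  rw [card_range]
  push_cast
  gcongr
  exact hξ p ξ' h

end Crest.Agent.R2
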