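import Crest.Agent.R2.Basic

/-! Row 2: the asymptotic assembly of the growth lemma. -/

set_option autoImplicit false

open Finset
open scoped Pointwise Classical

namespace Crest.Agent.R2

namespace Growth

open Real

theorem two_le_exp : (2 : ℝ) ≤ exp 1 := by
  have := add_one_le_exp (1 : ℝ); linarith

theorem exp10 : (1024 : ℝ) ≤ exp 10 := by
  calc (1024 : ℝ) = 2 ^ 10 := by norm_num
    _ ≤ exp 1 ^ 10 := by gcongr; exact two_le_exp
    _ = exp 10 := by rw [← exp_nat_mul]; norm_num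

theorem le_exp_of {E : ℝ} (hE : 10 ≤ E) : (1024 : ℝ) ≤ exp E :=
  exp10.trans (exp_le_exp.2 hE)

/-- the counting hypothesis of `CountStmt`. -/
theorem count_hyp (R t : ℕ) (L u w σ η y ρ E z : ℝ) (hu : 0 < u)
    (hw : exp (-((R + 2) * E)) ≤ w) (ht : (t : ℝ) ≤ exp y) (htu : (t : ℝ) ≤ u * exp (-(σ * y)))
    (hP : exp L ≤ u * exp E) (hE : 10 ≤ E) (hz : L + (1 - σ) * y + (2 * R + 6) * E ≤ z)
    (hfin : L - (R + 1) * ((1 - η) * ρ) + R * (10 + t * z) ≤ -((R + 2) * E)) :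
    exp L * exp (-(1 - η) * ρ) ^ (R + 1) * (1024 * ((2 * exp L) ^ t) ^ 2 *
      (24 * t * max (u * exp (-(σ * y))) t) ^ t / (w * u / 2) ^ (2 * t)) ^ R ≤ w := by
  have hw0 : 0 < w := lt_of_lt_of_le (exp_pos _) hw
  rw [max_eq_left htu]
  have hZ : (2 * exp L) ^ 2 * (24 * t * (u * exp (-(σ * y)))) / (w * u / 2) ^ 2 ≤ exp z := by
    rw [div_le_iff₀ (by positivity)]
    have h1 : exp (-((R + 2) * E)) ^ 2 ≤ w ^ 2 := by gcongr
    have h2 : exp L * exp E * exp y * exp (-(σ * y)) * exp E ≤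
        exp z * exp (-((R + 2) * E)) ^ 2 := by
      rw [← exp_nat_mul]
      simp only [← exp_add]
      apply exp_le_exp.2
      push_cast
      linarith
    have h3 := le_exp_of hE
    calc (2 * exp L) ^ 2 * (24 * t * (u * exp (-(σ * y))))
        = 96 * u * exp L * exp (-(σ * y)) * (exp L * t) := by ring
      _ ≤ 96 * u * exp L * exp (-(σ * y)) * (u * exp E * exp y) := by gcongr
      _ = u ^ 2 / 4 * (exp L * exp E * exp y * exp (-(σ * y)) * 384) := by ring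
      _ ≤ u ^ 2 / 4 * (exp L * exp E * exp y * exp (-(σ * y)) * exp E) := by
          gcongr; linarith
      _ ≤ u ^ 2 / 4 * (exp z * w ^ 2) :=
          mul_le_mul_of_nonneg_left (h2.trans (by gcongr)) (by positivity)
      _ = _ := by ring
  have hI : 1024 * ((2 * exp L) ^ t) ^ 2 * (24 * t * (u * exp (-(σ * y)))) ^ t /
      (w * u / 2) ^ (2 * t) ≤ exp (10 + t * z) := by
    have : 1024 * ((2 * exp L) ^ t) ^ 2 * (24 * t * (u * exp (-(σ * y)))) ^ t /
        (w * u / 2) ^ (2 * t) = 1024 * ((2 * exp L) ^ 2 * (24 * t * (u * exp (-(σ * y)))) /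
          (w * u / 2) ^ 2) ^ t := by
      generalize 2 * exp L = A
      generalize 24 * (t : ℝ) * (u * exp (-(σ * y))) = B
      generalize w * u / 2 = C
      rw [div_pow, mul_pow, ← pow_mul, ← pow_mul, ← pow_mul, mul_comm t 2]
      ring
    rw [this, exp_add, exp_nat_mul]
    gcongr
    exact exp10
  calc _ ≤ exp L * exp (-(1 - η) * ρ) ^ (R + 1) * exp (10 + t * z) ^ R := by gcongr
    _ = exp (L - (R + 1) * ((1 - η) * ρ) + R * (10 + t * z)) := by
        rw [← exp_nat_mul, ← exp_nat_mul, ← exp_add, ← exp_add]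
        congr 1
        push_cast
        ring
    _ ≤ exp (-((R + 2) * E)) := exp_le_exp.2 hfin
    _ ≤ w := hw

/-- the conclusion of `CountStmt` in logarithmic form. -/
theorem count_concl (R : ℕ) (L u w y E Φ X : ℝ) (hu : 0 < u) (hw : exp (-((R + 2) * E)) ≤ w)
    (hP : exp L ≤ u * exp E) (hE : 10 ≤ E) (hL : 1 ≤ L) (hy : 0 ≤ y) (hΦ : 0 ≤ Φ)
    (hX0 : 0 ≤ X) (hX : X ≤ 3 * exp y)
    (h : w ^ 2 * u ≤ 2 * exp L * Φ * (X / L + u / exp L)) :
    exp (-((2 * R + 6) * E) - y) ≤ Φ := by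
  have h1 : X / L ≤ 3 * exp y := (div_le_self hX0 hL).trans hX
  have h2 : exp (-((R + 2) * E)) ^ 2 ≤ w ^ 2 := by gcongr
  have h3 := le_exp_of hE
  have h4 : 1 ≤ exp E * exp y := one_le_mul_of_one_le_of_one_le (by linarith) (one_le_exp hy)
  have h5 : 2 * exp L * Φ * (X / L + u / exp L) ≤ u * (Φ * (exp E * exp E * exp y)) := by
    calc 2 * exp L * Φ * (X / L + u / exp L) = 2 * Φ * (exp L * (X / L) + u) := by
          field_simp
      _ ≤ 2 * Φ * (u * exp E * (3 * exp y) + u * (exp E * exp y)) := by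
          gcongr
          exact le_mul_of_one_le_right hu.le h4
      _ = u * (Φ * (8 * exp E * exp y)) := by ring
      _ ≤ _ := by gcongr; linarith
  have h6 : exp (-((R + 2) * E)) ^ 2 ≤ Φ * (exp E * exp E * exp y) := by
    have : u * exp (-((R + 2) * E)) ^ 2 ≤ u * (Φ * (exp E * exp E * exp y)) := by
      calc _ ≤ u * w ^ 2 := by gcongr
        _ ≤ _ := by rw [mul_comm]; exact h.trans h5
    exact le_of_mul_le_mul_left this hu
  have h7 : exp (-((2 * R + 6) * E) - y) * (exp E * exp E * exp y) =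
      exp (-((R + 2) * E)) ^ 2 := by
    rw [← exp_nat_mul]
    simp only [← exp_add]
    congr 1
    push_cast
    ring
  rw [← h7] at h6
  exact le_of_mul_le_mul_right h6 (by positivity)

theorem invar_mono {p : SPrime} {V : Finset GI} {W : GI → ℝ} {q q' α α' : ℝ} {f : ZMod p.1 → ℝ}
    (h : Invar p V W q α f) (hq : q' ≤ q) (hα : α' ≤ α) : Invar p V W q' α' f :=
  ⟨h.1, h.2.1, le_trans (by gcongr) h.2.2.1, hα.trans h.2.2.2⟩

/-- The numerical consequences of the hypotheses that are used in the assembly. -/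
structure Num (R j : ℕ) (σ η b g y ρ E L : ℝ) : Prop where
  hj : 1 ≤ j
  L6 : 6 ≤ L
  E10 : 10 ≤ E
  y0 : 0 ≤ y
  g0 : 0 ≤ g
  ρL : 6 * L ≤ ρ
  ρj : 2 * (j + 2) ≤ ρ
  ρy : ρ ≤ exp y
  s0 : L + -(1 - η) * ρ ≤ 0
  e1 : 100 + 200 * y / j ≤ E
  e2 : 2 ^ (j + 1) * g ≤ E
  e3 : 48 * j * L * (10 * L) ^ R * exp g ≤ exp E
  f2 : E + (y + g) ≤ 2 * y + (b * y + -(2 ^ (j + 1) * g))
  σy : 10 ≤ σ * y
  m1 : E + (2 * E - b * y) ≤ -(σ * y)
  c1 : -(σ * y) + E ≤ -((R + 2) * E)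
  c2 : y + E ≤ L + -(σ * y)
  c3 : ∃ z, L + (1 - σ) * y + (2 * R + 6) * E ≤ z ∧ ∀ t : ℝ, t * L ≤ ρ + (j + 2) * L →
    L - (R + 1) * ((1 - η) * ρ) + R * (10 + t * z) ≤ -((R + 2) * E)
  d1 : 60 * (R + 1) ^ 2 * E + (2 * E - b * y) + R * (2 * E - b * y - -(σ * y)) <
    -((2 * R + 6) * E) - y
  d2 : 4 * E - (σ * y + L) / 2 < -((2 * R + 6) * E) - y

theorem num (R j : ℕ) (a σ η b δ g y ρ E L : ℝ) (hR : 1 ≤ R) (hj : 1 ≤ j) (ha : 0 < a) (hσ : 0 < σ)
    (hσ1 : σ < 1) (hη : 0 < η) (hδ : 0 < δ)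
    (s1 : R * (a * (1 - σ + δ)) + (R + 1) * η + δ ≤ 1) (s2 : a * (2 - σ + 2 * δ) < 1)
    (s3 : a * (1 + σ + δ) ≤ 1) (s4 : 1 + R * σ + δ ≤ (R + 1) * b) (s5 : δ ≤ σ) (s6 : σ + δ ≤ b)
    (hL : 2 * (j + 2) ≤ L)
    (hL' : 2 + 10 * R + 2 * R * (j + 2) ≤ δ * L) (hy : y ≤ a * L)
    (hρ : L ^ 2 ≤ ρ) (hρ' : ρ ≤ exp y) (hg : 0 ≤ g)
    (e1 : 100 + 200 * y / j ≤ E) (e2 : 2 ^ (j + 1) * g ≤ E)
    (e3 : 48 * j * L * (10 * L) ^ R * exp g ≤ exp E) (e4 : 100 * (R + 1) ^ 2 * E ≤ δ * y)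
    (hy0 : 0 ≤ y) : Num R j σ η b g y ρ E L := by
  have hR' : (1 : ℝ) ≤ R := by exact_mod_cast hR
  have hj' : (1 : ℝ) ≤ j := by exact_mod_cast hj
  have hL6 : 6 ≤ L := by linarith
  have hE : 10 ≤ E := by
    have : 0 ≤ 200 * y / j := by positivity
    linarith
  have hE0 : 0 ≤ E := by linarith
  have ha1 : a ≤ 1 := by
    have : 0 ≤ a * (σ + δ) := by positivity
    linarith
  have hyL : y ≤ L := hy.trans (mul_le_of_le_one_left (by linarith) ha1)
  have hδy : δ * y ≤ y := mul_le_of_le_one_left hy0 (by linarith)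
  have hδσ : δ * y ≤ σ * y := by gcongr
  have hRE : 0 ≤ (R : ℝ) * E := by positivity
  have hRRE : 0 ≤ (R : ℝ) ^ 2 * E := by positivity
  have e4' : 100 * ((R : ℝ) ^ 2 * E) + 200 * (R * E) + 100 * E ≤ δ * y := by linarith
  have hρL : 6 * L ≤ ρ := by
    have : 6 * L ≤ L * L := by gcongr
    linarith
  have ha'' : 0 ≤ a * (1 - σ + δ) := mul_nonneg ha.le (by linarith)
  have ha' : a * (1 - σ + δ) ≤ 1 := by
    have : 0 ≤ a * σ := by positivity
    linarith
  have hη2 : η ≤ 1 / 2 := by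
    have h1 : 0 ≤ (R : ℝ) * (a * (1 - σ + δ)) := by positivity
    have h2 : η ≤ R * η := le_mul_of_one_le_left hη.le hR'
    linarith
  have hgE : g ≤ E := by
    have : (1 : ℝ) ≤ 2 ^ (j + 1) := one_le_pow₀ (by norm_num)
    exact (le_mul_of_one_le_left hg this).trans e2
  have hby : (σ + δ) * y ≤ b * y := by gcongr
  have hσy0 : 0 ≤ σ * y := by positivity
  refine ⟨hj, hL6, hE, hy0, hg, hρL, by linarith, hρ', ?_, e1, e2, e3, ?_, ?_, ?_, ?_, ?_, ?_, ?_, ?_⟩
  · have : η * ρ ≤ 1 / 2 * ρ := by gcongr; linarith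
    linarith
  · have : 0 ≤ δ * y := by positivity
    linarith
  · linarith
  · linarith
  · linarith
  · have h1 : (1 + σ + δ) * y ≤ (1 + σ + δ) * (a * L) := by gcongr
    have h2 : a * (1 + σ + δ) * L ≤ 1 * L := by gcongr
    linarith
  · refine ⟨L * (1 + a * (1 - σ + δ)), ?_, fun t htL => ?_⟩
    · have : (1 - σ + δ) * y ≤ (1 - σ + δ) * (a * L) :=
        mul_le_mul_of_nonneg_left hy (by linarith)
      linarith
    · have h5 : t * (L * (1 + a * (1 - σ + δ))) ≤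
          ρ * (1 + a * (1 - σ + δ)) + (j + 2) * L * 2 := by
        calc t * (L * (1 + a * (1 - σ + δ))) = t * L * (1 + a * (1 - σ + δ)) := by ring
          _ ≤ (ρ + (j + 2) * L) * (1 + a * (1 - σ + δ)) := by gcongr
          _ = ρ * (1 + a * (1 - σ + δ)) + (j + 2) * L * (1 + a * (1 - σ + δ)) := by ring
          _ ≤ _ := by gcongr; linarith
      have h6 : R * (t * (L * (1 + a * (1 - σ + δ)))) ≤
          R * (ρ * (1 + a * (1 - σ + δ)) + (j + 2) * L * 2) := by gcongr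
      have h7 : (R * (a * (1 - σ + δ)) + (R + 1) * η + δ) * ρ ≤ 1 * ρ :=
        mul_le_mul_of_nonneg_right s1 (by linarith)
      have h8 : (2 + 10 * R + 2 * R * (j + 2)) * L ≤ δ * ρ := by
        calc _ ≤ δ * L * L := by gcongr
          _ = δ * L ^ 2 := by ring
          _ ≤ _ := by gcongr
      have h9 : 10 * (R : ℝ) ≤ 10 * R * L := le_mul_of_one_le_right (by positivity) (by linarith)
      linarith
  · have : (1 + R * σ + δ) * y ≤ (R + 1) * b * y := by gcongr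
    linarith
  · have h9 : (2 - σ + 2 * δ) * y ≤ (2 - σ + 2 * δ) * (a * L) :=
      mul_le_mul_of_nonneg_left hy (by linarith)
    have h10 : a * (2 - σ + 2 * δ) * L < 1 * L := by gcongr
    linarith

theorem log_four_le : log 4 ≤ 2 := by
  rw [show (4 : ℝ) = 2 ^ 2 by norm_num, log_pow]
  have := log_two_lt_d9
  push_cast; linarith

theorem flat_hyp1 {L g y ρ η n : ℝ} (hL : 6 ≤ L) (hn : 0 < n) (hg : 0 ≤ g) (hy : 0 ≤ y)
    (hρL : 6 * L ≤ ρ) (hρ : ρ ≤ exp y) (s0 : L + -(1 - η) * ρ ≤ 0)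
    (hPT : exp L ≤ 24 * L * exp g * n) :
    2 * exp L * (log (4 * exp (2 * ρ)) / (n * L) + exp (-(1 - η) * ρ)) ≤ 150 * exp (y + g) := by
  have h5 : log (4 * exp (2 * ρ)) ≤ 3 * exp y := by
    rw [log_mul (by norm_num) (exp_pos _).ne', log_exp]
    linarith [log_four_le]
  have h6 : exp L * exp (-(1 - η) * ρ) ≤ 1 := by
    rw [← exp_add, exp_le_one_iff]
    exact s0
  have hL0 : 0 < L := by linarith
  have h7 : exp L * (log (4 * exp (2 * ρ)) / (n * L)) ≤ 72 * exp (y + g) := by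
    rw [← mul_div_assoc, div_le_iff₀ (by positivity)]
    calc exp L * log (4 * exp (2 * ρ)) ≤ exp L * (3 * exp y) := by gcongr
      _ ≤ (24 * L * exp g * n) * (3 * exp y) := by gcongr
      _ = _ := by rw [exp_add]; ring
  have h8 : 1 ≤ exp (y + g) := one_le_exp (by linarith)
  linarith

/-- the output of the Balog-Szemerédi-Gowers step with rounded constants. -/
theorem bsg (h2 : BSGWStmt) (p : SPrime) (ν : ZMod p.1 → ℝ) (K1 E B : ℝ) (hK1 : 1 ≤ K1)
    (hK : (2 * K1) ^ 100 ≤ exp E) (hν : ∀ x, 0 ≤ ν x) (hs : ∑ x, ν x ≤ 1)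
    (hf1 : exp (B - E) ≤ p.1 * ∑ x, ν x ^ 2)
    (hf2 : ∑ x, ν x ^ 2 ≤ K1 * ∑ d, (∑ x, ν (x + d) * ν x) ^ 2) :
    ∃ A : Finset (ZMod p.1), A.Nonempty ∧ exp (-E) ≤ ∑ x ∈ A, ν x ∧
      ((A - A).card : ℝ) ≤ exp E * A.card ∧ (A.card : ℝ) ≤ p.1 * exp (2 * E - B) := by
  have hpos : 0 < ∑ x, ν x ^ 2 := by
    have : 0 < (p.1 : ℝ) * ∑ x, ν x ^ 2 := lt_of_lt_of_le (exp_pos _) hf1
    exact (mul_pos_iff_of_pos_left p.pos).1 this
  obtain ⟨A, hA1, hA2, hA3, hA4⟩ := h2 ν K1 hK1 hν hs hpos hf2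
  refine ⟨A, hA1, ?_, ?_, ?_⟩
  · have h5 : 1 ≤ exp E * ∑ x ∈ A, ν x :=
      hA2.trans (mul_le_mul_of_nonneg_right hK (sum_nonneg fun x _ => hν x))
    calc exp (-E) = exp (-E) * 1 := (mul_one _).symm
      _ ≤ exp (-E) * (exp E * ∑ x ∈ A, ν x) := by gcongr
      _ = _ := by rw [← mul_assoc, ← exp_add]; simp
  · convert hA3.trans (mul_le_mul_of_nonneg_right hK (Nat.cast_nonneg _))
  · have h6 : (A.card : ℝ) * exp (B - E) ≤ p.1 * exp E := by
      calc (A.card : ℝ) * exp (B - E) ≤ A.card * (p.1 * ∑ x, ν x ^ 2) :=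
            mul_le_mul_of_nonneg_left hf1 (Nat.cast_nonneg _)
        _ = p.1 * (A.card * ∑ x, ν x ^ 2) := by ring
        _ ≤ _ := mul_le_mul_of_nonneg_left (hA4.trans hK) (Nat.cast_nonneg _)
    have h7 : exp E = exp (2 * E - B) * exp (B - E) := by
      rw [← exp_add]; congr 1; ring
    rw [h7, ← mul_assoc] at h6
    exact le_of_mul_le_mul_right h6 (exp_pos _)

theorem phi_contra {R j : ℕ} {σ η b g y ρ E L : ℝ} (N : Num R j σ η b g y ρ E L)
    (hlow : exp (-((2 * R + 6) * E) - y) ≤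
      max (exp E ^ (60 * (R + 1) ^ 2) * exp (2 * E - b * y) *
        (exp (2 * E - b * y) / exp (-(σ * y))) ^ R) (4 * exp E ^ 3 * √(exp (-(σ * y)) / exp L))) :
    False := by
  rcases le_max_iff.1 hlow with h5 | h5
  · rw [← exp_sub, ← exp_nat_mul, ← exp_nat_mul, ← exp_add, ← exp_add, exp_le_exp] at h5
    push_cast at h5
    linarith [N.d1]
  · have h6 : √(exp (-(σ * y)) / exp L) = exp (-(σ * y + L) / 2) := by
      rw [← exp_sub, ← exp_half]; congr 1; ring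
    have h7 : 4 * exp E ^ 3 * √(exp (-(σ * y)) / exp L) ≤ exp (4 * E - (σ * y + L) / 2) := by
      rw [h6]
      calc 4 * exp E ^ 3 * exp (-(σ * y + L) / 2) ≤ exp E * exp E ^ 3 * exp (-(σ * y + L) / 2) := by
            gcongr; linarith [le_exp_of N.E10]
        _ = _ := by rw [← exp_nat_mul, ← exp_add, ← exp_add]; congr 1; push_cast; ring
    have h8 := exp_le_exp.1 (h5.trans h7)
    linarith [N.d2]

theorem t_facts {R j : ℕ} {σ η b g y ρ E L : ℝ} (N : Num R j σ η b g y ρ E L) :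
    ∃ t : ℕ, 1 ≤ t ∧ t * L ≤ ρ + (j + 2) * L ∧ (t : ℝ) ≤ exp y ∧
      (1 + exp L) * (2 ^ j * exp ρ) ≤ (2 * exp L) ^ t := by
  have hL0 : 0 < L := by linarith [N.L6]
  have hρ0 : 0 ≤ ρ := by linarith [N.ρL]
  have ht1 : ((⌈ρ / L⌉₊ + j + 1 : ℕ) : ℝ) ≤ ρ / L + (j + 2) := by
    have := (Nat.ceil_lt_add_one (show 0 ≤ ρ / L by positivity)).le
    push_cast; linarith
  refine ⟨⌈ρ / L⌉₊ + j + 1, by omega, ?_, ?_, ?_⟩
  · calc _ ≤ (ρ / L + (j + 2)) * L := by gcongr
      _ = _ := by field_simp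
  · have : ρ / L ≤ ρ / 2 := div_le_div_of_nonneg_left hρ0 (by norm_num) (by linarith [N.L6])
    linarith [N.ρj, N.ρy]
  · have hP : 1 ≤ exp L := one_le_exp hL0.le
    have h5 : exp ρ ≤ (2 * exp L) ^ ⌈ρ / L⌉₊ := by
      calc exp ρ = exp (ρ / L * L) := by congr 1; field_simp
        _ ≤ exp (⌈ρ / L⌉₊ * L) := by gcongr; exact Nat.le_ceil _
        _ = exp L ^ ⌈ρ / L⌉₊ := by rw [exp_nat_mul]
        _ ≤ _ := by gcongr; linarith
    have h6 : (2 : ℝ) ^ j ≤ (2 * exp L) ^ j := by gcongr; linarith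
    rw [pow_succ, pow_add]
    calc (1 + exp L) * (2 ^ j * exp ρ) = exp ρ * 2 ^ j * (1 + exp L) := by ring
      _ ≤ _ := by gcongr; linarith

theorem log_R {j : ℕ} {ρ y : ℝ} (h1 : 2 * (j + 2) ≤ ρ) (h2 : ρ ≤ exp y) :
    0 ≤ log (4 * (2 ^ j * exp ρ) ^ 2) ∧ log (4 * (2 ^ j * exp ρ) ^ 2) ≤ 3 * exp y := by
  have hj : (0 : ℝ) ≤ j := Nat.cast_nonneg _
  constructor
  · apply log_nonneg
    have : (1 : ℝ) ≤ 2 ^ j * exp ρ :=
      one_le_mul_of_one_le_of_one_le (one_le_pow₀ (by norm_num)) (one_le_exp (by linarith))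
    nlinarith
  · rw [log_mul (by norm_num) (by positivity), log_pow, log_mul (by positivity) (by positivity),
      log_pow, log_exp]
    have := log_two_lt_d9
    have h5 : (j : ℝ) * log 2 ≤ j := mul_le_of_le_one_right hj (by linarith)
    have := log_four_le
    push_cast
    linarith

/-- the growth lemma with explicit error term `E`. -/
theorem core (h1 : FlattenStmt) (h2 : BSGWStmt) (h3 : MultStmt) (h4 : CountStmt)
    {R j : ℕ} {σ η b g y ρ E L : ℝ} (N : Num R j σ η b g y ρ E L)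
    (P : ℕ) (S : Finset SPrime) (hS : Good P S) (hL : log P = L) :
    NoGrowth S (exp (b * y)) (exp (-g)) (exp (-(1 - η) * ρ)) (exp (2 * ρ)) := by
  intro V W T f hW hsym hTS hT hinv
  have hj' : (1 : ℝ) ≤ j := by exact_mod_cast N.hj
  have hL6 := N.L6
  have hL0 : 0 < L := by linarith
  have hP0 : (0 : ℝ) < P := by
    rcases Nat.eq_zero_or_pos P with h | h
    · rw [h] at hL; simp at hL; linarith
    · exact_mod_cast h
  have hPL : (P : ℝ) = exp L := by rw [← hL, exp_log hP0]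
  have hP2 : 2 ≤ P := by
    have : (2 : ℝ) ≤ P := by rw [hPL]; have := add_one_le_exp L; linarith
    exact_mod_cast this
  have hE := N.E10
  have hE0 : 0 ≤ E := by linarith
  have hy0 := N.y0
  have hρ0 : 0 ≤ ρ := by linarith [N.ρL]
  have hTin : InScale P T := hS.1.mono hTS
  have hPT : exp L ≤ 24 * L * exp g * T.card := by
    have h5 : (S.card : ℝ) ≤ exp g * T.card := by
      calc (S.card : ℝ) = exp g * (exp (-g) * S.card) := by
            rw [← mul_assoc, ← exp_add, add_neg_cancel, exp_zero, one_mul]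
        _ ≤ _ := mul_le_mul_of_nonneg_left hT (exp_pos _).le
    calc exp L ≤ 24 * L * S.card := by rw [← hPL, ← hL]; exact hS.2
      _ ≤ 24 * L * (exp g * T.card) := mul_le_mul_of_nonneg_left h5 (by linarith)
      _ = _ := by ring
  have hT0 : (0 : ℝ) < T.card := by
    by_contra hc
    have : (T.card : ℝ) = 0 := le_antisymm (not_lt.1 hc) (Nat.cast_nonneg _)
    rw [this, mul_zero] at hPT
    exact absurd hPT (not_le.2 (exp_pos _))
  have hTne : T.Nonempty := card_pos.1 (by exact_mod_cast hT0)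
  have hα : exp (-g) ^ 2 ^ (j + 1) = exp (-(2 ^ (j + 1) * g)) := by
    rw [← exp_nat_mul]; congr 1; push_cast; ring
  -- flattening
  obtain ⟨T1, hT1, hc1, V', W', hW', hfl⟩ := h1 P j T V W f (exp (b * y)) (exp (-g))
    (exp (-(1 - η) * ρ)) (exp (2 * ρ)) (150 * exp (y + g)) (exp (2 * y / j)) hP2 hTin hTne N.hj
    (exp_pos _) (exp_pos _) (one_le_exp (by linarith)) (exp_pos _) (exp_pos _).le hW hsym hinv
    (by
      rw [hL, hPL]
      exact flat_hyp1 hL6 hT0 N.g0 hy0 N.ρL N.ρy N.s0 hPT)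
    (by
      rw [hα, ← exp_nat_mul, mul_div_cancel₀ _ (by linarith), ← exp_add, ← exp_add]
      calc 2 * (150 * exp (y + g)) = 300 * exp (y + g) := by ring
        _ ≤ exp E * exp (y + g) :=
          mul_le_mul_of_nonneg_right (by linarith [le_exp_of hE]) (exp_pos _).le
        _ ≤ _ := by
          rw [← exp_add]
          exact exp_le_exp.2 N.f2)
  -- Balog-Szemerédi-Gowers
  have hK : (2 * exp (2 * y / j)) ^ 100 ≤ exp E := by
    calc (2 * exp (2 * y / j)) ^ 100 ≤ (exp 1 * exp (2 * y / j)) ^ 100 := by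
          gcongr; exact two_le_exp
      _ = exp (100 + 200 * y / j) := by
          rw [← exp_add, ← exp_nat_mul]; congr 1; push_cast; ring
      _ ≤ _ := exp_le_exp.2 N.e1
  have hA : ∀ p : SPrime, ∃ A : Finset (ZMod p.1), p ∈ T1 → A.Nonempty ∧
      exp (-E) ≤ ∑ x ∈ A, push p V' id W' x ∧ ((A - A).card : ℝ) ≤ exp E * A.card ∧
      (A.card : ℝ) ≤ p.1 * exp (2 * E - b * y) := by
    intro p
    by_cases hp : p ∈ T1
    swap
    · exact ⟨∅, fun h => absurd h hp⟩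
    obtain ⟨hf1, hf2⟩ := hfl p hp
    obtain ⟨A, hA⟩ := bsg h2 p (push p V' id W') (exp (2 * y / j)) E (b * y)
      (one_le_exp (div_nonneg (by linarith) (by linarith))) hK
      (fun x => push_nonneg p id (fun v hv => (hW'.1 v hv).1) x)
      (by rw [sum_push]; exact hW'.2)
      (by
        refine le_trans ?_ hf1
        rw [hα, ← exp_add]
        exact exp_le_exp.2 (by linarith [N.e2])) hf2
    exact ⟨A, fun _ => hA⟩
  choose A hA using hA
  -- multipliers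
  obtain ⟨T2, hT2, hc2, c, hc, hfib⟩ := h3 P R T1 A (exp E) (exp (-(σ * y))) (exp (2 * E - b * y))
    hP2 (hTin.mono hT1) (one_le_exp hE0) (exp_pos _)
    (by
      have h5 : 16 ≤ exp (σ * y) := by linarith [le_exp_of N.σy]
      rw [exp_neg, ← one_div]
      exact one_div_le_one_div_of_le (by norm_num) h5)
    (by
      rw [← exp_add]
      exact exp_le_exp.2 N.m1)
    (fun p hp => ⟨(hA p hp).1, (hA p hp).2.2.1, (hA p hp).2.2.2⟩)
  rw [hL] at hc2
  have hPu : exp L ≤ T2.card * exp E := by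
    have h5 : (T.card : ℝ) ≤ 2 * j * T1.card := by exact_mod_cast hc1
    have h6 : 0 ≤ 24 * L * exp g := by positivity
    calc exp L ≤ 24 * L * exp g * T.card := hPT
      _ ≤ 24 * L * exp g * (2 * j * T1.card) := mul_le_mul_of_nonneg_left h5 h6
      _ ≤ 24 * L * exp g * (2 * j * ((10 * L) ^ R * T2.card)) :=
          mul_le_mul_of_nonneg_left (mul_le_mul_of_nonneg_left hc2 (by linarith)) h6
      _ = T2.card * (48 * j * L * (10 * L) ^ R * exp g) := by ring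
      _ ≤ _ := mul_le_mul_of_nonneg_left N.e3 (Nat.cast_nonneg _)
  have hu : (0 : ℝ) < T2.card := by
    by_contra hc
    have : (T2.card : ℝ) = 0 := le_antisymm (not_lt.1 hc) (Nat.cast_nonneg _)
    rw [this, zero_mul] at hPu
    exact absurd hPu (not_le.2 (exp_pos _))
  -- counting
  obtain ⟨t, ht1, htL, hty, htP⟩ := t_facts N
  obtain ⟨z, hz1, hz2⟩ := N.c3
  have hw : exp (-((R + 2) * E)) ≤ exp (-E) ^ (R + 1) / 2 := by
    rw [le_div_iff₀ (by norm_num), ← exp_nat_mul]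
    calc exp (-((R + 2) * E)) * 2 ≤ exp (-((R + 2) * E)) * exp E :=
          mul_le_mul_of_nonneg_left (by linarith [le_exp_of hE]) (exp_pos _).le
      _ = _ := by rw [← exp_add]; congr 1; push_cast; ring
  have hcount := h4 P R t T2 V' W' A c (exp (-(1 - η) * ρ)) (2 ^ j * exp ρ) (exp (-E))
    (exp (-(σ * y))) _ (exp (-E) ^ (R + 1) / 2) hP2 ((hTin.mono hT1).mono hT2)
    (card_pos.1 (by exact_mod_cast hu)) ht1
    (one_le_mul_of_one_le_of_one_le (one_le_pow₀ (by norm_num)) (one_le_exp hρ0))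
    (exp_pos _) (exp_pos _) (exp_pos _).le
    (by
      have : ((2 : ℝ) ^ j * exp ρ) ^ 2 = 4 ^ j * exp (2 * ρ) := by
        rw [mul_pow, ← pow_mul, mul_comm j 2, pow_mul, ← exp_nat_mul]; norm_num
      rw [this]; exact hW')
    hc rfl
    (by
      refine le_trans ?_ (div_le_div_of_nonneg_right hw (by norm_num))
      rw [le_div_iff₀ (by norm_num)]
      calc exp (-(σ * y)) * 2 ≤ exp (-(σ * y)) * exp E :=
            mul_le_mul_of_nonneg_left (by linarith [le_exp_of hE]) (exp_pos _).le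
        _ ≤ _ := by
          rw [← exp_add]
          exact exp_le_exp.2 N.c1)
    (by rw [hPL]; exact htP)
    (fun p hp => (hA p (hT2 hp)).2.1) hfib
    (by
      rw [hPL]
      refine count_hyp R t L T2.card _ σ η y ρ E z hu hw hty ?_ hPu hE hz1 (hz2 t htL)
      refine hty.trans ?_
      have h5 : exp y * exp E ≤ exp L * exp (-(σ * y)) := by
        rw [← exp_add, ← exp_add]
        exact exp_le_exp.2 N.c2
      have h6 : exp y * exp E ≤ T2.card * exp (-(σ * y)) * exp E := by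
        calc _ ≤ exp L * exp (-(σ * y)) := h5
          _ ≤ T2.card * exp E * exp (-(σ * y)) := mul_le_mul_of_nonneg_right hPu (exp_pos _).le
          _ = _ := by ring
      exact le_of_mul_le_mul_right h6 (exp_pos _))
  rw [hL, hPL] at hcount
  exact phi_contra N (count_concl R L T2.card _ y E _ (log (4 * (2 ^ j * exp ρ) ^ 2)) hu hw hPu hE
    (by linarith) hy0 (le_max_of_le_left (by positivity)) (log_R N.ρj N.ρy).1 (log_R N.ρj N.ρy).2
    hcount)

theorem small (c s : ℝ) (hs : 0 < s) : ∀ᶠ δ in nhdsWithin (0 : ℝ) (Set.Ioi 0), c * δ < s := by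
  have : ContinuousAt (fun δ : ℝ => c * δ) 0 := by fun_prop
  exact nhdsWithin_le_nhds (this.eventually_lt continuousAt_const (by simpa using hs))

end Growth

open Growth Real in
theorem growth (h1 : FlattenStmt) (h2 : BSGWStmt) (h3 : MultStmt) (h4 : CountStmt) :
    GrowthStmt := by
  intro R a σ η b hR ha hσ hσ1 hη s1 s2 s3 s4
  have hR' : (1 : ℝ) ≤ R := by exact_mod_cast hR
  have hb : σ < b := by nlinarith
  obtain ⟨δ, ⟨⟨⟨⟨⟨⟨d1, d2⟩, d3⟩, d4⟩, d5⟩, d6⟩, hδ⟩⟩ :=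
    (((((((small (R * a + 1) _ (sub_pos.2 s1)).and (small (2 * a) _ (sub_pos.2 s2))).and
      (small a _ (sub_pos.2 s3))).and (small 1 _ (sub_pos.2 s4))).and (small 1 _ hσ)).and
      (small 1 _ (sub_pos.2 hb))).and self_mem_nhdsWithin).exists
  replace hδ : 0 < δ := hδ
  obtain ⟨j, hj1, hj⟩ : ∃ j : ℕ, 1 ≤ j ∧ 40000 * ((R : ℝ) + 1) ^ 2 / δ ≤ j :=
    ⟨⌈40000 * ((R : ℝ) + 1) ^ 2 / δ⌉₊ + 1, by omega, by
      push_cast; linarith [Nat.le_ceil (40000 * ((R : ℝ) + 1) ^ 2 / δ)]⟩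
  have hj' : (1 : ℝ) ≤ j := by exact_mod_cast hj1
  set C : ℝ := 141 + 2 ^ (j + 1) + 48 * j + 50 * R with hC
  have hC0 : 0 < C := by positivity
  refine ⟨max (max (2 * (j + 2)) (200 * (R + 1) ^ 2 * C / δ))
    ((2 + 10 * R + 2 * R * (j + 2)) / δ), ?_⟩
  intro h hh P S hP hS y ρ α q hy hy' hρ hρ' hα hq V W T f hW hsym hTS hT hinv
  have hh1 : 2 * (j + 2 : ℝ) ≤ h := ((le_max_left _ _).trans (le_max_left _ _)).trans hh
  have hh2 : 200 * (R + 1) ^ 2 * C / δ ≤ h := ((le_max_right _ _).trans (le_max_left _ _)).trans hh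
  have hh3 : (2 + 10 * R + 2 * R * (j + 2)) / δ ≤ h := (le_max_right _ _).trans hh
  have hh0 : 1 ≤ h := by linarith
  have hhL : h ≤ log P := by rw [← hP]; exact le_self_pow₀ hh0 (by norm_num)
  have hh4 : h ≤ h ^ 4 := le_self_pow₀ hh0 (by norm_num)
  have hh41 : 1 ≤ h ^ 4 := one_le_pow₀ hh0
  have hy0 : 0 ≤ y := le_trans (by positivity) hy
  have hyj : 0 ≤ 200 * y / j := by positivity
  have h2j : (0 : ℝ) ≤ 2 ^ (j + 1) * h ^ 4 := by positivity
  have hjh : (j : ℝ) ≤ j * h ^ 4 := le_mul_of_one_le_right (by positivity) hh41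
  have hRh : (R : ℝ) ≤ R * h ^ 4 := le_mul_of_one_le_right (by positivity) hh41
  have hRh' : (R : ℝ) * h ≤ R * h ^ 4 := by gcongr
  have hCh : C * h ^ 4 = 141 * h ^ 4 + 2 ^ (j + 1) * h ^ 4 + 48 * (j * h ^ 4) + 50 * (R * h ^ 4) := by
    rw [hC]; ring
  refine core h1 h2 h3 h4 (num R j a σ η b δ (h ^ 4) y ρ (200 * y / j + C * h ^ 4) (log P) hR hj1 ha
    hσ hσ1 hη hδ (by linarith) (by linarith) (by linarith) (by linarith) (by linarith) (by linarith)
    (by linarith) ?_ (hP ▸ hy') ?_ hρ' (by positivity) (by linarith) (by linarith) ?_ ?_ hy0) P S hS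
    rfl V W T f hW hsym hTS (le_trans (mul_le_mul_of_nonneg_right hα (Nat.cast_nonneg _)) hT)
    (fun p hp => invar_mono (hinv p hp) hq hα)
  · rw [div_le_iff₀ hδ] at hh3
    nlinarith
  · rw [← hP, ← pow_mul]; exact hρ
  · have h5 : h ≤ exp h := by linarith [add_one_le_exp h]
    have h6 : log P ≤ exp (40 * h) := by
      rw [← hP, show (40 : ℝ) * h = (40 : ℕ) * h by norm_num, exp_nat_mul]
      gcongr
    have h7 : 48 * (j : ℝ) ≤ exp (48 * j) := by linarith [add_one_le_exp (48 * (j : ℝ))]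
    have h8 : (10 : ℝ) ≤ exp 10 := by linarith [exp10]
    have h9 : 0 ≤ log P := by linarith
    calc 48 * j * log P * (10 * log P) ^ R * exp (h ^ 4)
        ≤ exp (48 * j) * exp (40 * h) * (exp 10 * exp (40 * h)) ^ R * exp (h ^ 4) := by gcongr
      _ = exp (48 * j + 40 * h + R * (10 + 40 * h) + h ^ 4) := by
          rw [← exp_add 10, ← exp_nat_mul, ← exp_add, ← exp_add, ← exp_add]
      _ ≤ _ := exp_le_exp.2 (by nlinarith)
  · rw [div_le_iff₀ hδ] at hh2 hj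
    have h5 : 100 * ((R : ℝ) + 1) ^ 2 * (200 * y / j) ≤ δ / 2 * y := by
      rw [← mul_div_assoc, div_le_iff₀ (by positivity)]
      nlinarith
    have h6 : 100 * ((R : ℝ) + 1) ^ 2 * (C * h ^ 4) ≤ δ / 2 * y := by
      calc 100 * ((R : ℝ) + 1) ^ 2 * (C * h ^ 4) = (200 * (R + 1) ^ 2 * C) * h ^ 4 / 2 := by ring
        _ ≤ (h * δ) * h ^ 4 / 2 := by gcongr
        _ = δ / 2 * h ^ 5 := by ring
        _ ≤ _ := by gcongr
    linarith

end Crest.Agent.R2
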