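import Crest.Agent.R2.Entropy

/-! Row 2: the hitting estimate. -/

set_option autoImplicit false

open Finset
open scoped Pointwise Classical

namespace Crest.Agent.R2

namespace Hit

theorem one_sub_pow_le {x : ℝ} (h0 : 0 ≤ x) (h1 : x ≤ 1) (r : ℕ) :
    min (r * x) 1 / 2 ≤ 1 - (1 - x) ^ r := by
  have hB : 1 + (r : ℝ) * x ≤ (1 + x) ^ r := one_add_mul_le_pow (by linarith) r
  have hp : 0 ≤ (1 - x) ^ r := pow_nonneg (by linarith) r
  have h2 : (1 - x) ^ r * (1 + x) ^ r ≤ 1 := by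
    rw [← mul_pow]
    exact pow_le_one₀ (mul_nonneg (by linarith) (by linarith)) (by nlinarith)
  have h3 : (1 - x) ^ r * (1 + r * x) ≤ 1 := (mul_le_mul_of_nonneg_left hB hp).trans h2
  have hy : 0 ≤ (r : ℝ) * x := by positivity
  rcases le_total ((r : ℝ) * x) 1 with h | h
  · rw [min_eq_left h]
    by_contra hc
    push Not at hc
    nlinarith
  · rw [min_eq_right h]
    nlinarith

theorem prob_hit {r kk N : ℕ} (hN : r * kk = N) (hpos : 0 < N) (M : Finset ℕ) (hM : M ⊆ range N) :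
    ((min M.card kk : ℕ) : ℝ) ≤ 2 * kk * avg (Fintype.piFinset (fun _ : Fin r => range N))
      (fun o => if ∃ j, o j ∈ M then 1 else 0) := by
  have hN0 : (0 : ℝ) < N := by exact_mod_cast hpos
  have hkk : 0 < kk := Nat.pos_of_mul_pos_left (hN ▸ hpos)
  have hkk0 : (0 : ℝ) < kk := by exact_mod_cast hkk
  have hne : (Fintype.piFinset (fun _ : Fin r => range N)).Nonempty :=
    Fintype.piFinset_nonempty.2 fun _ => nonempty_range_iff.2 hpos.ne'
  have h1 : ∀ o : Fin r → ℕ, (if ∃ j, o j ∈ M then (1 : ℝ) else 0) =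
      1 - ∏ j, (1 - if o j ∈ M then (1 : ℝ) else 0) := by
    intro o
    split_ifs with h
    · obtain ⟨j, hj⟩ := h
      rw [prod_eq_zero (mem_univ j) (by simp [hj]), sub_zero]
    · push Not at h
      simp [h]
  have h2 : avg (range N) (fun o => 1 - if o ∈ M then (1 : ℝ) else 0) = 1 - M.card / N := by
    rw [avg_sub, avg_const (nonempty_range_iff.2 hpos.ne')]
    congr 1
    unfold avg
    rw [sum_ite_mem, inter_eq_right.2 hM]
    simp
  have hMN : (M.card : ℝ) ≤ N := by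
    have := card_le_card hM
    rw [card_range] at this
    exact_mod_cast this
  simp_rw [h1]
  rw [avg_sub, avg_const hne, avg_piFinset_prod (fun _ : Fin r => range N)
    (fun _ o => 1 - if o ∈ M then (1 : ℝ) else 0)]
  simp_rw [h2]
  rw [prod_const, card_univ, Fintype.card_fin]
  have h3 := one_sub_pow_le (x := M.card / N) (by positivity) ((div_le_one hN0).2 hMN) r
  have h4 : (r : ℝ) * (M.card / N) = M.card / kk := by
    have hr : (r : ℝ) ≠ 0 := by
      have : 0 < r := Nat.pos_of_mul_pos_right (hN ▸ hpos)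
      positivity
    rw [← hN]
    push_cast
    field_simp
  rw [h4] at h3
  have h5 : ((min M.card kk : ℕ) : ℝ) = kk * min ((M.card : ℝ) / kk) 1 := by
    rw [mul_min_of_nonneg _ _ hkk0.le, mul_one, mul_div_cancel₀ _ hkk0.ne', Nat.cast_min]
  rw [h5]
  nlinarith

theorem mult_le {D P l N L n0 : ℕ} {p : SPrime} {z : ℕ → GI} (hp : P ≤ p.1)
    (hD : (D * 2 ^ l) ^ 2 < P) (hz : IsPath D z L) (hL : n0 + N * 2 ^ l ≤ L) (a : ZMod p.1) :
    mult p z n0 (N * 2 ^ l) a ≤
      ((range N).filter fun o => ∃ t < 2 ^ l, res p (z (n0 + o * 2 ^ l + t)) = a).card := by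
  unfold mult
  rw [card_filter, card_filter, sum_range_mul]
  refine sum_le_sum fun o ho => ?_
  rw [← card_filter]
  have hlt : ∀ t < 2 ^ l, n0 + (o * 2 ^ l + t) < L := by
    intro t ht
    have h1 : (o + 1) * 2 ^ l ≤ N * 2 ^ l := Nat.mul_le_mul_right _ (mem_range.1 ho)
    rw [add_mul, one_mul] at h1
    omega
  split_ifs with h
  · refine card_le_one.2 fun t ht t' ht' => ?_
    obtain ⟨ht1, ht2⟩ := mem_filter.1 ht
    obtain ⟨ht1', ht2'⟩ := mem_filter.1 ht'
    rw [mem_range] at ht1 ht1'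
    by_contra hne
    have hv : z (n0 + (o * 2 ^ l + t)) - z (n0 + (o * 2 ^ l + t')) ≠ 0 := by
      intro h0
      have := (hz _ (hlt t ht1) _ (hlt t' ht1')).1 (sub_eq_zero.1 h0)
      omega
    have h1 := dvd_norm_of_res_eq_zero p
      (v := z (n0 + (o * 2 ^ l + t)) - z (n0 + (o * 2 ^ l + t'))) (by rw [map_sub, ht2, ht2', sub_self])
    have h2 := Int.le_of_dvd (norm_pos' hv) h1
    have h3 := hz.norm_le (m := 2 ^ l) (hlt t ht1) (hlt t' ht1') (by omega) (by omega)
    have h4 : ((D * 2 ^ l : ℕ) : ℤ) ^ 2 < p.1 := by exact_mod_cast hD.trans_le hp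
    omega
  · rw [Nat.le_zero, card_eq_zero, filter_eq_empty_iff]
    intro t ht hc
    exact h ⟨t, mem_range.1 ht, by rw [add_assoc]; exact hc⟩

theorem resAt_insert (p : SPrime) (S : Finset SPrime) (v w : GI) :
    resAt (insert p S) v = resAt (insert p S) w ↔ (resAt S v, res p v) = (resAt S w, res p w) := by
  rw [Prod.mk.injEq, funext_iff, funext_iff]
  constructor
  · intro h
    refine ⟨fun q => ?_, ?_⟩
    · have := h q
      unfold resAt at this ⊢
      split_ifs with hq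
      · rwa [if_pos (mem_insert_of_mem hq), if_pos (mem_insert_of_mem hq)] at this
      · rfl
    · have := h p
      unfold resAt at this
      rwa [if_pos (mem_insert_self p S), if_pos (mem_insert_self p S)] at this
  · rintro ⟨h1, h2⟩ q
    have := h1 q
    unfold resAt at this ⊢
    split_ifs with hq
    · rcases mem_insert.1 hq with rfl | hq'
      · exact h2
      · rwa [if_pos hq', if_pos hq'] at this
    · rfl

theorem succ_mul_pow_le {i a b : ℕ} (hab : b ≤ a) (hi : i < 2 ^ (a - b)) :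
    i * 2 ^ b + 2 ^ b ≤ 2 ^ a := by
  have h1 : (i + 1) * 2 ^ b ≤ 2 ^ (a - b) * 2 ^ b := Nat.mul_le_mul_right _ hi
  rwa [← pow_add, Nat.sub_add_cancel hab, add_mul, one_mul] at h1

end Hit

open Hit in
theorem hit : HitStmt := by
  intro D P K k1 b l1 r kk S S' z τ hS _ hl hb hk hr hD hz h0 hτ
  refine le_trans ?_ (mul_le_mul_of_nonneg_left hτ (by positivity))
  rw [← avg_mul_left]
  refine avg_le_avg fun p hp => ?_
  obtain ⟨E, hE⟩ : ∃ E : (Fin r → Fin (2 ^ l1 + 1) → GI) → ZMod p.1 → Prop,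
      ∀ x a, E x a ↔ ∃ j t, a + res p (x j t) = 0 := ⟨_, fun _ _ => Iff.rfl⟩
  have h1 : avg (omega k1 b l1 r) (fun ω => avg (range (2 ^ (K - k1))) (fun i =>
      avg ((range (2 ^ (K - k1))).filter
        (fun i' => resAt S' (z (i' * 2 ^ k1)) = resAt S' (z (i * 2 ^ k1))))
        (fun i' => if E (samp z k1 b l1 r ω i) (res p (z (i' * 2 ^ k1))) then 1 else 0))) ≤
      psi z K k1 b l1 r S' - psi z K k1 b l1 r (insert p S') := by
    unfold psi
    rw [← avg_sub]
    refine avg_le_avg fun ω hω => ?_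
    have hc : cH (range (2 ^ (K - k1))) (samp z k1 b l1 r ω)
        (fun i => resAt (insert p S') (z (i * 2 ^ k1))) =
        cH (range (2 ^ (K - k1))) (samp z k1 b l1 r ω)
        (fun i => (resAt S' (z (i * 2 ^ k1)), res p (z (i * 2 ^ k1)))) :=
      cH_congr (fun i _ j _ => resAt_insert p S' _ _) (fun _ _ _ _ _ => Iff.rfl)
    rw [hc]
    refine hit_le_info (samp z k1 b l1 r ω) (fun i => resAt S' (z (i * 2 ^ k1)))
      (fun i => res p (z (i * 2 ^ k1))) E ?_
    intro i hi hEi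
    obtain ⟨j, t, hjt⟩ := (hE _ _).1 hEi
    obtain ⟨hω1, hω2⟩ := mem_product.1 hω
    have e1 := succ_mul_pow_le hk (mem_range.1 hi)
    have e2 := succ_mul_pow_le hb (mem_range.1 hω1)
    have e3 := succ_mul_pow_le hl (mem_range.1 (Fintype.mem_piFinset.1 hω2 j))
    have e4 := t.2
    refine h0 p hp (i * 2 ^ k1 + ω.1 * 2 ^ b + ω.2 j * 2 ^ l1 + t) (by omega) ?_
    rw [← hjt, samp, map_sub]
    ring
  refine le_trans ?_ (mul_le_mul_of_nonneg_left h1 (by positivity))
  rw [avg_comm (omega k1 b l1 r), ← avg_mul_left]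
  refine avg_le_avg fun i hi => ?_
  rw [omega, avg_product, ← avg_mul_left]
  refine avg_le_avg fun β hβ => ?_
  rw [avg_comm, ← avg_mul_left]
  unfold claw
  rw [sum_law_mul]
  refine avg_le_avg fun i' _ => ?_
  have e1 := succ_mul_pow_le hk (mem_range.1 hi)
  have e2 := succ_mul_pow_le hb (mem_range.1 hβ)
  have e3 : 2 ^ b = 2 ^ (b - l1) * 2 ^ l1 := by rw [← pow_add, Nat.sub_add_cancel hl]
  have h2 := mult_le (n0 := i * 2 ^ k1 + β * 2 ^ b) (N := 2 ^ (b - l1)) (hS p hp).1 hD hz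
    (by omega) (res p (z (i * 2 ^ k1)) - res p (z (i' * 2 ^ k1)))
  rw [← e3] at h2
  have h3 := prob_hit hr (by positivity) _ (filter_subset (fun o => ∃ t < 2 ^ l1,
    res p (z (i * 2 ^ k1 + β * 2 ^ b + o * 2 ^ l1 + t)) =
      res p (z (i * 2 ^ k1)) - res p (z (i' * 2 ^ k1))) (range (2 ^ (b - l1))))
  refine le_trans (Nat.cast_le.2 (min_le_min_right kk h2)) (h3.trans ?_)
  refine mul_le_mul_of_nonneg_left (avg_le_avg fun o _ => ?_) (by positivity)
  split_ifs with hA hB
  · exact le_rfl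
  · exfalso
    obtain ⟨j, hj⟩ := hA
    obtain ⟨t, ht, hta⟩ := (mem_filter.1 hj).2
    refine hB ((hE _ _).2 ⟨j, ⟨t, Nat.lt_succ_of_lt ht⟩, ?_⟩)
    simp only [samp, map_sub, hta]
    ring
  · exact zero_le_one
  · exact le_rfl

end Crest.Agent.R2
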