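import Crest.Agent.R2.Defs

/-! The Fejér weight on `ZMod M` and equidistribution of `x + y ι` modulo `Q`. -/

set_option autoImplicit false

open Finset
open scoped Classical

namespace Crest.Agent.R2.Johnson

/-- Fejér weight -/
noncomputable def fej (M K : ℕ) [NeZero M] (n : ZMod M) : ℝ :=
  ‖∑ k ∈ range K, ZMod.stdAddChar (n * (k : ZMod M))‖ ^ 2

theorem fej_nonneg (M K : ℕ) [NeZero M] (n : ZMod M) : 0 ≤ fej M K n := sq_nonneg _

theorem conj_char (M : ℕ) [NeZero M] (u : ZMod M) :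
    (starRingEnd ℂ) (ZMod.stdAddChar u) = ZMod.stdAddChar (-u) := by
  rw [AddChar.map_neg_eq_conj]

theorem fej_coe (M K : ℕ) [NeZero M] (n : ZMod M) :
    (fej M K n : ℂ) = ∑ k ∈ range K, ∑ k' ∈ range K,
      ZMod.stdAddChar (n * ((k : ZMod M) - (k' : ZMod M))) := by
  unfold fej
  rw [Complex.ofReal_pow, ← Complex.mul_conj', map_sum, sum_mul_sum]
  refine sum_congr rfl fun k _ => sum_congr rfl fun k' _ => ?_
  rw [conj_char, ← AddChar.map_add_eq_mul]
  congr 1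
  ring

theorem fej_sum (M K : ℕ) [NeZero M] (a : ℤ) :
    ∑ n : ZMod M, (fej M K n : ℂ) * ZMod.stdAddChar (n * (a : ZMod M)) =
      ∑ k ∈ range K, ∑ k' ∈ range K,
        (if (M : ℤ) ∣ (k : ℤ) - k' + a then (M : ℂ) else 0) := by
  simp_rw [fej_coe, sum_mul]
  rw [sum_comm]
  refine sum_congr rfl fun k _ => ?_
  rw [sum_comm]
  refine sum_congr rfl fun k' _ => ?_
  have h1 : ∀ n : ZMod M, ZMod.stdAddChar (n * ((k : ZMod M) - (k' : ZMod M))) *
      ZMod.stdAddChar (n * (a : ZMod M)) =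
      ZMod.stdAddChar (n * (((k : ℤ) - k' + a : ℤ) : ZMod M)) := by
    intro n
    rw [← AddChar.map_add_eq_mul]
    congr 1
    push_cast
    ring
  simp_rw [h1]
  rw [AddChar.sum_mulShift _ (ZMod.isPrimitive_stdAddChar M)]
  simp only [ZMod.intCast_zmod_eq_zero_iff_dvd, ZMod.card]
  split_ifs <;> simp

theorem fej_total (M K : ℕ) [NeZero M] (hK : K ≤ M) : ∑ n : ZMod M, fej M K n = M * K := by
  have h := fej_sum M K 0
  have h2 : ∀ k ∈ range K, ∑ k' ∈ range K,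
      (if (M : ℤ) ∣ (k : ℤ) - k' + (0 : ℤ) then (M : ℂ) else 0) = M := by
    intro k hk
    rw [sum_eq_single k]
    · simp
    · intro k' hk' hne
      rw [if_neg]
      intro hd
      have h3 := Int.eq_zero_of_abs_lt_dvd hd (by
        have := mem_range.1 hk
        have := mem_range.1 hk'
        rw [abs_lt]
        constructor <;> omega)
      omega
    · intro h'
      exact absurd hk h'
  rw [sum_congr rfl h2] at h
  simp only [Int.cast_zero, mul_zero, AddChar.map_zero_eq_one, mul_one, sum_const, card_range,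
    nsmul_eq_mul] at h
  have h4 : ((∑ n : ZMod M, fej M K n : ℝ) : ℂ) = ((M * K : ℝ) : ℂ) := by
    push_cast
    rw [h]
    ring
  exact_mod_cast h4

theorem fej_vanish (M K : ℕ) [NeZero M] (a : ℤ) (h1 : (K : ℤ) ≤ |a|) (h2 : |a| + K ≤ M) :
    ∑ n : ZMod M, (fej M K n : ℂ) * ZMod.stdAddChar (n * (a : ZMod M)) = 0 := by
  rw [fej_sum]
  refine sum_eq_zero fun k hk => sum_eq_zero fun k' hk' => ?_
  rw [if_neg]
  intro hd
  have := mem_range.1 hk
  have := mem_range.1 hk'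
  have h3 := Int.eq_zero_of_abs_lt_dvd hd (by
    rw [abs_lt]
    rcases abs_cases a with h | h <;> constructor <;> omega)
  rcases abs_cases a with h | h <;> omega

theorem fej_lower (R K : ℕ) [NeZero (8 * R * K)] (n : ℤ) (hn : |n| ≤ R) :
    (K : ℝ) ^ 2 / 4 ≤ fej (8 * R * K) K (n : ZMod (8 * R * K)) := by
  have hM : 0 < 8 * R * K := Nat.pos_of_ne_zero (NeZero.ne _)
  have hM' : (0 : ℝ) < 8 * R * K := by exact_mod_cast hM
  have h1 : ∀ k ∈ range K,
      (1 / 2 : ℝ) ≤ (ZMod.stdAddChar ((n : ZMod (8 * R * K)) * (k : ZMod (8 * R * K)))).re := by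
    intro k hk
    have e1 : (n : ZMod (8 * R * K)) * (k : ZMod (8 * R * K)) = ((n * k : ℤ) : ZMod (8 * R * K)) := by
      push_cast
      ring
    have e2 : (2 * Real.pi * Complex.I * ((n * k : ℤ) : ℂ) / ((8 * R * K : ℕ) : ℂ)) =
        ((2 * Real.pi * (n * k) / (8 * R * K) : ℝ) : ℂ) * Complex.I := by
      push_cast
      ring
    rw [e1, ZMod.stdAddChar_coe, e2, Complex.exp_ofReal_mul_I_re]
    refine le_trans ?_ Real.one_sub_sq_div_two_le_cos
    have hk' : (k : ℝ) ≤ K := by exact_mod_cast (mem_range.1 hk).le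
    have hn' : |(n : ℝ)| ≤ R := by exact_mod_cast hn
    have h3 : |2 * Real.pi * (n * k) / (8 * R * K)| ≤ 1 := by
      rw [abs_div, abs_of_pos hM', div_le_one hM', abs_mul, abs_mul (n : ℝ),
        abs_of_pos (by positivity : 0 < 2 * Real.pi), Nat.abs_cast]
      have h4 : |(n : ℝ)| * k ≤ R * K := by gcongr
      have h5 : (0 : ℝ) ≤ |(n : ℝ)| * k := by positivity
      nlinarith [Real.pi_le_four]
    have h6 := sq_le_one_iff_abs_le_one _ |>.2 h3
    linarith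
  have h2 : (K : ℝ) / 2 ≤
      ‖∑ k ∈ range K, ZMod.stdAddChar ((n : ZMod (8 * R * K)) * (k : ZMod (8 * R * K)))‖ := by
    refine le_trans ?_ (Complex.re_le_norm _)
    rw [Complex.re_sum]
    refine le_trans ?_ (sum_le_sum h1)
    simp [div_eq_mul_inv]
  unfold fej
  have h3 : (0 : ℝ) ≤ K / 2 := by positivity
  nlinarith

theorem fej_vanish_Q (R K Q : ℕ) [NeZero (8 * R * K)] [NeZero Q] (hQ : Q ∣ K) (η : ZMod Q)
    (hη : (Q : ℤ) ≤ 8 * R * |η.valMinAbs|) :
    ∑ n : ZMod (8 * R * K), (fej (8 * R * K) K n : ℂ) *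
      ZMod.stdAddChar (η * (n.val : ZMod Q)) = 0 := by
  obtain ⟨D, hD⟩ := hQ
  have hM : 0 < 8 * R * K := Nat.pos_of_ne_zero (NeZero.ne _)
  have hQ0 : 0 < Q := Nat.pos_of_ne_zero (NeZero.ne _)
  have hR0 : 0 < R := Nat.pos_of_ne_zero (by rintro rfl; simp at hM)
  have hD0 : 0 < D := Nat.pos_of_ne_zero (by rintro rfl; simp [hD] at hM)
  set C := η.valMinAbs with hC
  have hC2 : 2 * |C| ≤ Q := by
    have := ZMod.natAbs_valMinAbs_le η
    rw [← hC] at this
    rw [Int.abs_eq_natAbs]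
    omega
  have habs : |C * (8 * R * D)| = |C| * (8 * R * D) := by
    rw [abs_mul, abs_of_nonneg (by positivity : (0 : ℤ) ≤ 8 * R * D)]
  have hDz : (0 : ℤ) < D := by exact_mod_cast hD0
  have hRz : (1 : ℤ) ≤ R := by exact_mod_cast hR0
  have hQz : (0 : ℤ) < Q := by exact_mod_cast hQ0
  rw [← fej_vanish (8 * R * K) K (C * (8 * R * D))]
  · refine sum_congr rfl fun n _ => ?_
    congr 1
    have e1 : η * (n.val : ZMod Q) = ((C * n.val : ℤ) : ZMod Q) := by
      push_cast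
      rw [hC, ZMod.coe_valMinAbs]
    have e2 : n * ((C * (8 * R * D) : ℤ) : ZMod (8 * R * K)) =
        ((n.val * (C * (8 * R * D)) : ℤ) : ZMod (8 * R * K)) := by
      rw [Int.cast_mul (n.val : ℤ), Int.cast_natCast, ZMod.natCast_zmod_val]
    rw [e1, e2, ZMod.stdAddChar_coe, ZMod.stdAddChar_coe]
    congr 1
    have hQc : (Q : ℂ) ≠ 0 := by exact_mod_cast hQ0.ne'
    have hRc : (R : ℂ) ≠ 0 := by exact_mod_cast hR0.ne'
    have hDc : (D : ℂ) ≠ 0 := by exact_mod_cast hD0.ne'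
    have hKc : (K : ℂ) = Q * D := by exact_mod_cast hD
    generalize n.val = m
    push_cast
    rw [hKc]
    field_simp
  · rw [habs, hD]
    push_cast
    nlinarith
  · rw [habs, hD]
    push_cast
    have h1 : 2 * |C| * (4 * R * D) ≤ Q * (4 * R * D) :=
      mul_le_mul_of_nonneg_right hC2 (by positivity)
    have h2 : (Q : ℤ) * D * 1 ≤ Q * D * R := mul_le_mul_of_nonneg_left hRz (by positivity)
    nlinarith

theorem fej_char (R K Q : ℕ) [NeZero (8 * R * K)] [NeZero Q] (hQ : Q ∣ K) (hQR : Q ≤ R ^ 2)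
    (ι : ZMod Q) (hι : ι * ι = -1) (ξ : ZMod Q) (hξ : ξ ≠ 0) :
    (∑ x : ZMod (8 * R * K), (fej (8 * R * K) K x : ℂ) * ZMod.stdAddChar (ξ * (x.val : ZMod Q))) *
    (∑ y : ZMod (8 * R * K), (fej (8 * R * K) K y : ℂ) *
      ZMod.stdAddChar ((ξ * ι) * (y.val : ZMod Q))) = 0 := by
  set A := ξ.valMinAbs with hA
  set B := (ξ * ι).valMinAbs with hB
  have hA0 : A ≠ 0 := by
    rw [hA, Ne, ZMod.valMinAbs_eq_zero]
    exact hξ
  have hd : (Q : ℤ) ∣ A ^ 2 + B ^ 2 := by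
    rw [← ZMod.intCast_zmod_eq_zero_iff_dvd]
    push_cast
    rw [hA, hB, ZMod.coe_valMinAbs, ZMod.coe_valMinAbs]
    linear_combination ξ ^ 2 * hι
  have hle : (Q : ℤ) ≤ A ^ 2 + B ^ 2 := Int.le_of_dvd (by positivity) hd
  have hQR' : (Q : ℤ) ≤ (R : ℤ) ^ 2 := by exact_mod_cast hQR
  have key : ∀ C : ℤ, (Q : ℤ) ≤ 2 * C ^ 2 → (Q : ℤ) ≤ 8 * R * |C| := by
    intro C hC
    refine abs_le_of_sq_le_sq' ?_ (by positivity) |>.2
    rw [mul_pow, sq_abs]
    have : (Q : ℤ) * Q ≤ R ^ 2 * (2 * C ^ 2) :=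
      mul_le_mul hQR' hC (by positivity) (by positivity)
    nlinarith [sq_nonneg (R * C)]
  rcases le_total (A ^ 2) (B ^ 2) with h | h
  · rw [fej_vanish_Q R K Q hQ (ξ * ι) (key B (by linarith)), mul_zero]
  · rw [fej_vanish_Q R K Q hQ ξ (key A (by linarith)), zero_mul]

theorem fej_equi (R K Q : ℕ) [NeZero (8 * R * K)] [NeZero Q] (hQ : Q ∣ K) (hQR : Q ≤ R ^ 2)
    (ι : ZMod Q) (hι : ι * ι = -1) (b : ZMod Q) :
    ∑ j : ZMod (8 * R * K) × ZMod (8 * R * K), fej (8 * R * K) K j.1 * fej (8 * R * K) K j.2 *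
      (if (j.1.val : ZMod Q) + (j.2.val : ZMod Q) * ι = b then 1 else 0) =
      ((8 * R * K : ℕ) * K) ^ 2 / Q := by
  have hM : 0 < 8 * R * K := Nat.pos_of_ne_zero (NeZero.ne _)
  have hQ0 : 0 < Q := Nat.pos_of_ne_zero (NeZero.ne _)
  have hR0 : 0 < R := Nat.pos_of_ne_zero (by rintro rfl; simp at hM)
  have hQc : (Q : ℂ) ≠ 0 := by exact_mod_cast hQ0.ne'
  have hKM : K ≤ 8 * R * K := Nat.le_mul_of_pos_left _ (by positivity)
  have h1 : ∀ u : ZMod Q, (((if u = b then 1 else 0 : ℝ)) : ℂ) =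
      (∑ ξ : ZMod Q, ZMod.stdAddChar (ξ * (u - b))) / Q := by
    intro u
    rw [AddChar.sum_mulShift _ (ZMod.isPrimitive_stdAddChar Q)]
    simp only [sub_eq_zero, ZMod.card]
    split_ifs
    · simp [hQc]
    · simp
  apply Complex.ofReal_injective
  rw [Complex.ofReal_sum]
  simp_rw [Complex.ofReal_mul, h1, mul_div_assoc', ← sum_div, mul_sum]
  rw [sum_comm, sum_eq_single 0]
  · simp only [zero_mul, AddChar.map_zero_eq_one, mul_one]
    rw [Fintype.sum_prod_type]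
    dsimp only
    rw [← sum_mul_sum, ← Complex.ofReal_sum, fej_total _ _ hKM]
    push_cast
    ring
  · intro ξ _ hξ
    have h2 := fej_char R K Q hQ hQR ι hι ξ hξ
    rw [sum_mul_sum, ← Fintype.sum_prod_type'] at h2
    have h3 : ∀ j : ZMod (8 * R * K) × ZMod (8 * R * K),
        (fej (8 * R * K) K j.1 : ℂ) * (fej (8 * R * K) K j.2 : ℂ) *
          ZMod.stdAddChar (ξ * ((j.1.val : ZMod Q) + (j.2.val : ZMod Q) * ι - b)) =
        ((fej (8 * R * K) K j.1 : ℂ) * ZMod.stdAddChar (ξ * (j.1.val : ZMod Q)) *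
          ((fej (8 * R * K) K j.2 : ℂ) * ZMod.stdAddChar ((ξ * ι) * (j.2.val : ZMod Q)))) *
          ZMod.stdAddChar (-(ξ * b)) := by
      intro j
      have : ξ * ((j.1.val : ZMod Q) + (j.2.val : ZMod Q) * ι - b) =
          ξ * (j.1.val : ZMod Q) + (ξ * ι) * (j.2.val : ZMod Q) + -(ξ * b) := by ring
      rw [this, AddChar.map_add_eq_mul, AddChar.map_add_eq_mul]
      ring
    simp_rw [h3]
    rw [← sum_mul, h2, zero_mul]
  · intro h
    exact absurd (mem_univ _) h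

theorem fej_mean (R K Q : ℕ) [NeZero (8 * R * K)] [NeZero Q] (hQ : Q ∣ K) (hQR : Q ≤ R ^ 2)
    (ι : ZMod Q) (hι : ι * ι = -1) (F : ZMod Q → ℝ) :
    ∑ j : ZMod (8 * R * K) × ZMod (8 * R * K), fej (8 * R * K) K j.1 * fej (8 * R * K) K j.2 *
      F ((j.1.val : ZMod Q) + (j.2.val : ZMod Q) * ι) =
      ((8 * R * K : ℕ) * K) ^ 2 * ((∑ b, F b) / Q) := by
  have h1 : ∀ u : ZMod Q, F u = ∑ b, (if u = b then 1 else 0) * F b := by
    intro u
    simp
  have h2 : ∀ j : ZMod (8 * R * K) × ZMod (8 * R * K),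
      fej (8 * R * K) K j.1 * fej (8 * R * K) K j.2 *
        F ((j.1.val : ZMod Q) + (j.2.val : ZMod Q) * ι) =
      ∑ b, fej (8 * R * K) K j.1 * fej (8 * R * K) K j.2 *
        (if (j.1.val : ZMod Q) + (j.2.val : ZMod Q) * ι = b then 1 else 0) * F b := by
    intro j
    rw [h1, mul_sum]
    simp_rw [mul_assoc]
  simp_rw [h2]
  rw [sum_comm]
  simp_rw [← sum_mul, fej_equi R K Q hQ hQR ι hι]
  rw [← mul_sum]
  ring

end Crest.Agent.R2.Johnson
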