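import Crest.Agent.R2.JohnsonMoment
import Crest.Agent.R2.JohnsonFejer

/-! The Johnson-type bound. -/

set_option autoImplicit false

open Finset
open scoped Classical

namespace Crest.Agent.R2

namespace Johnson

/-- the square root of `-1` used in `res` -/
noncomputable def io (p : SPrime) : ZMod p.1 := p.exists_iota.choose

theorem io_sq (p : SPrime) : io p * io p = -1 := by
  have := p.exists_iota.choose_spec
  simpa [io] using this

theorem res_eq (p : SPrime) (v : GI) :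
    res p v = (v.re : ZMod p.1) + (v.im : ZMod p.1) * io p := rfl

theorem indep_fej (S : Finset SPrime) (R K n : ℕ) [NeZero (8 * R * K)]
    (hK : K = ∏ p : S, p.1.1) (B : ℕ) (hB : ∀ p ∈ S, p.1 ≤ B) (hB1 : 1 ≤ B) (hR : B ^ n ≤ R ^ 2) :
    Indep (I := S) (α := fun p => ZMod p.1.1) (univ : Finset (ZMod (8 * R * K) × ZMod (8 * R * K)))
      (fun j => fej (8 * R * K) K j.1 * fej (8 * R * K) K j.2) (((8 * R * K : ℕ) * K) ^ 2)
      (fun j p => (j.1.val : ZMod p.1.1) + (j.2.val : ZMod p.1.1) * io p.1) n := by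
  intro T hT F
  have hcop : Pairwise (Function.onFun Nat.Coprime (fun p : T => p.1.1.1)) := by
    intro p q hpq
    refine (Nat.coprime_primes p.1.1.2.1 q.1.1.2.1).2 fun h => hpq ?_
    exact Subtype.ext (Subtype.ext (Subtype.ext h))
  set e := ZMod.prodEquivPi (fun p : T => p.1.1.1) hcop with he
  have hQ0 : (∏ p : T, p.1.1.1) ≠ 0 := prod_ne_zero_iff.2 fun p _ => p.1.1.2.1.ne_zero
  have : NeZero (∏ p : T, p.1.1.1) := ⟨hQ0⟩
  have hQK : (∏ p : T, p.1.1.1) ∣ K := by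
    rw [hK, prod_coe_sort T (fun p : S => p.1.1)]
    exact prod_dvd_prod_of_subset _ _ _ (subset_univ _)
  have hQR : (∏ p : T, p.1.1.1) ≤ R ^ 2 := by
    refine le_trans ?_ hR
    refine (prod_le_pow_card _ _ B fun p _ => hB p.1.1 p.1.2).trans ?_
    exact Nat.pow_le_pow_right hB1 (by simpa using hT)
  have hι : e.symm (fun p => io p.1.1) * e.symm (fun p => io p.1.1) = -1 := by
    apply e.injective
    rw [map_mul, e.apply_symm_apply, map_neg, map_one]
    funext p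
    exact io_sq p.1.1
  have h := fej_mean R K _ hQK hQR _ hι (fun u => ∏ p : T, F p.1 (e u p))
  have h1 : ∀ x y : ℕ, ∏ p : T, F p.1 (e ((x : ZMod (∏ p : T, p.1.1.1)) +
      (y : ZMod (∏ p : T, p.1.1.1)) * e.symm (fun p => io p.1.1)) p) =
      ∏ p ∈ T, F p ((x : ZMod p.1.1) + (y : ZMod p.1.1) * io p.1) := by
    intro x y
    rw [← prod_coe_sort T]
    refine prod_congr rfl fun p _ => ?_
    rw [map_add, map_mul, e.apply_symm_apply, map_natCast, map_natCast]
    rfl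
  have h2 : ∑ u, ∏ p : T, F p.1 (e u p) = ∏ p : T, ∑ a, F p.1 a := by
    rw [Fintype.prod_sum (fun (p : T) (a : ZMod p.1.1.1) => F p.1 a)]
    exact Equiv.sum_comp e.toEquiv (fun ω => ∏ p : T, F p.1 (ω p))
  simp only [h1, h2] at h
  rw [h, ← prod_coe_sort T, prod_div_distrib]
  simp [ZMod.card]

end Johnson

open Johnson in
theorem johnson : JohnsonStmt := by
  intro P t S V f v a hP hS ht h0 h1 h2 ha hV hf
  set R : ℕ := (2 * P) ^ t with hR
  set K : ℕ := ∏ p : S, p.1.1 with hK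
  have hR0 : 0 < R := by positivity
  have hK0 : 0 < K := prod_pos fun p _ => p.1.2.1.pos
  have : NeZero (8 * R * K) := ⟨by positivity⟩
  have hRr : ((2 * P : ℝ)) ^ t = R := by
    rw [hR]
    push_cast
    rfl
  have hind := indep_fej S R K (2 * t) hK (2 * P) (fun p hp => (hS p hp).2) (by omega)
    (by rw [hR, ← pow_mul, mul_comm t 2])
  have hmom := moment_eq _ _ _ _ _ hind (fun p => f p.1)
  have hle := mom_le (I := S) (α := fun p => ZMod p.1.1) (fun p => f p.1) v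
    (fun p => h0 p.1 p.2) (fun p => h1 p.1 p.2)
    (fun p => by simpa [mean, ZMod.card] using h2 p.1 p.2) t ht
  rw [Fintype.card_coe] at hle
  set B : ℝ := (24 * t * max (S.card * v) t) ^ t with hB
  set G : ZMod (8 * R * K) × ZMod (8 * R * K) → ℝ := fun j =>
    fej (8 * R * K) K j.1 * fej (8 * R * K) K j.2 *
      (∑ p : S, f p.1 ((j.1.val : ZMod p.1.1) + (j.2.val : ZMod p.1.1) * io p.1)) ^ (2 * t) with hG
  have hG0 : ∀ j, 0 ≤ G j := fun j =>
    mul_nonneg (mul_nonneg (fej_nonneg _ _ _) (fej_nonneg _ _ _)) ((even_two_mul t).pow_nonneg _)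
  have hsum : ∑ j, G j ≤ ((8 * R * K : ℕ) * K) ^ 2 * B :=
    hmom.le.trans (mul_le_mul_of_nonneg_left hle (by positivity))
  set φ : GI → ZMod (8 * R * K) × ZMod (8 * R * K) :=
    fun z => ((z.re : ZMod (8 * R * K)), (z.im : ZMod (8 * R * K))) with hφ
  have hbd : ∀ z ∈ V, |z.re| ≤ R ∧ |z.im| ≤ R := by
    intro z hz
    have h3 := hV z hz
    rw [hRr] at h3
    have h4 : z.norm ≤ (R : ℤ) ^ 2 := by exact_mod_cast h3
    rw [Zsqrtd.norm_def] at h4
    constructor
    · refine abs_le_of_sq_le_sq ?_ (by positivity)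
      nlinarith [sq_nonneg z.im]
    · refine abs_le_of_sq_le_sq ?_ (by positivity)
      nlinarith [sq_nonneg z.re]
  have hinjZ : ∀ x y : ℤ, |x| ≤ R → |y| ≤ R →
      (x : ZMod (8 * R * K)) = (y : ZMod (8 * R * K)) → x = y := by
    intro x y hx hy hxy
    rw [ZMod.intCast_eq_intCast_iff_dvd_sub] at hxy
    have h5 : (R : ℤ) * 1 ≤ R * K := mul_le_mul_of_nonneg_left (by exact_mod_cast hK0) (by positivity)
    have h6 : (0 : ℤ) < R := by exact_mod_cast hR0
    have h7 := Int.eq_zero_of_abs_lt_dvd hxy (by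
      rw [abs_le] at hx hy
      push_cast
      rw [abs_lt]
      constructor <;> nlinarith)
    omega
  have hinj : Set.InjOn φ V := by
    intro z hz w hw hzw
    have h5 := Prod.ext_iff.1 hzw
    exact Zsqrtd.ext (hinjZ _ _ (hbd z hz).1 (hbd w hw).1 h5.1)
      (hinjZ _ _ (hbd z hz).2 (hbd w hw).2 h5.2)
  have hpt : ∀ z ∈ V, (K : ℝ) ^ 2 / 4 * ((K : ℝ) ^ 2 / 4) * a ^ (2 * t) ≤ G (φ z) := by
    intro z hz
    have h5 : ∑ p : S, f p.1 ((((z.re : ZMod (8 * R * K))).val : ZMod p.1.1) +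
        (((z.im : ZMod (8 * R * K))).val : ZMod p.1.1) * io p.1) = ∑ p ∈ S, f p (res p z) := by
      rw [← sum_coe_sort S]
      refine sum_congr rfl fun p _ => ?_
      have hd : p.1.1 ∣ 8 * R * K := Dvd.dvd.mul_left (dvd_prod_of_mem _ (mem_univ p)) _
      rw [res_eq, ZMod.natCast_val, ZMod.natCast_val, ZMod.cast_intCast hd, ZMod.cast_intCast hd]
    simp only [hG, hφ]
    rw [h5]
    refine mul_le_mul (mul_le_mul (fej_lower R K _ (hbd z hz).1) (fej_lower R K _ (hbd z hz).2)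
      (by positivity) (fej_nonneg _ _ _)) (pow_le_pow_left₀ ha.le (hf z hz) _) (by positivity)
      (mul_nonneg (fej_nonneg _ _ _) (fej_nonneg _ _ _))
  have hmain : V.card * ((K : ℝ) ^ 2 / 4 * ((K : ℝ) ^ 2 / 4) * a ^ (2 * t)) ≤
      ((8 * R * K : ℕ) * K) ^ 2 * B := by
    calc V.card * ((K : ℝ) ^ 2 / 4 * ((K : ℝ) ^ 2 / 4) * a ^ (2 * t))
        = ∑ _z ∈ V, (K : ℝ) ^ 2 / 4 * ((K : ℝ) ^ 2 / 4) * a ^ (2 * t) := by simp
      _ ≤ ∑ z ∈ V, G (φ z) := sum_le_sum hpt
      _ = ∑ j ∈ V.image φ, G j := (sum_image hinj).symm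
      _ ≤ ∑ j, G j := sum_le_sum_of_subset_of_nonneg (subset_univ _) fun j _ _ => hG0 j
      _ ≤ _ := hsum
  rw [hRr, le_div_iff₀ (by positivity)]
  have hKr : (0 : ℝ) < (K : ℝ) ^ 4 / 16 := by positivity
  refine le_of_mul_le_mul_left ?_ hKr
  push_cast at hmain
  calc (K : ℝ) ^ 4 / 16 * (V.card * a ^ (2 * t))
      = V.card * ((K : ℝ) ^ 2 / 4 * ((K : ℝ) ^ 2 / 4) * a ^ (2 * t)) := by ring
    _ ≤ _ := hmain
    _ = _ := by ring

end Crest.Agent.R2
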