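import Crest.Agent.R2.Defs

/-! Moment bound for a weighted family with `2t`-wise independent uniform coordinates. -/

set_option autoImplicit false

open Finset
open scoped Classical

namespace Crest.Agent.R2.Johnson

section
variable {I : Type} [Fintype I] {α : I → Type} [∀ i, Fintype (α i)]

/-- `n`-wise independence with uniform marginals, for weights `W` of total mass `W0` -/
def Indep {J : Type} (s : Finset J) (W : J → ℝ) (W0 : ℝ) (ρ : J → ∀ i, α i) (n : ℕ) : Prop :=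
  ∀ T : Finset I, T.card ≤ n → ∀ F : ∀ i, α i → ℝ,
    ∑ j ∈ s, W j * ∏ i ∈ T, F i (ρ j i) = W0 * ∏ i ∈ T, ((∑ a, F i a) / Fintype.card (α i))

/-- the `n`-th moment of a sum of independent variables -/
noncomputable def mom (f : ∀ i, α i → ℝ) (n : ℕ) : ℝ :=
  ∑ g : Fin n → I, ∏ i ∈ univ.image g,
    ((∑ a, f i a ^ (univ.filter (fun k => g k = i)).card) / Fintype.card (α i))

theorem moment_eq {J : Type} (s : Finset J) (W : J → ℝ) (W0 : ℝ) (ρ : J → ∀ i, α i) (n : ℕ)
    (h : Indep s W W0 ρ n) (f : ∀ i, α i → ℝ) :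
    ∑ j ∈ s, W j * (∑ i, f i (ρ j i)) ^ n = W0 * mom f n := by
  unfold mom
  simp_rw [Fintype.sum_pow, mul_sum]
  rw [sum_comm]
  refine sum_congr rfl fun g _ => ?_
  have hc : (univ.image g).card ≤ n := card_image_le.trans (by simp)
  rw [← h (univ.image g) hc (fun i a => f i a ^ (univ.filter (fun k => g k = i)).card)]
  refine sum_congr rfl fun j _ => ?_
  congr 1
  exact prod_comp (s := univ) (fun i => f i (ρ j i)) g

theorem indep_univ [∀ i, Nonempty (α i)] (n : ℕ) :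
    Indep (univ : Finset (∀ i, α i)) (fun _ => 1) (∏ i, (Fintype.card (α i) : ℝ)) id n := by
  intro T _ F
  have h1 : ∀ ω : ∀ i, α i, (1 : ℝ) * ∏ i ∈ T, F i (id ω i) =
      ∏ i, (if i ∈ T then F i (ω i) else 1) := by
    intro ω
    rw [one_mul, Fintype.prod_ite_mem]
    rfl
  simp_rw [h1]
  rw [← Fintype.prod_sum (fun i a => if i ∈ T then F i a else 1),
    ← Fintype.prod_ite_mem T (fun i => (∑ a, F i a) / Fintype.card (α i)), ← prod_mul_distrib]
  refine prod_congr rfl fun i _ => ?_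
  have hc : (Fintype.card (α i) : ℝ) ≠ 0 := by exact_mod_cast Fintype.card_ne_zero
  split_ifs
  · field_simp
  · simp

theorem sum_exp_le [∀ i, Nonempty (α i)] (f : ∀ i, α i → ℝ) (v : ℝ) (h0 : ∀ i, ∑ a, f i a = 0)
    (h1 : ∀ i a, |f i a| ≤ 1) (h2 : ∀ i, (∑ a, f i a ^ 2) / Fintype.card (α i) ≤ v)
    (σ : ℝ) (hσ : |σ| ≤ 1) :
    ∑ ω : ∀ i, α i, Real.exp (σ * ∑ i, f i (ω i)) ≤
      (∏ i, (Fintype.card (α i) : ℝ)) * Real.exp (Fintype.card I * v * σ ^ 2) := by
  have e1 : ∀ ω : ∀ i, α i, Real.exp (σ * ∑ i, f i (ω i)) = ∏ i, Real.exp (σ * f i (ω i)) := by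
    intro ω
    rw [mul_sum, Real.exp_sum]
  simp_rw [e1]
  rw [← Fintype.prod_sum (fun i a => Real.exp (σ * f i a))]
  have e2 : Real.exp (Fintype.card I * v * σ ^ 2) = ∏ _i : I, Real.exp (v * σ ^ 2) := by
    rw [prod_const, card_univ, ← Real.exp_nat_mul, mul_assoc]
  rw [e2, ← prod_mul_distrib]
  refine prod_le_prod (fun i _ => sum_nonneg fun a _ => (Real.exp_pos _).le) fun i _ => ?_
  have hc : (0 : ℝ) < Fintype.card (α i) := by exact_mod_cast Fintype.card_pos
  have h3 : ∀ a, Real.exp (σ * f i a) ≤ 1 + σ * f i a + σ ^ 2 * f i a ^ 2 := by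
    intro a
    have hx : |σ * f i a| ≤ 1 := by
      rw [abs_mul]
      exact mul_le_one₀ hσ (abs_nonneg _) (h1 i a)
    have := (abs_le.1 (Real.abs_exp_sub_one_sub_id_le hx)).2
    rw [mul_pow] at this
    linarith
  have h4 : ∑ a, f i a ^ 2 ≤ v * Fintype.card (α i) := by
    have := h2 i
    rwa [div_le_iff₀ hc] at this
  calc ∑ a, Real.exp (σ * f i a) ≤ ∑ a, (1 + σ * f i a + σ ^ 2 * f i a ^ 2) :=
        sum_le_sum fun a _ => h3 a
    _ = Fintype.card (α i) + σ ^ 2 * ∑ a, f i a ^ 2 := by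
        rw [sum_add_distrib, sum_add_distrib, ← mul_sum, ← mul_sum, h0 i]
        simp
    _ ≤ Fintype.card (α i) * (v * σ ^ 2 + 1) := by
        nlinarith [mul_le_mul_of_nonneg_left h4 (sq_nonneg σ)]
    _ ≤ _ := mul_le_mul_of_nonneg_left (Real.add_one_le_exp _) hc.le

theorem mom_le [∀ i, Nonempty (α i)] (f : ∀ i, α i → ℝ) (v : ℝ) (h0 : ∀ i, ∑ a, f i a = 0)
    (h1 : ∀ i a, |f i a| ≤ 1) (h2 : ∀ i, (∑ a, f i a ^ 2) / Fintype.card (α i) ≤ v)
    (t : ℕ) (ht : 1 ≤ t) :
    mom f (2 * t) ≤ (24 * t * max (Fintype.card I * v) t) ^ t := by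
  set N : ℝ := ∏ i, (Fintype.card (α i) : ℝ) with hN
  have hNpos : 0 < N := prod_pos fun i _ => by exact_mod_cast Fintype.card_pos
  have hm := moment_eq (univ : Finset (∀ i, α i)) (fun _ => 1) N id (2 * t) (indep_univ _) f
  set m : ℝ := max (Fintype.card I * v) t with hmdef
  have ht' : (1 : ℝ) ≤ t := by exact_mod_cast ht
  have hmt : (t : ℝ) ≤ m := le_max_right _ _
  have hmpos : 0 < m := by linarith
  set σ : ℝ := √(t / m) with hσ
  have hσ2 : σ ^ 2 = t / m := Real.sq_sqrt (by positivity)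
  have hσ0 : 0 ≤ σ := Real.sqrt_nonneg _
  have hσ1 : σ ≤ 1 := by
    rw [hσ]
    exact Real.sqrt_le_one.2 ((div_le_one hmpos).2 hmt)
  have hE : Fintype.card I * v * σ ^ 2 ≤ t := by
    rw [hσ2, mul_div_assoc', div_le_iff₀ hmpos]
    have : Fintype.card I * v ≤ m := le_max_left _ _
    nlinarith
  have hpt : ∀ X : ℝ, (t / m) ^ t * X ^ (2 * t) ≤
      ((2 * t).factorial : ℝ) * (Real.exp (σ * X) + Real.exp (-σ * X)) := by
    intro X
    have hf : (0 : ℝ) < (2 * t).factorial := by exact_mod_cast Nat.factorial_pos _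
    have h5 := Real.pow_div_factorial_le_exp _ (abs_nonneg (σ * X)) (2 * t)
    rw [div_le_iff₀ hf, Even.pow_abs (even_two_mul t), mul_pow, pow_mul σ, hσ2] at h5
    have h6 : Real.exp |σ * X| ≤ Real.exp (σ * X) + Real.exp (-σ * X) := by
      rcases abs_cases (σ * X) with h | h
      · rw [h.1]
        linarith [Real.exp_pos (-σ * X)]
      · rw [h.1, neg_mul]
        linarith [Real.exp_pos (σ * X)]
    nlinarith
  have hsum : (t / m) ^ t * (N * mom f (2 * t)) ≤
      ((2 * t).factorial : ℝ) * (2 * (N * Real.exp t)) := by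
    rw [← hm, mul_sum]
    have a1 := sum_exp_le f v h0 h1 h2 σ (by rw [abs_of_nonneg hσ0]; exact hσ1)
    have a2 := sum_exp_le f v h0 h1 h2 (-σ) (by rw [abs_neg, abs_of_nonneg hσ0]; exact hσ1)
    rw [neg_sq] at a2
    have a3 : N * Real.exp (Fintype.card I * v * σ ^ 2) ≤ N * Real.exp t :=
      mul_le_mul_of_nonneg_left (Real.exp_le_exp.2 hE) hNpos.le
    calc ∑ ω : ∀ i, α i, (t / m) ^ t * (1 * (∑ i, f i (id ω i)) ^ (2 * t))
        ≤ ∑ ω : ∀ i, α i, ((2 * t).factorial : ℝ) *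
            (Real.exp (σ * ∑ i, f i (ω i)) + Real.exp (-σ * ∑ i, f i (ω i))) := by
          refine sum_le_sum fun ω _ => ?_
          rw [one_mul]
          exact hpt _
      _ = ((2 * t).factorial : ℝ) * (∑ ω : ∀ i, α i, Real.exp (σ * ∑ i, f i (ω i)) +
            ∑ ω : ∀ i, α i, Real.exp (-σ * ∑ i, f i (ω i))) := by
          rw [← mul_sum, sum_add_distrib]
      _ ≤ _ := by
          refine mul_le_mul_of_nonneg_left ?_ (Nat.cast_nonneg _)
          linarith
  have hfac : ((2 * t).factorial : ℝ) ≤ (4 * t ^ 2) ^ t := by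
    have := Nat.factorial_le_pow (2 * t)
    calc ((2 * t).factorial : ℝ) ≤ ((2 * t) ^ (2 * t) : ℕ) := by exact_mod_cast this
      _ = (4 * t ^ 2) ^ t := by
        push_cast
        rw [pow_mul]
        ring
  have hexp : Real.exp t ≤ 3 ^ t := by
    rw [← mul_one (t : ℝ), Real.exp_nat_mul]
    exact pow_le_pow_left₀ (Real.exp_pos _).le (by linarith [Real.exp_one_lt_d9]) _
  have htwo : (2 : ℝ) ≤ 2 ^ t := by
    calc (2 : ℝ) = 2 ^ 1 := by norm_num
      _ ≤ 2 ^ t := pow_le_pow_right₀ (by norm_num) ht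
  have hq : (0 : ℝ) < (t / m) ^ t := by positivity
  have hfin : (t / m) ^ t * mom f (2 * t) ≤ (t / m) ^ t * (24 * t * m) ^ t := by
    have b1 : (t / m) ^ t * (24 * t * m) ^ t = (4 * t ^ 2) ^ t * (2 ^ t * 3 ^ t) := by
      rw [← mul_pow, ← mul_pow, ← mul_pow]
      congr 1
      field_simp
      ring
    have b2 : (t / m) ^ t * mom f (2 * t) ≤ ((2 * t).factorial : ℝ) * (2 * Real.exp t) := by
      refine le_of_mul_le_mul_left ?_ hNpos
      calc N * ((t / m) ^ t * mom f (2 * t)) = (t / m) ^ t * (N * mom f (2 * t)) := by ring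
        _ ≤ _ := hsum
        _ = _ := by ring
    rw [b1]
    refine b2.trans ?_
    gcongr
  exact le_of_mul_le_mul_left hfin hq

end

end Crest.Agent.R2.Johnson
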