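import Crest.Agent.R2.Basic

/-!
# Row 2: the level lemma, asymptotic form
-/

set_option autoImplicit false

open Finset
open scoped Pointwise Classical

namespace Crest.Agent.R2

namespace Level

theorem pow_le_exp {h μ : ℝ} (hμ : 0 < μ) (h1 : 1 ≤ h) (h2 : 200 / μ ≤ h) :
    h ^ 200 ≤ Real.exp (μ * h ^ 5) := by
  have a1 : h ≤ Real.exp h := by linarith [Real.add_one_le_exp h]
  calc h ^ 200 ≤ Real.exp h ^ 200 := by gcongr
    _ = Real.exp (200 * h) := by rw [← Real.exp_nat_mul]; norm_num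
    _ ≤ Real.exp (μ * h ^ 5) := by
      rw [div_le_iff₀ hμ] at h2
      have a2 : h ^ 2 ≤ h ^ 5 := pow_le_pow_right₀ h1 (by norm_num)
      exact Real.exp_le_exp.2 (by nlinarith)

theorem log_le {D b : ℕ} (hD : 1 ≤ D) :
    Real.log (2 * (D * 2 ^ b) + 1 : ℕ) ≤ 2 + Real.log D + b * Real.log 2 := by
  have hD' : (1 : ℝ) ≤ D := by exact_mod_cast hD
  have h1 : (1 : ℝ) ≤ 2 ^ b := one_le_pow₀ one_le_two
  have h2 : ((2 * (D * 2 ^ b) + 1 : ℕ) : ℝ) ≤ 2 ^ 2 * (D * 2 ^ b) := by
    push_cast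
    nlinarith
  refine (Real.log_le_log (by positivity) h2).trans ?_
  rw [Real.log_mul (by positivity) (by positivity), Real.log_mul (by positivity) (by positivity),
    Real.log_pow, Real.log_pow]
  push_cast
  linarith [Real.log_two_lt_d9]

/-- the larger sieve bound for a block -/
theorem sieve {D P bb : ℕ} {S : Finset SPrime} {L : ℝ} (hD : 1 ≤ D) (hP : 2 ≤ P) (hS : Good P S)
    (hb1 : P ≤ 2 ^ bb) (hb2 : bb * Real.log 2 ≤ 2 * L) (hDL : Real.log D ≤ L) (hL : 1 ≤ L)
    (z : ℕ → GI) (hz : IsPath D z (2 ^ bb)) :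
    avg S (fun p => p.1 * ∑ a, law p (range (2 ^ bb)) z a ^ 2) ≤ 400 * L := by
  have hD' : (1 : ℝ) ≤ D := by exact_mod_cast hD
  have hP' : (2 : ℝ) ≤ P := by exact_mod_cast hP
  have hb' : (P : ℝ) ≤ 2 ^ bb := by exact_mod_cast hb1
  have hlog : 0 < Real.log P := Real.log_pos (by linarith)
  have hc : (0 : ℝ) < S.card := by exact_mod_cast (hS.nonempty (by omega)).card_pos
  have h1 := larger_sieve_law hP hS.1 (range (2 ^ bb)) z (R := ((D : ℝ) * 2 ^ bb) ^ 2) hz.injOn
    (one_le_pow₀ (by nlinarith)) fun i hi j hj => by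
      have hi' := mem_range.1 hi
      have hj' := mem_range.1 hj
      exact_mod_cast hz.norm_le (m := 2 ^ bb) hi' hj' (by omega) (by omega)
  rw [Real.log_pow, Real.log_mul (by positivity) (by positivity), Real.log_pow, card_range] at h1
  push_cast at h1
  have h2 : avg S (fun p => p.1 * ∑ a, law p (range (2 ^ bb)) z a ^ 2) ≤
      avg S (fun p => 2 * P * ∑ a, law p (range (2 ^ bb)) z a ^ 2) :=
    avg_le_avg fun p hp => mul_le_mul_of_nonneg_right (by exact_mod_cast (hS.1 p hp).2)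
      (sum_nonneg fun _ _ => sq_nonneg _)
  refine h2.trans ?_
  rw [avg_mul_left, avg, ← mul_div_assoc, div_le_iff₀ hc]
  have h3 : 2 * (Real.log D + bb * Real.log 2) / Real.log P ≤ 6 * L / Real.log P :=
    div_le_div_of_nonneg_right (by linarith) hlog.le
  have h4 : P * (6 * L / Real.log P) ≤ 144 * L * S.card := by
    rw [← mul_div_assoc, div_le_iff₀ hlog]
    nlinarith [mul_le_mul_of_nonneg_right hS.2 (by linarith : 0 ≤ 6 * L)]
  have h5 : P * ((S.card : ℝ) / 2 ^ bb) ≤ S.card := by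
    rw [← mul_div_assoc, div_le_iff₀ (by positivity)]
    nlinarith
  have h6 := mul_le_mul_of_nonneg_left (h1.trans (add_le_add_left h3 _))
    (by positivity : (0 : ℝ) ≤ P)
  nlinarith

/-- the number of patterns -/
theorem patterns {h q q' A k' X Y J l : ℝ} (hh : 400 ≤ h) (hq' : 1 ≤ q')
    (hk' : 1 ≤ k') (hqA : q ≤ A) (hkA : q' * k' ≤ A) (hX : X ≤ 2 * k') (hY0 : 0 ≤ Y)
    (hY : Y ≤ 5 * h ^ 40) (hJ0 : 0 ≤ J) (hJ : J ≤ 2 * (q' * h ^ 50) * h ^ 42) (hl0 : 0 ≤ l)
    (hl : l ≤ q * h / (q' * h ^ 50) + 2) : J * (2 * X + l * (2 * Y)) ≤ h ^ 200 * A := by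
  have h1 : (1 : ℝ) ≤ h := by linarith
  have h0 : (0 : ℝ) < h := by linarith
  have hq'A : q' ≤ A := by nlinarith
  have a1 : J * l ≤ 2 * h ^ 43 * A + 4 * h ^ 92 * A := by
    calc J * l ≤ 2 * (q' * h ^ 50) * h ^ 42 * (q * h / (q' * h ^ 50) + 2) := by gcongr
      _ = 2 * h ^ 43 * q + 4 * h ^ 92 * q' := by field_simp; ring
      _ ≤ _ := by gcongr
  have a2 : J * (2 * X) ≤ 8 * h ^ 92 * A := by
    calc J * (2 * X) ≤ J * (2 * (2 * k')) := by gcongr
      _ ≤ 2 * (q' * h ^ 50) * h ^ 42 * (2 * (2 * k')) := by gcongr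
      _ = 8 * h ^ 92 * (q' * k') := by ring
      _ ≤ _ := by gcongr
  have hA : 0 ≤ A := by linarith
  have a3 : J * l * (2 * Y) ≤ (2 * h ^ 43 * A + 4 * h ^ 92 * A) * (2 * (5 * h ^ 40)) := by gcongr
  have b1 : h ^ 92 ≤ h ^ 132 := pow_le_pow_right₀ h1 (by norm_num)
  have b2 : h ^ 83 ≤ h ^ 132 := pow_le_pow_right₀ h1 (by norm_num)
  have b3 : h ^ 133 ≤ h ^ 200 := pow_le_pow_right₀ h1 (by norm_num)
  have b4 : 400 * h ^ 132 ≤ h ^ 133 := by
    rw [pow_succ h 132, mul_comm]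
    gcongr
  have b5 : 0 ≤ h ^ 132 := by positivity
  calc J * (2 * X + l * (2 * Y)) = J * (2 * X) + J * l * (2 * Y) := by ring
    _ ≤ 8 * h ^ 92 * A + (2 * h ^ 43 * A + 4 * h ^ 92 * A) * (2 * (5 * h ^ 40)) := add_le_add a2 a3
    _ = (8 * h ^ 92 + 20 * h ^ 83 + 40 * h ^ 132) * A := by ring
    _ ≤ h ^ 200 * A := by
      gcongr
      linarith

end Level

theorem level (H : LevelCoreStmt) : LevelStmt := by
  intro D a b μ hD ha hb hμ hμ4 ⟨h0, hproj⟩
  refine ⟨max (max h0 400) (max (200 / μ) (Real.log D)), ?_⟩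
  intro h hh P S hP hS bb hb1 hb2 y x y' ε' hy1 hy2 hx0 hx hy' hby hε' hC
  simp only [ge_iff_le, max_le_iff] at hh
  obtain ⟨⟨hh0, hh4⟩, hhμ, hhD⟩ := hh
  have h1 : (1 : ℝ) ≤ h := by linarith
  have hpos : (0 : ℝ) < h := by linarith
  have hp : ∀ {m n : ℕ}, m ≤ n → h ^ m ≤ h ^ n := fun hmn => pow_le_pow_right₀ h1 hmn
  have h40 : h ≤ h ^ 40 := by simpa using hp (show 1 ≤ 40 by norm_num)
  have h5 : h ≤ h ^ 5 := by simpa using hp (show 1 ≤ 5 by norm_num)
  have hP2 : 2 ≤ P := by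
    by_contra hlt
    have : Real.log P = 0 := by
      have : P = 0 ∨ P = 1 := by omega
      rcases this with rfl | rfl <;> simp
    linarith
  have hD' : (1 : ℝ) ≤ D := by exact_mod_cast hD
  have hDl : 0 ≤ Real.log D := Real.log_nonneg hD'
  have hbb : bb * Real.log 2 ≤ 2 * h ^ 40 := by
    have : ((2 : ℝ)) ^ bb ≤ (P : ℝ) ^ 2 := by exact_mod_cast hb2
    have := Real.log_le_log (by positivity) this
    rw [Real.log_pow, Real.log_pow, ← hP] at this
    exact_mod_cast this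
  have hbb3 : (bb : ℝ) ≤ 3 * h ^ 40 := by
    linarith [mul_le_mul_of_nonneg_left Real.log_two_gt_d9.le (Nat.cast_nonneg bb : (0 : ℝ) ≤ bb),
      (Nat.cast_nonneg bb : (0 : ℝ) ≤ bb)]
  have hy0 : 0 < y := by linarith
  have hy40 : y ≤ h ^ 40 := hy2.trans (mul_le_of_le_one_left (by positivity) ha)
  have hby0 : 0 < b * y := by positivity
  have hμy : 0 < μ * y := by positivity
  have hexp := Level.pow_le_exp hμ h1 hhμ
  have hB : h ^ 200 ≤ Real.exp (μ * y) := hexp.trans (by gcongr)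
  have h200 : 400 * h ^ 40 ≤ h ^ 200 := by
    calc 400 * h ^ 40 ≤ h * h ^ 40 := by gcongr
      _ = h ^ 41 := by ring
      _ ≤ h ^ 200 := hp (by norm_num)
  have hey' : h ^ 200 ≤ Real.exp y' := hexp.trans (Real.exp_le_exp.2 (by
    linarith [mul_le_mul_of_nonneg_right hμ4 (by positivity : 0 ≤ h ^ 5)]))
  set A := Real.exp ((1 - 2 * μ) * y) with hA
  set B := Real.exp (μ * y) with hBdef
  have hAB : Real.exp ((1 - μ) * y) = B * A := by
    rw [hA, hBdef, ← Real.exp_add]; congr 1; ring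
  have hABB : Real.exp y = B * B * A := by
    rw [hA, hBdef, ← Real.exp_add, ← Real.exp_add]; congr 1; ring
  have hA1 : 1 ≤ A := Real.one_le_exp (by linarith)
  have hB2 : 400 * h ^ 40 ≤ B := h200.trans hB
  set q' := Real.exp (b * y) with hq'
  have hq'1 : 1 ≤ q' := Real.one_le_exp hby0.le
  set k' := ⌊Real.exp y'⌋₊ with hk'
  set k := ⌊Real.exp y⌋₊ with hk
  have k'1 : (k' : ℝ) ≤ Real.exp y' := Nat.floor_le (by positivity)
  have k'2 : Real.exp y' < k' + 1 := Nat.lt_floor_add_one _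
  have k1 : (k : ℝ) ≤ Real.exp y := Nat.floor_le (by positivity)
  have k2 : Real.exp y < k + 1 := Nat.lt_floor_add_one _
  have hkk : k' ≤ k := Nat.floor_le_floor (Real.exp_le_exp.2 (by linarith))
  have hqk : q' * k' ≤ A := by
    calc q' * k' ≤ q' * Real.exp y' := by gcongr
      _ ≤ A := by rw [hq', ← Real.exp_add]; exact Real.exp_le_exp.2 hby
  have hk'A : (k' : ℝ) ≤ A := (le_mul_of_one_le_left (Nat.cast_nonneg k') hq'1).trans hqk
  set M := q' * h ^ 50 with hM
  have hM1 : 1 ≤ M := one_le_mul_of_one_le_of_one_le hq'1 (one_le_pow₀ h1)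
  set J := ⌈M * h ^ 2 * (b * y + 1) / 2⌉₊ with hJ
  set l := ⌈Real.exp x * h / M⌉₊ + 1 with hl
  have J1 : M * h ^ 2 * (b * y + 1) / 2 ≤ J := Nat.le_ceil _
  have J2 : (J : ℝ) < M * h ^ 2 * (b * y + 1) / 2 + 1 := Nat.ceil_lt_add_one (by positivity)
  have l1 : Real.exp x * h / M ≤ l := by
    rw [hl]; push_cast; linarith [Nat.le_ceil (Real.exp x * h / M)]
  have l2 : (l : ℝ) ≤ Real.exp x * h / M + 2 := by
    rw [hl]; push_cast
    linarith [Nat.ceil_lt_add_one (by positivity : 0 ≤ Real.exp x * h / M)]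
  have key := H D S k k' bb J l (Real.exp x) q' M (1 / h) ε' (1 / h) (400 * h ^ 40)
    (hS.nonempty (by omega)) (by exact_mod_cast (by linarith : (bb : ℝ) ≤ k')) hkk
    (Nat.one_le_ceil_iff.2 (by positivity)) (by omega) (by positivity)
    (one_div_le_one_div_of_le two_pos (by linarith)) (by positivity) (by positivity)
    (by positivity) (by positivity) hε'
    (Level.sieve hD hP2 hS hb1 hbb (by linarith) (by linarith)) ?_ ?_ ?_ ?_ hC
  · convert key using 1
    ring
  · rw [hM, show 1 / h * (q' * h ^ 50) = q' * (h * h ^ 48) by field_simp]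
    gcongr
    norm_num
  · rw [div_le_iff₀ (by positivity)] at l1
    rw [one_div, mul_assoc, ← div_eq_inv_mul, le_div_iff₀ hpos]
    linarith
  · have e : b * y + 1 ≤ 2 * (1 / h) * J / M * (1 / h) := by
      rw [show 2 * (1 / h) * J / M * (1 / h) = 2 * J / (M * h ^ 2) by field_simp,
        le_div_iff₀ (by positivity)]
      linarith
    rw [mul_comm (1 / h), hq', ← Real.exp_add]
    exact (Real.exp_le_one_iff.2 (by linarith)).trans (by linarith)
  · intro u hu τ C hcard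
    have hlog2 := Real.log_two_lt_d9
    have hlog2' := Real.log_two_gt_d9
    have hE : Real.log (D * 2 ^ k' : ℕ) = Real.log D + k' * Real.log 2 := by
      push_cast
      rw [Real.log_mul (by positivity) (by positivity), Real.log_pow]
    have hk'0 : (0 : ℝ) ≤ k' := Nat.cast_nonneg _
    have hk0 : (0 : ℝ) ≤ k := Nat.cast_nonneg _
    have hk'2 := mul_le_mul_of_nonneg_left hlog2.le hk'0
    have hk2 := mul_le_mul_of_nonneg_left hlog2.le hk0
    refine hproj h hh0 P S hP hS y hy1 hy2 (D * 2 ^ k') (k - k') (Nat.mul_pos hD (by positivity))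
      ?_ ?_ ?_ u hu C ?_
    · rw [hE, hAB]
      linarith [mul_le_mul_of_nonneg_right hB2 (by linarith : 0 ≤ A),
        mul_le_mul_of_nonneg_left hA1 (by positivity : 0 ≤ h ^ 40),
        mul_le_mul_of_nonneg_right (by linarith : 1 ≤ h ^ 40) (by linarith : 0 ≤ A)]
    · rw [Nat.cast_sub hkk]
      have : 2 * 2 ≤ B * B := mul_le_mul (by linarith) (by linarith) (by norm_num) (by linarith)
      linarith [mul_le_mul_of_nonneg_right this (by linarith : 0 ≤ A)]
    · rw [hE, Nat.cast_sub hkk]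
      have : B ≤ Real.exp y := Real.exp_le_exp.2 (by
        linarith [mul_le_mul_of_nonneg_right hμ4 hy0.le])
      linarith
    · refine (Nat.cast_le.2 hcard).trans ?_
      rw [← Real.log_le_iff_le_exp (by positivity), Nat.cast_pow, Real.log_pow, Nat.cast_mul,
        Real.log_mul (by positivity) (by positivity), Nat.cast_pow, Nat.cast_pow, Nat.cast_pow,
        Real.log_pow, Real.log_pow, Real.log_pow, hAB]
      have a1 := Level.log_le (b := k') hD
      have a2 := Level.log_le (b := bb) hD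
      refine (Level.patterns hh4 hq'1 (k' := k') (by linarith)
        (Real.exp_le_exp.2 hx) hqk (by linarith) (Real.log_natCast_nonneg _) (by linarith)
        (Nat.cast_nonneg _) ?_ (Nat.cast_nonneg _) l2).trans (by gcongr)
      have a3 : (b * y + 1) / 2 ≤ h ^ 40 := by linarith
      have a4 : M * h ^ 2 * ((b * y + 1) / 2) ≤ M * h ^ 2 * h ^ 40 := by gcongr
      have a5 : 1 ≤ M * h ^ 42 := one_le_mul_of_one_le_of_one_le hM1 (one_le_pow₀ h1)
      rw [← hM]
      linarith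

end Crest.Agent.R2
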