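import Crest.Agent.R2.Basic

/-! Row 2: the level lemma in explicit form. -/

set_option autoImplicit false

open Finset
open scoped Pointwise Classical

namespace Crest.Agent.R2

namespace LCore

theorem exp_neg_le {t : ℝ} (ht : 0 ≤ t) : Real.exp (-t) ≤ 1 - t + t ^ 2 / 2 := by
  have h := Real.quadratic_le_exp_of_nonneg ht
  have h0 : 0 < Real.exp t := Real.exp_pos t
  have h1 : 0 ≤ 1 - t + t ^ 2 / 2 := by nlinarith [sq_nonneg (t - 1)]
  rw [Real.exp_neg, inv_eq_one_div, div_le_iff₀ h0]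
  nlinarith [mul_le_mul_of_nonneg_left h h1, sq_nonneg (t ^ 2)]

theorem avg_univ_eq {n : ℕ} (f : Fin n → ℝ) : avg univ f = (∑ j, f j) / n := by
  simp [avg]

theorem univ_nonempty' {n : ℕ} (h : 1 ≤ n) : (univ : Finset (Fin n)).Nonempty :=
  ⟨⟨0, h⟩, mem_univ _⟩

theorem pi_nonempty {ι : Type} {U : Finset ι} (hU : U.Nonempty) (n : ℕ) :
    (Fintype.piFinset fun _ : Fin n => U).Nonempty :=
  Fintype.piFinset_nonempty.2 fun _ => hU

/-- the mean of an empirical average -/
theorem avg_emp {ι : Type} {U : Finset ι} (hU : U.Nonempty) {n : ℕ} (hn : 1 ≤ n) (X : ι → ℝ) :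
    avg (Fintype.piFinset fun _ : Fin n => U) (fun ω => avg univ fun j => X (ω j)) = avg U X := by
  rw [avg_comm, avg_congr fun j _ => avg_piFinset_eval (fun _ : Fin n => U) (fun _ => hU) j X,
    avg_const (univ_nonempty' hn)]

/-- lower tail of an empirical average -/
theorem conc {ι : Type} {U : Finset ι} (hU : U.Nonempty) {J : ℕ} (hJ : 1 ≤ J) {ε M : ℝ}
    (hε : 0 < ε) (hM : 0 < M) (X : ι → ℝ) (hX : ∀ u ∈ U, 0 ≤ X u ∧ X u ≤ M) :
    avg (Fintype.piFinset fun _ : Fin J => U)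
      (fun ω => max ((1 - ε) * avg U X - ε - avg univ fun j => X (ω j)) 0)
      ≤ Real.exp (-(2 * ε * J / M * ε)) / (2 * ε * J / M) := by
  have hJ' : (0 : ℝ) < J := by exact_mod_cast hJ
  set s : ℝ := 2 * ε * J / M with hs
  have hs0 : 0 < s := by positivity
  set s' : ℝ := 2 * ε / M with hs'
  have hs'0 : 0 < s' := by positivity
  have hss : s = J * s' := by rw [hs, hs']; ring
  have h1 : ∀ ω : Fin J → ι, max ((1 - ε) * avg U X - ε - avg univ fun j => X (ω j)) 0
      ≤ Real.exp (s * ((1 - ε) * avg U X - ε)) / s * ∏ j, Real.exp (-(s' * X (ω j))) := by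
    intro ω
    have e : Real.exp (s * ((1 - ε) * avg U X - ε)) / s * ∏ j, Real.exp (-(s' * X (ω j)))
        = Real.exp (s * ((1 - ε) * avg U X - ε - avg univ fun j => X (ω j))) / s := by
      rw [← Real.exp_sum, div_mul_eq_mul_div, ← Real.exp_add, avg_univ_eq, sum_neg_distrib,
        ← mul_sum, hss]
      congr 2
      field_simp
      ring
    rw [e]
    refine max_le ?_ (by positivity)
    rw [le_div_iff₀ hs0, mul_comm]
    linarith [Real.add_one_le_exp (s * ((1 - ε) * avg U X - ε - avg univ fun j => X (ω j)))]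
  have h2 : avg U (fun u => Real.exp (-(s' * X u))) ≤ Real.exp (-(s' * (1 - ε) * avg U X)) := by
    have : avg U (fun u => Real.exp (-(s' * X u))) ≤ avg U (fun u => 1 - s' * (1 - ε) * X u) := by
      refine avg_le_avg fun u hu => (exp_neg_le (mul_nonneg hs'0.le (hX u hu).1)).trans ?_
      have h3 : s' * X u ≤ 2 * ε := by
        rw [hs', div_mul_eq_mul_div, div_le_iff₀ hM]
        exact mul_le_mul_of_nonneg_left (hX u hu).2 (by positivity)
      nlinarith [mul_le_mul_of_nonneg_left h3 (mul_nonneg hs'0.le (hX u hu).1)]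
    rw [avg_sub, avg_const hU, avg_mul_left] at this
    linarith [Real.add_one_le_exp (-(s' * (1 - ε) * avg U X))]
  refine (avg_le_avg fun ω _ => h1 ω).trans ?_
  rw [avg_mul_left, avg_piFinset_prod (fun _ : Fin J => U) fun _ u => Real.exp (-(s' * X u)),
    prod_const, card_univ, Fintype.card_fin]
  have h4 := pow_le_pow_left₀ (avg_nonneg fun u _ => (Real.exp_pos _).le) h2 J
  refine (mul_le_mul_of_nonneg_left h4 (by positivity)).trans (le_of_eq ?_)
  rw [← Real.exp_nat_mul, div_mul_eq_mul_div, ← Real.exp_add]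
  congr 2
  rw [hss]
  ring

/-- second moment of an empirical average -/
theorem avg_emp_sq {ι : Type} {A : Finset ι} (hA : A.Nonempty) {l : ℕ} (hl : 1 ≤ l) {q : ℝ}
    (g : ι → ℝ) (hg : ∀ t ∈ A, 0 ≤ g t ∧ g t ≤ q) :
    avg (Fintype.piFinset fun _ : Fin l => A) (fun o => (avg univ fun t => g (o t)) ^ 2)
      ≤ avg A g ^ 2 + q * avg A g / l := by
  have hl' : (0 : ℝ) < l := by exact_mod_cast hl
  have h0 : 0 ≤ avg A g := avg_nonneg fun t ht => (hg t ht).1
  have hq : 0 ≤ q := by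
    obtain ⟨t, ht⟩ := hA
    exact (hg t ht).1.trans (hg t ht).2
  have e : ∀ o : Fin l → ι, (avg univ fun t => g (o t)) ^ 2
      = (∑ t, ∑ t', g (o t) * g (o t')) * (1 / l ^ 2) := by
    intro o
    rw [avg_univ_eq, div_pow, sq (∑ j, g (o j)), sum_mul_sum]
    ring
  have h1 : ∀ t t' : Fin l, avg (Fintype.piFinset fun _ : Fin l => A) (fun o => g (o t) * g (o t'))
      ≤ avg A g ^ 2 + if t = t' then q * avg A g else 0 := by
    intro t t'
    split_ifs with h
    · subst h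
      rw [avg_piFinset_eval (fun _ : Fin l => A) (fun _ => hA) t fun x => g x * g x,
        ← avg_mul_left]
      refine le_add_of_nonneg_of_le (sq_nonneg _) (avg_le_avg fun x hx => ?_)
      exact mul_le_mul_of_nonneg_right (hg x hx).2 (hg x hx).1
    · rw [avg_piFinset_eval₂ (fun _ : Fin l => A) (fun _ => hA) h g g, add_zero, sq]
  simp only [e]
  rw [avg_mul_right, avg_sum]
  simp only [avg_sum]
  refine (mul_le_mul_of_nonneg_right (sum_le_sum fun t _ => sum_le_sum fun t' _ => h1 t t')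
    (by positivity)).trans (le_of_eq ?_)
  simp only [sum_add_distrib, sum_const, card_univ, Fintype.card_fin, nsmul_eq_mul, sum_ite_eq,
    mem_univ, if_true]
  field_simp

theorem sample_ge {ι : Type} {A : Finset ι} (hA : A.Nonempty) {l : ℕ} (hl : 1 ≤ l) {q ε M : ℝ}
    (hM : 0 < M) (hq : q ≤ ε * M * l) (g : ι → ℝ) (hg : ∀ t ∈ A, 0 ≤ g t ∧ g t ≤ q) :
    (1 - ε) * avg A g - avg A g ^ 2 / M ≤
      avg (Fintype.piFinset fun _ : Fin l => A) (fun o => min M (avg univ fun t => g (o t))) := by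
  have hl' : (0 : ℝ) < l := by exact_mod_cast hl
  have h0 : 0 ≤ avg A g := avg_nonneg fun t ht => (hg t ht).1
  have h1 : ∀ x : ℝ, x - x ^ 2 * (1 / M) ≤ min M x := by
    intro x
    refine le_min ?_ (sub_le_self _ (by positivity))
    rw [mul_one_div, sub_le_comm, le_div_iff₀ hM]
    nlinarith [sq_nonneg (x - M), sq_nonneg x, sq_nonneg M]
  refine le_trans ?_ (avg_le_avg fun o _ => h1 _)
  rw [avg_sub, avg_mul_right, avg_emp hA hl]
  have h2 := avg_emp_sq hA hl g hg
  have h3 : q * avg A g / l ≤ ε * M * avg A g := by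
    rw [div_le_iff₀ hl']
    nlinarith [mul_le_mul_of_nonneg_right hq h0]
  have h4 := mul_le_mul_of_nonneg_right (h2.trans (add_le_add le_rfl h3))
    (by positivity : (0 : ℝ) ≤ 1 / M)
  have h5 : (avg A g ^ 2 + ε * M * avg A g) * (1 / M) = avg A g ^ 2 / M + ε * avg A g := by
    field_simp
  linarith

theorem sample_le {ι : Type} {A : Finset ι} (hA : A.Nonempty) {l : ℕ} (hl : 1 ≤ l) (M : ℝ)
    (g : ι → ℝ) :
    avg (Fintype.piFinset fun _ : Fin l => A) (fun o => min M (avg univ fun t => g (o t)))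
      ≤ min M (avg A g) :=
  (avg_min_le _ (pi_nonempty hA l) M _).trans (by rw [avg_emp hA hl])

/-- Young's inequality `ℓ² * ℓ¹ → ℓ²` -/
theorem young (p : SPrime) {ι : Type} (A : Finset ι) (v : ι → GI) {G : ZMod p.1 → ℝ}
    (hG : ∀ a, 0 ≤ G a) (hm : mean p G ≤ 1) :
    ∑ a, (avg A fun t => G (res p (v t) + a)) ^ 2 ≤ p.1 * (p.1 * ∑ c, law p A v c ^ 2) := by
  have hp := p.pos
  have hS : ∑ x, G x ≤ p.1 := by rwa [mean, div_le_one hp] at hm
  have hS0 : 0 ≤ ∑ x, G x := sum_nonneg fun x _ => hG x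
  have h1 : ∀ a, (avg A fun t => G (res p (v t) + a)) ^ 2
      ≤ (∑ x, G x) * ∑ x, G x * law p A v (x - a) ^ 2 := by
    intro a
    rw [← sum_law_mul p A v fun c => G (c + a),
      ← (Equiv.subRight a).sum_comp fun c => law p A v c * G (c + a)]
    refine sum_sq_le_sum_mul_sum_of_sq_le_mul _ (fun x _ => hG x)
      (fun x _ => mul_nonneg (hG x) (sq_nonneg _)) fun x _ => le_of_eq ?_
    simp only [Equiv.subRight_apply, sub_add_cancel]
    ring
  refine (sum_le_sum fun a _ => h1 a).trans ?_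
  rw [← mul_sum, sum_comm]
  have h2 : ∀ x : ZMod p.1, ∑ a, G x * law p A v (x - a) ^ 2 = G x * ∑ c, law p A v c ^ 2 := by
    intro x
    rw [← mul_sum, ← (Equiv.subLeft x).sum_comp fun c => law p A v c ^ 2]
    rfl
  simp only [h2, ← sum_mul]
  have h3 : 0 ≤ ∑ c, law p A v c ^ 2 := sum_nonneg fun c _ => sq_nonneg _
  exact mul_le_mul hS (mul_le_mul_of_nonneg_right hS h3) (mul_nonneg hS0 h3) hp.le

theorem isPath_sub {E : ℕ} {z : ℕ → GI} {n : ℕ} (h : IsPath E z n) (c : GI) :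
    IsPath E (fun t => z t - c) n := fun i hi j hj =>
  ⟨fun e => (h i hi j hj).1 (sub_left_injective e), by
    rw [sub_sub_sub_cancel_right]; exact (h i hi j hj).2⟩

/-- units: a block and `l` sample points in it -/
def UU (B L l : ℕ) : Finset (ℕ × (Fin l → ℕ)) :=
  range B ×ˢ Fintype.piFinset fun _ : Fin l => range L

theorem UU_nonempty {B L : ℕ} (hB : 0 < B) (hL : 0 < L) (l : ℕ) : (UU B L l).Nonempty :=
  (nonempty_range_iff.2 hB.ne').product (pi_nonempty (nonempty_range_iff.2 hL.ne') l)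

/-- truncated sampled visit of a unit -/
noncomputable def XV (p : SPrime) (G : ZMod p.1 → ℝ) (M : ℝ) (v : ℕ → GI) (L : ℕ) {l : ℕ}
    (u : ℕ × (Fin l → ℕ)) (a : ZMod p.1) : ℝ :=
  min M (avg univ fun t => G (res p (v (u.1 * L + u.2 t)) + a))

theorem XV_mem (p : SPrime) {G : ZMod p.1 → ℝ} (hG : ∀ a, 0 ≤ G a) {M : ℝ} (hM : 0 < M)
    (v : ℕ → GI) (L : ℕ) {l : ℕ} (u : ℕ × (Fin l → ℕ)) (a : ZMod p.1) :
    0 ≤ XV p G M v L u a ∧ XV p G M v L u a ≤ M :=
  ⟨le_min hM.le (avg_nonneg fun _ _ => hG _), min_le_left _ _⟩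

theorem XV_ge (p : SPrime) {G : ZMod p.1 → ℝ} {q ε M : ℝ} (hG : ∀ a, 0 ≤ G a ∧ G a ≤ q)
    (hM : 0 < M) (v : ℕ → GI) (B : ℕ) {L l : ℕ} (hL : 0 < L) (hl : 1 ≤ l) (hq : q ≤ ε * M * l)
    (a : ZMod p.1) :
    (1 - ε) * avg (range (B * L)) (fun n => G (res p (v n) + a))
      - avg (range B) (fun β => (avg (range L) fun t => G (res p (v (β * L + t)) + a)) ^ 2) / M
      ≤ avg (UU B L l) fun u => XV p G M v L u a := by
  rw [UU, avg_product, avg_range_mul, div_eq_mul_inv, ← avg_mul_left, ← avg_mul_right, ← avg_sub]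
  refine avg_le_avg fun β _ => ?_
  rw [← div_eq_mul_inv]
  exact sample_ge (nonempty_range_iff.2 hL.ne') hl hM hq (fun t => G (res p (v (β * L + t)) + a))
    fun _ _ => hG _

theorem point (p : SPrime) {G μ : ZMod p.1 → ℝ} {q q' ε M : ℝ} (hG : ∀ a, 0 ≤ G a ∧ G a ≤ q)
    (hm : mean p G ≤ 1) (hM : 0 < M) (hε : 0 < ε) (hε' : ε ≤ 1) (hq' : 0 < q') (v : ℕ → GI) (B : ℕ)
    {L l : ℕ} (hL : 0 < L) (hl : 1 ≤ l) (hq : q ≤ ε * M * l)
    (hμ : ∀ a, 0 ≤ μ a ∧ μ a ≤ q' / p.1) (hμ1 : ∑ a, μ a ≤ 1) (T : ZMod p.1 → ℝ) :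
    (1 - ε) ^ 2 * avg (range (B * L)) (fun n => ∑ c, μ c * G (res p (v n) + c))
      - q' / M * avg (range B) (fun β => p.1 * ∑ c, law p (range L) (fun t => v (β * L + t)) c ^ 2)
      - ε - q' / p.1 * ∑ a, max ((1 - ε) * avg (UU B L l) (fun u => XV p G M v L u a) - ε - T a) 0
      ≤ ∑ a, μ a * T a := by
  have hp := p.pos
  set Φ : ZMod p.1 → ℝ := fun a => avg (range (B * L)) (fun n => G (res p (v n) + a)) with hΦ
  set Q : ZMod p.1 → ℝ := fun a =>
    avg (range B) (fun β => (avg (range L) fun t => G (res p (v (β * L + t)) + a)) ^ 2) with hQ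
  set P : ZMod p.1 → ℝ := fun a =>
    max ((1 - ε) * avg (UU B L l) (fun u => XV p G M v L u a) - ε - T a) 0 with hP
  have h1 : ∀ a, (1 - ε) ^ 2 * (μ a * Φ a) - q' / p.1 / M * Q a - ε * μ a - q' / p.1 * P a
      ≤ μ a * T a := by
    intro a
    have a1 := XV_ge p hG hM v B hL hl hq a
    have a2 : (1 - ε) * avg (UU B L l) (fun u => XV p G M v L u a) - ε - T a ≤ P a :=
      le_max_left _ _
    have a3 : 0 ≤ P a := le_max_right _ _
    have a4 : 0 ≤ Q a / M := div_nonneg (avg_nonneg fun _ _ => sq_nonneg _) hM.le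
    have a5 : (1 - ε) ^ 2 * Φ a - Q a / M - ε - P a ≤ T a := by
      have := mul_le_mul_of_nonneg_left a1 (sub_nonneg.2 hε')
      nlinarith [mul_nonneg hε.le a4]
    have a6 := mul_le_mul_of_nonneg_left a5 (hμ a).1
    have a7 := mul_le_mul_of_nonneg_right (hμ a).2 a3
    have a8 := mul_le_mul_of_nonneg_right (hμ a).2 a4
    have a9 : q' / p.1 / M * Q a = q' / p.1 * (Q a / M) := by ring
    nlinarith
  refine le_trans ?_ (sum_le_sum fun a _ => h1 a)
  simp only [sum_sub_distrib, ← mul_sum]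
  have e1 : avg (range (B * L)) (fun n => ∑ c, μ c * G (res p (v n) + c)) = ∑ a, μ a * Φ a := by
    rw [avg_sum]
    simp only [avg_mul_left, hΦ]
  have e2 : ∑ a, Q a ≤ p.1 * avg (range B)
      (fun β => p.1 * ∑ c, law p (range L) (fun t => v (β * L + t)) c ^ 2) := by
    rw [← avg_mul_left, hQ, ← avg_sum]
    exact avg_le_avg fun β _ => young p (range L) (fun t => v (β * L + t)) (fun a => (hG a).1) hm
  have e3 := mul_le_mul_of_nonneg_left e2 (by positivity : 0 ≤ q' / p.1 / M)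
  have e4 : ∀ x : ℝ, q' / p.1 / M * (p.1 * x) = q' / M * x := fun x => by field_simp
  rw [e4] at e3
  rw [e1]
  nlinarith [mul_le_mul_of_nonneg_left hμ1 hε.le]

/-- one window -/
theorem window {D : ℕ} {S : Finset SPrime} {k' b J l : ℕ} {q q' M ε ε' Lb : ℝ} (hS : S.Nonempty)
    (hb : b ≤ k') (hJ : 1 ≤ J) (hl : 1 ≤ l) (hε : 0 < ε) (hε' : ε ≤ 1) (hM : 0 < M) (hq' : 0 < q')
    (hLb : ∀ z : ℕ → GI, IsPath D z (2 ^ b) →
      avg S (fun p => p.1 * ∑ a, law p (range (2 ^ b)) z a ^ 2) ≤ Lb)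
    (h1 : q' * Lb ≤ ε * M) (h2 : q ≤ ε * M * l)
    (h3 : q' * Real.exp (-(2 * ε * J / M * ε)) ≤ ε * (2 * ε * J / M))
    (hC : UnderC D S k' q q' ε') {G : (p : SPrime) → ZMod p.1 → ℝ} (hG : IsHole S q G)
    {v : ℕ → GI} (hv : IsPath D v (2 ^ k'))
    (μ : (Fin J → ℕ × (Fin l → ℕ)) → (p : SPrime) → ZMod p.1 → ℝ)
    (hμ : ∀ ω, ∀ p ∈ S, (∀ a, 0 ≤ μ ω p a ∧ μ ω p a ≤ q' / p.1) ∧ ∑ a, μ ω p a ≤ 1) :
    (1 - ε) ^ 2 * (avg (Fintype.piFinset fun _ : Fin J => UU (2 ^ (k' - b)) (2 ^ b) l)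
        (fun ω => avg S fun p => mean p (G p) * ∑ a, μ ω p a) - ε') - 3 * ε
      ≤ avg (Fintype.piFinset fun _ : Fin J => UU (2 ^ (k' - b)) (2 ^ b) l)
        fun ω => avg S fun p => ∑ a, μ ω p a * avg univ fun j => XV p (G p) M v (2 ^ b) (ω j) a := by
  have hU : (UU (2 ^ (k' - b)) (2 ^ b) l).Nonempty := UU_nonempty (by positivity) (by positivity) l
  have hΩ := pi_nonempty hU J
  have hBL : 2 ^ (k' - b) * 2 ^ b = 2 ^ k' := by rw [← pow_add, Nat.sub_add_cancel hb]
  have hJ' : (0 : ℝ) < J := by exact_mod_cast hJ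
  refine le_trans ?_ (avg_le_avg fun ω _ => avg_le_avg fun p hp =>
    point p (hG p hp).1 (hG p hp).2 hM hε hε' hq' v (2 ^ (k' - b)) (L := 2 ^ b) (by positivity) hl h2
      (hμ ω p hp).1 (hμ ω p hp).2 fun a => avg univ fun j => XV p (G p) M v (2 ^ b) (ω j) a)
  simp only [avg_sub, avg_mul_left, avg_const hS, avg_const hΩ, hBL]
  have a1 : avg (Fintype.piFinset fun _ : Fin J => UU (2 ^ (k' - b)) (2 ^ b) l)
        (fun ω => avg S fun p => mean p (G p) * ∑ a, μ ω p a) - ε'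
      ≤ avg (Fintype.piFinset fun _ : Fin J => UU (2 ^ (k' - b)) (2 ^ b) l) fun ω => avg S fun p =>
        avg (range (2 ^ k')) fun n => ∑ c, μ ω p c * G p (res p (v n) + c) := by
    rw [← avg_const hΩ ε', ← avg_sub]
    exact avg_le_avg fun ω _ => hC v hv G hG (μ ω) (hμ ω)
  have a2 : (avg S fun p => avg (range (2 ^ (k' - b))) fun β =>
      p.1 * ∑ c, law p (range (2 ^ b)) (fun t => v (β * 2 ^ b + t)) c ^ 2) ≤ Lb := by
    rw [avg_comm]
    refine avg_le_of_le (nonempty_range_iff.2 (by positivity)) fun β hβ => hLb _ (hv.shift _ _ ?_)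
    rw [← hBL, ← Nat.succ_mul]
    exact Nat.mul_le_mul_right _ (mem_range.1 hβ)
  have a3 : avg (Fintype.piFinset fun _ : Fin J => UU (2 ^ (k' - b)) (2 ^ b) l) (fun ω => avg S
      fun p => q' / p.1 * ∑ a, max ((1 - ε) * avg (UU (2 ^ (k' - b)) (2 ^ b) l)
        (fun u => XV p (G p) M v (2 ^ b) u a) - ε
          - avg univ fun j => XV p (G p) M v (2 ^ b) (ω j) a) 0) ≤ ε := by
    rw [avg_comm]
    refine avg_le_of_le hS fun p hp => ?_
    have hp' := p.pos
    rw [avg_mul_left, avg_sum]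
    refine (mul_le_mul_of_nonneg_left (sum_le_sum fun a _ => conc hU hJ hε hM
      (fun u => XV p (G p) M v (2 ^ b) u a) fun u _ =>
        XV_mem p (fun a => ((hG p hp).1 a).1) hM v _ u a) (by positivity)).trans ?_
    rw [sum_const, card_univ, ZMod.card, nsmul_eq_mul, ← mul_assoc, div_mul_cancel₀ _ hp'.ne',
      ← mul_div_assoc, div_le_iff₀ (by positivity)]
    exact h3
  have a4 : q' / M * Lb ≤ ε := by rwa [div_mul_eq_mul_div, div_le_iff₀ hM]
  have a5 := mul_le_mul_of_nonneg_left a2 (by positivity : 0 ≤ q' / M)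
  have a6 := mul_le_mul_of_nonneg_left a1 (sq_nonneg (1 - ε))
  simp only [avg_mul_left] at a5
  linarith

/-- the displacement pattern of a unit inside the window `y` -/
def pat (y : ℕ → GI) (L : ℕ) {l : ℕ} (u : ℕ × (Fin l → ℕ)) : GI × (Fin l → GI) :=
  (y (u.1 * L) - y 0, fun t => y (u.1 * L + u.2 t) - y (u.1 * L))

/-- the statistic determined by a pattern -/
noncomputable def TT (p : SPrime) (G : ZMod p.1 → ℝ) (M : ℝ) {J l : ℕ}
    (c : Fin J → GI × (Fin l → GI)) (a : ZMod p.1) : ℝ :=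
  avg univ fun j => min M (avg univ fun t => G (res p ((c j).1 + (c j).2 t) + a))

theorem TT_pat (p : SPrime) (G : ZMod p.1 → ℝ) (M : ℝ) {J l : ℕ} (y : ℕ → GI) (L : ℕ)
    (ω : Fin J → ℕ × (Fin l → ℕ)) (a : ZMod p.1) :
    TT p G M (fun j => pat y L (ω j)) a = avg univ fun j => XV p G M (fun n => y n - y 0) L (ω j) a := by
  simp only [TT, pat, XV, sub_add_sub_cancel']

theorem pat_mem {D k' b l : ℕ} (hb : b ≤ k') {y : ℕ → GI} (hy : IsPath D y (2 ^ k'))
    {u : ℕ × (Fin l → ℕ)} (hu : u ∈ UU (2 ^ (k' - b)) (2 ^ b) l) :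
    pat y (2 ^ b) u ∈ ball (D * 2 ^ k') ×ˢ Fintype.piFinset fun _ : Fin l => ball (D * 2 ^ b) := by
  have hBL : 2 ^ (k' - b) * 2 ^ b = 2 ^ k' := by rw [← pow_add, Nat.sub_add_cancel hb]
  obtain ⟨h1, h2⟩ := mem_product.1 hu
  have h3 : u.1 * 2 ^ b + 2 ^ b ≤ 2 ^ k' := by
    rw [← hBL, ← Nat.succ_mul]
    exact Nat.mul_le_mul_right _ (mem_range.1 h1)
  have h4 : 0 < 2 ^ b := by positivity
  refine mem_product.2 ⟨hy.sub_mem_ball (by omega) (by omega) (by omega) (by omega),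
    Fintype.mem_piFinset.2 fun t => ?_⟩
  have h5 := mem_range.1 (Fintype.mem_piFinset.1 h2 t)
  exact hy.sub_mem_ball (by omega) (by omega) (by omega) (by omega)

theorem sum_min_law (p : SPrime) (q : ℝ) {ι : Type} {s : Finset ι} (hs : s.Nonempty) (u : ι → GI) :
    ∑ a, min (law p s u a) (q / p.1) = 1 - exc p q s u := by
  rw [← sum_law p hs u, exc, ← sum_sub_distrib]
  refine sum_congr rfl fun a _ => ?_
  rcases le_total (law p s u a) (q / p.1) with h | h
  · rw [min_eq_left h, max_eq_right (sub_nonpos.2 h), sub_zero]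
  · rw [min_eq_right h, max_eq_left (sub_nonneg.2 h), sub_sub_cancel]

theorem exc_nonneg (p : SPrime) (q : ℝ) {ι : Type} (s : Finset ι) (u : ι → GI) :
    0 ≤ exc p q s u := sum_nonneg fun _ _ => le_max_right _ _

end LCore

open LCore in
theorem levelCore : LevelCoreStmt := by
  intro D S k k' b J l q q' M ε ε' w Lb hS hb hk hJ hl hε hε2 hM hq' hq hw hε' hLb h1 h2 h3 hP hC
    z hz G hG
  set n : ℕ := 2 ^ (k - k') with hn
  have hnN : n * 2 ^ k' = 2 ^ k := by rw [hn, ← pow_add, Nat.sub_add_cancel hk]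
  have hBL : 2 ^ (k' - b) * 2 ^ b = 2 ^ k' := by rw [← pow_add, Nat.sub_add_cancel hb]
  have hI : (range n).Nonempty := nonempty_range_iff.2 (by positivity)
  have hU : (UU (2 ^ (k' - b)) (2 ^ b) l).Nonempty := UU_nonempty (by positivity) (by positivity) l
  set Ω := Fintype.piFinset fun _ : Fin J => UU (2 ^ (k' - b)) (2 ^ b) l with hΩdef
  have hΩ : Ω.Nonempty := pi_nonempty hU J
  set y : ℕ → ℕ → GI := fun i t => z (i * 2 ^ k' + t) with hy
  have hyp : ∀ i ∈ range n, IsPath D (y i) (2 ^ k') := fun i hi => hz.shift _ _ (by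
    rw [← hnN, ← Nat.succ_mul]
    exact Nat.mul_le_mul_right _ (mem_range.1 hi))
  set u : ℕ → GI := fun i => z (i * 2 ^ k') with hu
  set C : (Fin J → ℕ × (Fin l → ℕ)) → ℕ → Fin J → GI × (Fin l → GI) :=
    fun ω i j => pat (y i) (2 ^ b) (ω j) with hCdef
  set cls : (Fin J → ℕ × (Fin l → ℕ)) → ℕ → Finset ℕ :=
    fun ω i => (range n).filter fun i' => C ω i' = C ω i with hcls
  set μ : ℕ → (Fin J → ℕ × (Fin l → ℕ)) → (p : SPrime) → ZMod p.1 → ℝ :=
    fun i ω p a => min (law p (cls ω i) u a) (q' / p.1) with hμ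
  have hne : ∀ ω, ∀ i ∈ range n, (cls ω i).Nonempty := fun ω i hi => ⟨i, mem_filter.2 ⟨hi, rfl⟩⟩
  have hsum : ∀ ω, ∀ i ∈ range n, ∀ p, ∑ a, μ i ω p a = 1 - exc p q' (cls ω i) u :=
    fun ω i hi p => sum_min_law p q' (hne ω i hi) u
  have hμ0 : ∀ i ω p a, 0 ≤ μ i ω p a := fun i ω p a =>
    le_min (law_nonneg _ _ _ _) (div_nonneg hq'.le p.pos.le)
  -- the excess is small for every `ω`
  have hexc : ∀ ω ∈ Ω, avg (range n) (fun i => avg S fun p => exc p q' (cls ω i) u) ≤ w := by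
    intro ω hω
    have := hP u (hz.sub _ _ (by positivity) hnN.le) (C ω) (by
      refine (card_le_card (t := Fintype.piFinset fun _ : Fin J => ball (D * 2 ^ k') ×ˢ
        Fintype.piFinset fun _ : Fin l => ball (D * 2 ^ b)) fun c hc => ?_).trans (le_of_eq ?_)
      · simp only [mem_image] at hc
        obtain ⟨i, hi, rfl⟩ := hc
        exact Fintype.mem_piFinset.2 fun j => pat_mem hb (hyp i hi) (Fintype.mem_piFinset.1 hω j)
      · simp [Fintype.card_piFinset, card_ball])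
    convert this
  -- upper bound of the statistic along the path
  have hup : avg Ω (fun ω => avg (range n) fun i => avg S fun p =>
        TT p (G p) M (C ω i) (res p (u i)))
      ≤ avg S (fun p => avg (range (2 ^ (k - b))) (fun β =>
        min M (avg (range (2 ^ b)) (fun t => G p (res p (z (β * 2 ^ b + t))))))) := by
    have e : 2 ^ (k - b) = n * 2 ^ (k' - b) := by
      rw [hn, ← pow_add]
      congr 1
      omega
    rw [avg_comm, avg_congr fun i _ => avg_comm _ _ _, avg_comm, e]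
    refine avg_le_avg fun p _ => ?_
    rw [avg_range_mul]
    refine avg_le_avg fun i _ => ?_
    simp only [hCdef, TT_pat]
    rw [avg_emp hU hJ fun x => XV p (G p) M (fun t => y i t - y i 0) (2 ^ b) x (res p (u i)), UU,
      avg_product]
    refine avg_le_avg fun β _ => ?_
    refine (sample_le (nonempty_range_iff.2 (by positivity)) hl M fun t =>
      G p (res p (y i (β * 2 ^ b + t) - y i 0) + res p (u i))).trans (le_of_eq ?_)
    congr 2
    funext t
    rw [← map_add, hy, hu]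
    simp only [add_zero, sub_add_cancel]
    rw [add_mul, mul_assoc, hBL, add_assoc]
  -- resampling inside the classes
  have hres : ∀ ω, avg (range n) (fun i => avg S fun p => ∑ a, μ i ω p a * TT p (G p) M (C ω i) a)
      ≤ avg (range n) fun i => avg S fun p => TT p (G p) M (C ω i) (res p (u i)) := by
    intro ω
    rw [avg_comm, avg_comm (range n)]
    refine avg_le_avg fun p hp => ?_
    rw [avg_class (range n) (C ω) fun c i => TT p (G p) M c (res p (u i))]
    refine avg_le_avg fun i _ => ?_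
    have := sum_law_mul p (cls ω i) u (TT p (G p) M (C ω i))
    refine le_trans (sum_le_sum fun a _ => mul_le_mul_of_nonneg_right (min_le_left _ _) ?_)
      (this.le.trans (le_of_eq ?_))
    · exact avg_nonneg fun j _ => le_min hM.le (avg_nonneg fun _ _ => ((hG p hp).1 _).1)
    · congr 1
      ext i'
      simp only [hcls, mem_filter]
  -- the windows
  have hwin : ∀ i ∈ range n,
      (1 - ε) ^ 2 * (avg S (fun p => mean p (G p))
        - avg Ω (fun ω => avg S fun p => exc p q' (cls ω i) u) - ε') - 3 * ε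
      ≤ avg Ω fun ω => avg S fun p => ∑ a, μ i ω p a * TT p (G p) M (C ω i) a := by
    intro i hi
    have := window hS hb hJ hl hε (by linarith) hM hq' hLb h1 h2 h3 hC hG
      (isPath_sub (hyp i hi) (y i 0)) (μ i) fun ω p _ =>
        ⟨fun a => ⟨hμ0 i ω p a, min_le_right _ _⟩, by
          rw [hsum ω i hi]
          exact sub_le_self _ (exc_nonneg _ _ _ _)⟩
    simp only [hCdef, TT_pat]
    refine le_trans (sub_le_sub_right (mul_le_mul_of_nonneg_left (sub_le_sub_right ?_ _)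
      (sq_nonneg _)) _) this
    rw [← avg_const hΩ (avg S fun p => mean p (G p)), ← avg_sub]
    refine avg_le_avg fun ω _ => ?_
    rw [← avg_sub]
    refine avg_le_avg fun p hp => ?_
    rw [hsum ω i hi]
    nlinarith [mul_le_mul_of_nonneg_right (hG p hp).2 (exc_nonneg p q' (cls ω i) u)]
  have a1 := avg_le_avg hwin
  rw [avg_comm (range n) Ω] at a1
  have a2 := (avg_le_avg fun ω (_ : ω ∈ Ω) => hres ω).trans hup
  have a3 := avg_le_of_le hΩ hexc
  rw [avg_comm] at a3
  simp only [avg_sub, avg_mul_left, avg_const hI] at a1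
  have hm : avg S (fun p => mean p (G p)) ≤ 1 := avg_le_of_le hS fun p hp => (hG p hp).2
  have a4 := mul_le_mul_of_nonneg_left a3 (sq_nonneg (1 - ε))
  have a5 : 0 ≤ ε * (2 - ε) * (1 - (avg S (fun p => mean p (G p)) - w - ε')) :=
    mul_nonneg (mul_nonneg hε.le (by linarith)) (by linarith)
  nlinarith [sq_nonneg ε]

end Crest.Agent.R2
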