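import Crest.Agent.R2.Basic

set_option autoImplicit false

open Finset
open scoped Pointwise Classical

namespace Crest.Agent.R2

namespace Mult

section field
variable {F : Type} [Field F] [DecidableEq F]

/-- `{a ∈ 2H | c i * a ∈ 2H for all i < r}` with `H = A - A`. -/
noncomputable def Iset (A : Finset F) (c : ℕ → ℕ) (r : ℕ) : Finset F :=
  ((A - A) + (A - A)).filter (fun a => ∀ i < r, (c i : F) * a ∈ (A - A) + (A - A))

/-- `|H - c I|`. -/
noncomputable def Nn (A I : Finset F) (c : F) : ℕ := ((A - A) - I.image (fun a => c * a)).card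

theorem mem_Iset {A : Finset F} {c : ℕ → ℕ} {r : ℕ} {a : F} :
    a ∈ Iset A c r ↔ a ∈ (A - A) + (A - A) ∧ ∀ i < r, (c i : F) * a ∈ (A - A) + (A - A) := by
  unfold Iset; exact mem_filter

theorem pr {A : Finset F} (hA : A.Nonempty) {K : ℝ} (hK : (#(A - A) : ℝ) ≤ K * #A) (m n : ℕ) :
    (#(m • A - n • A) : ℝ) ≤ K ^ (m + n) * #A := by
  have h := Finset.pluennecke_ruzsa_inequality_nsmul_sub_nsmul_sub hA A m n
  have h' : ((#(m • A - n • A) : ℚ≥0) : ℝ) ≤
      (((#(A - A) / #A : ℚ≥0) ^ (m + n) * #A : ℚ≥0) : ℝ) := by exact_mod_cast h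
  push_cast at h'
  refine h'.trans ?_
  gcongr
  rw [div_le_iff₀ (by exact_mod_cast hA.card_pos)]; exact hK

theorem card_H2 {A : Finset F} (hA : A.Nonempty) {K : ℝ} (hK : (#(A - A) : ℝ) ≤ K * #A) :
    (#((A - A) + (A - A)) : ℝ) ≤ K ^ 4 * #A := by
  have e : (A - A) + (A - A) = 2 • A - 2 • A := by
    simp only [sub_eq_add_neg, ← neg_nsmul]
    generalize -A = B
    abel
  rw [e]; exact pr hA hK 2 2

theorem card_H3 {A : Finset F} (hA : A.Nonempty) {K : ℝ} (hK : (#(A - A) : ℝ) ≤ K * #A) :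
    (#((A - A) + ((A - A) + (A - A))) : ℝ) ≤ K ^ 6 * #A := by
  have e : (A - A) + ((A - A) + (A - A)) = 3 • A - 3 • A := by
    simp only [sub_eq_add_neg, ← neg_nsmul]
    generalize -A = B
    abel
  rw [e]; exact pr hA hK 3 3

theorem exists_cover {A : Finset F} (hA : A.Nonempty) {K : ℝ} (hK : (#(A - A) : ℝ) ≤ K * #A) :
    ∃ X : Finset F, (#X : ℝ) ≤ K ^ 9 ∧
      ((A - A) + (A - A)) + ((A - A) + (A - A)) ⊆ X + (A - A) := by
  have e : (((A - A) + (A - A)) + ((A - A) + (A - A))) + A = 5 • A - 4 • A := by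
    simp only [sub_eq_add_neg, ← neg_nsmul]
    generalize -A = B
    abel
  have h : (#((((A - A) + (A - A)) + ((A - A) + (A - A))) + A) : ℝ) ≤ K ^ 9 * #A := by
    rw [e]; exact pr hA hK 5 4
  obtain ⟨X, -, h1, h2⟩ := Finset.ruzsa_covering_add hA h
  exact ⟨X, h1, h2⟩

theorem zero_mem_H {A : Finset F} (hA : A.Nonempty) : (0 : F) ∈ A - A := by
  obtain ⟨a, ha⟩ := hA
  simpa using sub_mem_sub ha ha

theorem neg_mem_H {A : Finset F} {h : F} (hh : h ∈ A - A) : -h ∈ A - A := by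
  obtain ⟨a, ha, b, hb, rfl⟩ := mem_sub.1 hh
  simpa using sub_mem_sub hb ha

theorem sub_mem_H2 {A : Finset F} {h h' : F} (hh : h ∈ A - A) (hh' : h' ∈ A - A) :
    h - h' ∈ (A - A) + (A - A) := by
  rw [sub_eq_add_neg h h']; exact add_mem_add hh (neg_mem_H hh')

theorem neg_mem_H2 {A : Finset F} {h : F} (hh : h ∈ (A - A) + (A - A)) :
    -h ∈ (A - A) + (A - A) := by
  obtain ⟨a, ha, b, hb, rfl⟩ := mem_add.1 hh
  rw [neg_add]; exact add_mem_add (neg_mem_H ha) (neg_mem_H hb)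

theorem H_sub_H2 {A : Finset F} (hA : A.Nonempty) {h : F} (hh : h ∈ A - A) :
    h ∈ (A - A) + (A - A) := by
  simpa using add_mem_add hh (zero_mem_H hA)

/-- covering by representatives of signature classes -/
theorem cover_of_sig {σ : Type} (S I : Finset F) (Sg : Finset σ) (f : F → σ)
    (hf : ∀ z ∈ S, f z ∈ Sg) (hI : ∀ z ∈ S, ∀ z' ∈ S, f z = f z' → z - z' ∈ I) :
    ∃ Y : Finset F, #Y ≤ #Sg ∧ S ⊆ Y + I := by
  refine ⟨Sg.image (Function.invFunOn f S), card_image_le, fun z hz => ?_⟩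
  have h1 : ∃ a ∈ (S : Set F), f a = f z := ⟨z, hz, rfl⟩
  have h2 := Function.invFunOn_mem h1
  have h3 := Function.invFunOn_eq h1
  refine mem_add.2 ⟨_, mem_image_of_mem _ (hf z hz), z - Function.invFunOn f S (f z),
    hI z hz _ h2 h3.symm, by ring⟩

theorem cover_I {A : Finset F} (hA : A.Nonempty) {K : ℝ} (hK : (#(A - A) : ℝ) ≤ K * #A)
    (c : ℕ → ℕ) (r : ℕ) :
    ∃ Y : Finset F, (#Y : ℝ) ≤ K ^ (9 * (r + 1)) ∧ Iset A c r + Iset A c r ⊆ Y + Iset A c r := by
  obtain ⟨X, hX, hc⟩ := exists_cover hA hK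
  have hg : ∀ z : F, ∃ x : F, z ∈ ((A - A) + (A - A)) + ((A - A) + (A - A)) →
      x ∈ X ∧ z - x ∈ A - A := by
    intro z
    by_cases hz : z ∈ ((A - A) + (A - A)) + ((A - A) + (A - A))
    · obtain ⟨x, hx, h, hh, rfl⟩ := mem_add.1 (hc hz)
      exact ⟨x, fun _ => ⟨hx, by simpa using hh⟩⟩
    · exact ⟨0, fun h => absurd h hz⟩
  choose g hg using hg
  have hd : ∀ z ∈ ((A - A) + (A - A)) + ((A - A) + (A - A)),
      ∀ z' ∈ ((A - A) + (A - A)) + ((A - A) + (A - A)), g z = g z' →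
      z - z' ∈ (A - A) + (A - A) := by
    intro z hz z' hz' e
    have := sub_mem_H2 (hg z hz).2 (hg z' hz').2
    rw [e] at this
    simpa using this
  have hm : ∀ z ∈ Iset A c r + Iset A c r, z ∈ ((A - A) + (A - A)) + ((A - A) + (A - A)) ∧
      ∀ i < r, (c i : F) * z ∈ ((A - A) + (A - A)) + ((A - A) + (A - A)) := by
    intro z hz
    obtain ⟨a, ha, b, hb, rfl⟩ := mem_add.1 hz
    rw [mem_Iset] at ha hb
    refine ⟨add_mem_add ha.1 hb.1, fun i hi => ?_⟩
    rw [mul_add]; exact add_mem_add (ha.2 i hi) (hb.2 i hi)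
  obtain ⟨Y, hY, hs⟩ := cover_of_sig (Iset A c r + Iset A c r) (Iset A c r)
    (X ×ˢ Fintype.piFinset (fun _ : Fin r => X))
    (fun z => (g z, fun i : Fin r => g ((c i : F) * z)))
    (fun z hz => mem_product.2 ⟨(hg _ (hm z hz).1).1,
      Fintype.mem_piFinset.2 fun i => (hg _ ((hm z hz).2 i i.2)).1⟩)
    (fun z hz z' hz' e => by
      have e1 : g z = g z' := congrArg Prod.fst e
      have e2 := congrArg Prod.snd e
      refine mem_Iset.2 ⟨hd z (hm z hz).1 z' (hm z' hz').1 e1, fun i hi => ?_⟩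
      rw [mul_sub]
      exact hd _ ((hm z hz).2 i hi) _ ((hm z' hz').2 i hi) (congrFun e2 ⟨i, hi⟩))
  refine ⟨Y, ?_, hs⟩
  have h1 : (#Y : ℝ) ≤ (#X : ℝ) ^ (r + 1) := by
    rw [card_product, Fintype.card_piFinset] at hY
    simp only [prod_const, card_univ, Fintype.card_fin] at hY
    rw [pow_succ']; exact_mod_cast hY
  refine h1.trans ?_
  rw [pow_mul]
  gcongr

theorem card_I_add {A : Finset F} (hA : A.Nonempty) {K : ℝ} (hK : (#(A - A) : ℝ) ≤ K * #A)
    (c : ℕ → ℕ) (r : ℕ) :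
    (#(Iset A c r + Iset A c r) : ℝ) ≤ K ^ (9 * (r + 1)) * #(Iset A c r) := by
  obtain ⟨Y, hY, hs⟩ := cover_I hA hK c r
  have h1 : #(Iset A c r + Iset A c r) ≤ #Y * #(Iset A c r) :=
    (card_le_card hs).trans card_add_le
  calc (#(Iset A c r + Iset A c r) : ℝ) ≤ #Y * #(Iset A c r) := by exact_mod_cast h1
    _ ≤ _ := by gcongr

/-- doubling the multiplier -/
theorem Nn_double {A : Finset F} (hA : A.Nonempty) {K : ℝ} (hK : (#(A - A) : ℝ) ≤ K * #A)
    (c : ℕ → ℕ) (r x : ℕ) :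
    (Nn A (Iset A c r) (x : F) : ℝ) ≤ K ^ (9 * (r + 2)) * Nn A (Iset A c r) ((x / 2 : ℕ) : F) := by
  obtain ⟨X, hX, hc⟩ := exists_cover hA hK
  obtain ⟨Y, hY, hs⟩ := cover_I hA hK c r
  have hsub : (A - A) - (Iset A c r).image (fun a => (x : F) * a) ⊆
      (X - Y.image (fun a => ((x / 2 : ℕ) : F) * a)) +
        ((A - A) - (Iset A c r).image (fun a => ((x / 2 : ℕ) : F) * a)) := by
    intro z hz
    obtain ⟨h, hh, w, hw, rfl⟩ := mem_sub.1 hz
    obtain ⟨a, ha, rfl⟩ := mem_image.1 hw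
    obtain ⟨y, hy, b, hb, e1⟩ := mem_add.1 (hs (add_mem_add ha ha))
    have h4 : h - ((x % 2 : ℕ) : F) * a ∈ ((A - A) + (A - A)) + ((A - A) + (A - A)) := by
      rcases Nat.mod_two_eq_zero_or_one x with e | e
      · rw [e]
        simpa using add_mem_add (H_sub_H2 hA hh) (H_sub_H2 hA (zero_mem_H hA))
      · rw [e, Nat.cast_one, one_mul, sub_eq_add_neg h a]
        exact add_mem_add (H_sub_H2 hA hh) (neg_mem_H2 (mem_Iset.1 ha).1)
    obtain ⟨x', hx', h', hh', e2⟩ := mem_add.1 (hc h4)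
    refine mem_add.2 ⟨_, sub_mem_sub hx' (mem_image_of_mem _ hy), _,
      sub_mem_sub hh' (mem_image_of_mem _ hb), ?_⟩
    have e3 : (x : F) = 2 * ((x / 2 : ℕ) : F) + ((x % 2 : ℕ) : F) := by
      conv_lhs => rw [← Nat.div_add_mod x 2]
      push_cast; ring
    rw [e3]
    linear_combination e2 - ((x / 2 : ℕ) : F) * e1
  have h1 : Nn A (Iset A c r) (x : F) ≤ #X * #Y * Nn A (Iset A c r) ((x / 2 : ℕ) : F) := by
    refine (card_le_card hsub).trans (card_add_le.trans ?_)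
    unfold Nn
    gcongr
    exact card_sub_le.trans (Nat.mul_le_mul_left _ card_image_le)
  have hK0 : 0 ≤ K ^ 9 := le_trans (Nat.cast_nonneg _) hX
  calc (Nn A (Iset A c r) (x : F) : ℝ) ≤ #X * #Y * Nn A (Iset A c r) ((x / 2 : ℕ) : F) := by
        exact_mod_cast h1
    _ ≤ K ^ 9 * K ^ (9 * (r + 1)) * Nn A (Iset A c r) ((x / 2 : ℕ) : F) := by gcongr
    _ = _ := by ring

theorem Nn_zero {A : Finset F} (I : Finset F) : Nn A I ((0 : ℕ) : F) ≤ #(A - A) := by
  refine card_le_card fun z hz => ?_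
  obtain ⟨h, hh, w, hw, rfl⟩ := mem_sub.1 hz
  obtain ⟨a, ha, rfl⟩ := mem_image.1 hw
  simpa using hh

/-- Ruzsa-type triangle inequality -/
theorem card_mul_Nn {A I J : Finset F} (x : F) (hJ : J ⊆ I)
    (hx : ∀ b ∈ J, x * b ∈ (A - A) + (A - A)) :
    #J * Nn A I x ≤ #((A - A) + ((A - A) + (A - A))) * #(I + I) := by
  have hg : ∀ z : F, ∃ y : F × F, z ∈ (A - A) - I.image (fun a => x * a) →
      y.1 ∈ A - A ∧ y.2 ∈ I ∧ z = y.1 - x * y.2 := by
    intro z
    by_cases hz : z ∈ (A - A) - I.image (fun a => x * a)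
    · obtain ⟨h, hh, w, hw, rfl⟩ := mem_sub.1 hz
      obtain ⟨a, ha, rfl⟩ := mem_image.1 hw
      exact ⟨(h, a), fun _ => ⟨hh, ha, rfl⟩⟩
    · exact ⟨0, fun h => absurd h hz⟩
  choose g hg using hg
  unfold Nn
  rw [← card_product, ← card_product]
  refine card_le_card_of_injOn (fun y => ((g y.2).1 + x * y.1, (g y.2).2 + y.1)) ?_ ?_
  · intro y hy
    obtain ⟨h1, h2⟩ := mem_product.1 (mem_coe.1 hy)
    obtain ⟨h3, h4, -⟩ := hg _ h2
    exact mem_coe.2 (mem_product.2 ⟨add_mem_add h3 (hx _ h1), add_mem_add h4 (hJ h1)⟩)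
  · intro y hy y' hy' e
    obtain ⟨-, h2⟩ := mem_product.1 (mem_coe.1 hy)
    obtain ⟨-, h2'⟩ := mem_product.1 (mem_coe.1 hy')
    have e1 : (g y.2).1 + x * y.1 = (g y'.2).1 + x * y'.1 := congrArg Prod.fst e
    have e2 : (g y.2).2 + y.1 = (g y'.2).2 + y'.1 := congrArg Prod.snd e
    have e3 : y.2 = y'.2 := by
      rw [(hg _ h2).2.2, (hg _ h2').2.2]
      linear_combination e1 - x * e2
    rw [e3] at e2
    exact Prod.ext (add_left_cancel e2) e3

omit [Field F] in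
/-- Cauchy-Schwarz: size of the image versus number of collisions -/
theorem sq_card_le {ι : Type} (s : Finset ι) (f : ι → F) :
    #s ^ 2 ≤ #(s.image f) * #((s ×ˢ s).filter (fun y => f y.1 = f y.2)) := by
  have h1 : #s = ∑ b ∈ s.image f, #(s.filter (fun a => f a = b)) := card_eq_sum_card_image f s
  have h2 : #((s ×ˢ s).filter (fun y => f y.1 = f y.2)) =
      ∑ b ∈ s.image f, #(s.filter (fun a => f a = b)) ^ 2 := by
    rw [card_eq_sum_card_fiberwise (f := fun y : ι × ι => f y.1) (t := s.image f)]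
    · refine sum_congr rfl fun b _ => ?_
      rw [sq, ← card_product]
      congr 1
      ext y
      simp only [mem_filter, mem_product]
      constructor
      · rintro ⟨⟨⟨h1, h2⟩, h3⟩, h4⟩
        exact ⟨⟨h1, h4⟩, h2, h3 ▸ h4⟩
      · rintro ⟨⟨h1, h2⟩, h3, h4⟩
        exact ⟨⟨⟨h1, h3⟩, h2.trans h4.symm⟩, h2⟩
    · intro y hy
      exact mem_coe.2 (mem_image_of_mem _ (mem_product.1 (mem_filter.1 (mem_coe.1 hy)).1).1)
  rw [h2]
  conv_lhs => rw [h1]
  exact sq_sum_le_card_mul_sum_sq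

theorem sum_energy_le [Fintype F] (s : Finset (F × F)) :
    ∑ c : F, #((s ×ˢ s).filter (fun y => y.1.1 - c * y.1.2 = y.2.1 - c * y.2.2)) ≤
      #s ^ 2 + Fintype.card F * #s := by
  simp only [card_filter]
  rw [sum_comm, sum_product]
  have h : ∀ y ∈ s, ∑ y' ∈ s, ∑ c : F, (if y.1 - c * y.2 = y'.1 - c * y'.2 then 1 else 0) ≤
      #s + Fintype.card F := by
    intro y hy
    have h2 : ∀ y' ∈ s, ∑ c : F, (if y.1 - c * y.2 = y'.1 - c * y'.2 then 1 else 0) ≤
        1 + if y' = y then Fintype.card F else 0 := by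
      intro y' _
      rw [← card_filter]
      by_cases e : y' = y
      · simp only [e, if_true]
        exact (card_le_univ _).trans (by omega)
      · simp only [e, if_false, add_zero]
        refine card_le_one.2 fun c hc c' hc' => ?_
        have e1 := (mem_filter.1 hc).2
        have e2 := (mem_filter.1 hc').2
        by_contra hne
        have e3 : (c - c') * (y.2 - y'.2) = 0 := by linear_combination e2 - e1
        have e4 : y.2 = y'.2 := sub_eq_zero.1 ((mul_eq_zero.1 e3).resolve_left (sub_ne_zero.2 hne))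
        apply e
        refine Prod.ext ?_ e4.symm
        rw [e4] at e1
        linear_combination -e1
    refine (sum_le_sum h2).trans ?_
    rw [sum_add_distrib, sum_ite_eq']
    simp [hy]
  refine (sum_le_sum h).trans (le_of_eq ?_)
  rw [sum_const, smul_eq_mul]; ring

/-- few multipliers are non-expanding -/
theorem card_good_le [Fintype F] {A I : Finset F} {Θ : ℝ} (hΘ : 0 < Θ)
    (h : 16 * Θ ≤ #(A - A) * #I) :
    (#(univ.filter (fun c : F => (Nn A I c : ℝ) ≤ Θ)) : ℝ) ≤ Θ + Fintype.card F / 16 := by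
  obtain ⟨s, hs⟩ : ∃ s : Finset (F × F), s = (A - A) ×ˢ I := ⟨_, rfl⟩
  have hsc : (#s : ℝ) = #(A - A) * #I := by rw [hs, card_product]; push_cast; rfl
  rw [← hsc] at h
  obtain ⟨G, hG⟩ : ∃ G : Finset F, G = univ.filter (fun c : F => (Nn A I c : ℝ) ≤ Θ) := ⟨_, rfl⟩
  rw [← hG]
  have h1 : ∀ c ∈ G, (#s : ℝ) ^ 2 ≤
      Θ * #((s ×ˢ s).filter (fun y => y.1.1 - c * y.1.2 = y.2.1 - c * y.2.2)) := by
    intro c hc
    have h2 := sq_card_le s (fun y => y.1 - c * y.2)
    have h3 : s.image (fun y => y.1 - c * y.2) ⊆ (A - A) - I.image (fun a => c * a) := by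
      intro z hz
      obtain ⟨y, hy, rfl⟩ := mem_image.1 hz
      rw [hs] at hy
      exact sub_mem_sub (mem_product.1 hy).1 (mem_image_of_mem _ (mem_product.1 hy).2)
    have h4 : (#(s.image (fun y => y.1 - c * y.2)) : ℝ) ≤ Θ := by
      rw [hG] at hc
      refine le_trans ?_ (mem_filter.1 hc).2
      exact_mod_cast card_le_card h3
    calc (#s : ℝ) ^ 2 ≤ #(s.image (fun y => y.1 - c * y.2)) *
          #((s ×ˢ s).filter (fun y => y.1.1 - c * y.1.2 = y.2.1 - c * y.2.2)) := by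
          exact_mod_cast h2
      _ ≤ _ := by gcongr
  have h2 := sum_le_sum h1
  rw [sum_const, nsmul_eq_mul, ← mul_sum] at h2
  have h3 : ∑ c ∈ G, (#((s ×ˢ s).filter (fun y => y.1.1 - c * y.1.2 = y.2.1 - c * y.2.2)) : ℝ) ≤
      #s ^ 2 + Fintype.card F * #s := by
    have := (sum_le_sum_of_subset (subset_univ G)).trans (sum_energy_le s)
    exact_mod_cast this
  have h4 : (#G : ℝ) * #s ^ 2 ≤ Θ * (#s ^ 2 + Fintype.card F * #s) :=
    h2.trans (mul_le_mul_of_nonneg_left h3 hΘ.le)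
  have hs0 : (0 : ℝ) < #s := by linarith
  have hq : (0 : ℝ) ≤ Fintype.card F := Nat.cast_nonneg _
  generalize (#s : ℝ) = m at *
  generalize (Fintype.card F : ℝ) = q at *
  generalize (#G : ℝ) = g at *
  have h5 : g * m ^ 2 ≤ (Θ + q / 16) * m ^ 2 := by
    have : q * m * (16 * Θ) ≤ q * m * m := mul_le_mul_of_nonneg_left h (by positivity)
    nlinarith
  exact le_of_mul_le_mul_right h5 (by positivity)

omit [DecidableEq F] in
/-- a set all of whose differences lie in `I` -/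
theorem card_le_of_diff {B I : Finset F} (h : ∀ a ∈ B, ∀ b ∈ B, a - b ∈ I) : #B ≤ #I := by
  rcases B.eq_empty_or_nonempty with rfl | ⟨b, hb⟩
  · simp
  refine card_le_card_of_injOn (fun a => a - b) (fun a ha => h a ha b hb) ?_
  intro a _ a' _ e
  exact sub_left_injective e

theorem card_sub_image_le {A B I : Finset F} (hA : A.Nonempty) (x : F)
    (h : ∀ a ∈ B, ∀ b ∈ B, a - b ∈ I) : #(A - B.image (fun a => x * a)) ≤ Nn A I x := by
  rcases B.eq_empty_or_nonempty with rfl | ⟨b, hb⟩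
  · simp
  obtain ⟨a0, ha0⟩ := hA
  refine card_le_card_of_injOn (fun z => z - (a0 - x * b)) ?_ ?_
  · intro z hz
    obtain ⟨a, ha, w, hw, rfl⟩ := mem_sub.1 (mem_coe.1 hz)
    obtain ⟨b', hb', rfl⟩ := mem_image.1 hw
    refine mem_coe.2 (mem_sub.2 ⟨a - a0, sub_mem_sub ha ha0, _,
      mem_image_of_mem _ (h b' hb' b hb), ?_⟩)
    ring
  · intro a _ a' _ e
    exact sub_left_injective e

theorem Iset_congr {A : Finset F} {c c' : ℕ → ℕ} {r : ℕ} (h : ∀ i < r, c i = c' i) :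
    Iset A c r = Iset A c' r := by
  ext a
  simp only [mem_Iset]
  refine and_congr_right fun _ => forall_congr' fun i => forall_congr' fun hi => ?_
  rw [h i hi]

theorem Iset_succ_subset {A : Finset F} (c : ℕ → ℕ) (r : ℕ) : Iset A c (r + 1) ⊆ Iset A c r :=
  fun _ ha => mem_Iset.2 ⟨(mem_Iset.1 ha).1, fun i hi => (mem_Iset.1 ha).2 i (by omega)⟩

/-- the shrinking step -/
theorem card_succ_le {A : Finset F} (hA : A.Nonempty) {K : ℝ} (hK : (#(A - A) : ℝ) ≤ K * #A)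
    (c : ℕ → ℕ) (r x : ℕ) {Θ : ℝ} (hx : x / 2 = c r) (h : Θ ≤ Nn A (Iset A c r) (x : F)) :
    (#(Iset A c (r + 1)) : ℝ) * Θ ≤ K ^ (18 * r + 33) * #A * #(Iset A c r) := by
  have h1 := Nn_double hA hK c r x
  rw [hx] at h1
  have h2 := card_mul_Nn (A := A) (c r : F) (Iset_succ_subset c r)
    (fun b hb => (mem_Iset.1 hb).2 r (by omega))
  have h3 := card_H3 hA hK
  have h4 := card_I_add hA hK c r
  have hK0 : 0 ≤ K := by
    have : (0 : ℝ) < #A := by exact_mod_cast hA.card_pos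
    by_contra hn
    have h5 : K * #A < 0 := mul_neg_of_neg_of_pos (not_le.1 hn) this
    have : (0 : ℝ) ≤ #(A - A) := Nat.cast_nonneg _
    linarith
  calc (#(Iset A c (r + 1)) : ℝ) * Θ
      ≤ #(Iset A c (r + 1)) * (K ^ (9 * (r + 2)) * Nn A (Iset A c r) (c r : F)) := by
        gcongr; exact h.trans h1
    _ = K ^ (9 * (r + 2)) * ((#(Iset A c (r + 1)) * Nn A (Iset A c r) (c r : F) : ℕ) : ℝ) := by
        push_cast; ring
    _ ≤ K ^ (9 * (r + 2)) * ((#((A - A) + ((A - A) + (A - A))) *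
          #(Iset A c r + Iset A c r) : ℕ) : ℝ) := by gcongr
    _ ≤ K ^ (9 * (r + 2)) * ((K ^ 6 * #A) * (K ^ (9 * (r + 1)) * #(Iset A c r))) := by
        push_cast; gcongr
    _ = _ := by ring

/-- a large `I` makes `|H| |I|` large -/
theorem large_I {A : Finset F} (hA : A.Nonempty) {K : ℝ} (hK1 : 1 ≤ K)
    (hK : (#(A - A) : ℝ) ≤ K * #A) (c : ℕ → ℕ) (r : ℕ) {Θ : ℝ} (hΘ : 0 ≤ Θ)
    (h : 4 * K ^ 3 * √Θ ≤ #(Iset A c r)) : 16 * Θ ≤ #(A - A) * #(Iset A c r) := by
  have h1 : (#(Iset A c r) : ℝ) ≤ K ^ 4 * #(A - A) := by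
    have h2 : (#(Iset A c r) : ℝ) ≤ #((A - A) + (A - A)) := by
      exact_mod_cast card_le_card (filter_subset _ _)
    have h3 : (#A : ℝ) ≤ #(A - A) := by exact_mod_cast card_le_card_sub_right hA
    refine h2.trans ((card_H2 hA hK).trans ?_)
    gcongr
  generalize (#(Iset A c r) : ℝ) = m at *
  generalize (#(A - A) : ℝ) = H at *
  have hs := Real.sq_sqrt hΘ
  have hs0 := Real.sqrt_nonneg Θ
  have hm : 0 ≤ m := le_trans (by positivity) h
  have h2 : (4 * K ^ 3 * √Θ) ^ 2 ≤ m ^ 2 := pow_le_pow_left₀ (by positivity) h 2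
  have h3 : m ^ 2 ≤ K ^ 4 * (H * m) := by nlinarith
  have h4 : K ^ 4 * (16 * Θ) ≤ (4 * K ^ 3 * √Θ) ^ 2 := by
    rw [mul_pow, hs]
    have : K ^ 4 ≤ K ^ 6 := pow_le_pow_right₀ hK1 (by norm_num)
    nlinarith
  exact le_of_mul_le_mul_left (h4.trans (h2.trans h3)) (by positivity)

end field

theorem exists_chain (good : ℕ → Prop) (h0 : good 0) (B : ℕ) :
    ∀ x, x < 2 ^ B → ¬ good x → ∃ i < B, ¬ good (x / 2 ^ i) ∧ good (x / 2 ^ i / 2) := by
  induction B with
  | zero => intro x hx hg; obtain rfl : x = 0 := by omega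
            exact absurd h0 hg
  | succ B ih =>
    intro x hx hg
    by_cases h : good (x / 2)
    · exact ⟨0, by omega, by simpa using hg, by simpa using h⟩
    · obtain ⟨i, hi, h1, h2⟩ := ih (x / 2) (by rw [pow_succ] at hx; omega) h
      have e : x / 2 / 2 ^ i = x / 2 ^ (i + 1) := by rw [Nat.div_div_eq_div_mul, pow_succ']
      rw [e] at h1 h2
      exact ⟨i + 1, by omega, h1, h2⟩

theorem log_bound {P : ℕ} (hP : 2 ≤ P) :
    (8 / 3 : ℝ) * (Nat.log 2 P + 1 : ℕ) ≤ 10 * Real.log P := by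
  have h1 : 2 ^ Nat.log 2 P ≤ P := Nat.pow_log_le_self 2 (by omega)
  have h2 : 1 ≤ Nat.log 2 P := by
    have := Nat.log_pos (b := 2) (by norm_num) hP
    omega
  have h3 : (Nat.log 2 P : ℝ) * Real.log 2 ≤ Real.log P := by
    rw [← Real.log_pow]
    exact Real.log_le_log (by positivity) (by exact_mod_cast h1)
  have h4 := Real.log_two_gt_d9
  have h5 : (1 : ℝ) ≤ Nat.log 2 P := by exact_mod_cast h2
  push_cast
  nlinarith

/-- the pigeonhole selection of the next multiplier -/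
theorem select {ι : Type} (T : Finset ι) {P : ℕ} (hP : 2 ≤ P) (good : ι → ℕ → Prop)
    (done : ι → Prop) (h0 : ∀ p ∈ T, good p 0)
    (h1 : ∀ p ∈ T, ¬ done p → 4 * #((range P).filter (fun x => good p x)) ≤ P) :
    ∃ T' ⊆ T, (#T : ℝ) ≤ 10 * Real.log P * #T' ∧ ∃ y ≤ P, ∀ p ∈ T', good p y ∧
      (done p ∨ ∃ x, x / 2 = y ∧ ¬ good p x) := by
  have hl := log_bound hP
  have hsplit := card_filter_add_card_filter_not (s := T) (fun p => done p)
  by_cases hd : #T ≤ 2 * #(T.filter (fun p => done p))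
  · refine ⟨T.filter (fun p => done p), filter_subset _ _, ?_, 0, by omega, fun p hp =>
      ⟨h0 p (mem_filter.1 hp).1, Or.inl (mem_filter.1 hp).2⟩⟩
    have h2 : (#T : ℝ) ≤ 2 * #(T.filter (fun p => done p)) := by exact_mod_cast hd
    have h3 : (2 : ℝ) ≤ 10 * Real.log P := by
      refine le_trans ?_ hl
      have : (0 : ℝ) ≤ Nat.log 2 P := Nat.cast_nonneg _
      push_cast; linarith
    exact h2.trans (mul_le_mul_of_nonneg_right h3 (Nat.cast_nonneg _))
  obtain ⟨U, hU⟩ : ∃ U, U = T.filter (fun p => ¬ done p) := ⟨_, rfl⟩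
  rw [← hU] at hsplit
  have hUT : #T ≤ 2 * #U := by omega
  have hUm : ∀ p ∈ U, p ∈ T ∧ ¬ done p := fun p hp => by rw [hU] at hp; exact mem_filter.1 hp
  -- double counting
  have h2 : ∑ x ∈ range P, 4 * #(U.filter (fun p => good p x)) ≤ ∑ _x ∈ range P, #U := by
    have e : ∑ x ∈ range P, 4 * #(U.filter (fun p => good p x)) =
        ∑ p ∈ U, 4 * #((range P).filter (fun x => good p x)) := by
      simp only [card_filter, mul_sum]
      exact sum_comm
    rw [e]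
    refine (sum_le_sum fun p hp => h1 p (hUm p hp).1 (hUm p hp).2).trans (le_of_eq ?_)
    simp [mul_comm]
  obtain ⟨x, hx, hx2⟩ := exists_le_of_sum_le ⟨0, mem_range.2 (by omega)⟩ h2
  have hsplit2 := card_filter_add_card_filter_not (s := U) (fun p => good p x)
  obtain ⟨W, hW⟩ : ∃ W, W = U.filter (fun p => ¬ good p x) := ⟨_, rfl⟩
  rw [← hW] at hsplit2
  have hWU : 3 * #U ≤ 4 * #W := by omega
  have hWm : ∀ p ∈ W, p ∈ U ∧ ¬ good p x := fun p hp => by rw [hW] at hp; exact mem_filter.1 hp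
  obtain ⟨B, hB⟩ : ∃ B, B = Nat.log 2 P + 1 := ⟨_, rfl⟩
  rw [← hB] at hl
  have hxB : x < 2 ^ B := by
    have := Nat.lt_pow_succ_log_self (b := 2) (by norm_num) P
    have := mem_range.1 hx
    rw [hB]; omega
  have h3 : ∑ _i ∈ range B, #W ≤
      ∑ i ∈ range B, B * #(W.filter (fun p => ¬ good p (x / 2 ^ i) ∧ good p (x / 2 ^ i / 2))) := by
    rw [← mul_sum, sum_const, card_range, smul_eq_mul]
    refine Nat.mul_le_mul_left _ (le_trans (card_le_card ?_) card_biUnion_le)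
    intro p hp
    obtain ⟨i, hi, h⟩ := exists_chain (good p) (h0 p (hUm p (hWm p hp).1).1) B x hxB (hWm p hp).2
    exact mem_biUnion.2 ⟨i, mem_range.2 hi, mem_filter.2 ⟨hp, h⟩⟩
  obtain ⟨i, -, hi⟩ := exists_le_of_sum_le ⟨0, mem_range.2 (by omega)⟩ h3
  refine ⟨W.filter (fun p => ¬ good p (x / 2 ^ i) ∧ good p (x / 2 ^ i / 2)),
    fun p hp => (hUm p (hWm p (mem_filter.1 hp).1).1).1, ?_, x / 2 ^ i / 2, ?_, fun p hp =>
      ⟨(mem_filter.1 hp).2.2, Or.inr ⟨_, rfl, (mem_filter.1 hp).2.1⟩⟩⟩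
  · generalize #(W.filter (fun p => ¬ good p (x / 2 ^ i) ∧ good p (x / 2 ^ i / 2))) = m at hi ⊢
    have h4 : 3 * #T ≤ 8 * (B * m) := by omega
    have h5 : (3 : ℝ) * #T ≤ 8 * (B * m) := by exact_mod_cast h4
    have h6 := mul_le_mul_of_nonneg_right hl (Nat.cast_nonneg m)
    linarith
  · have := mem_range.1 hx
    have h7 : x / 2 ^ i ≤ x := Nat.div_le_self _ _
    omega

theorem card_range_good {P : ℕ} (p : SPrime) (hp : P ≤ p.1) (g : ZMod p.1 → Prop) :
    #((range P).filter (fun x : ℕ => g (x : ZMod p.1))) ≤ #(univ.filter (fun c => g c)) := by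
  refine card_le_card_of_injOn (fun x : ℕ => (x : ZMod p.1)) ?_ ?_
  · intro x hx
    exact mem_coe.2 (mem_filter.2 ⟨mem_univ _, (mem_filter.1 (mem_coe.1 hx)).2⟩)
  · intro x hx y hy e
    have h1 := mem_range.1 (mem_filter.1 (mem_coe.1 hx)).1
    have h2 := mem_range.1 (mem_filter.1 (mem_coe.1 hy)).1
    have := (ZMod.natCast_eq_natCast_iff' x y p.1).1 e
    rwa [Nat.mod_eq_of_lt (by omega), Nat.mod_eq_of_lt (by omega)] at this

theorem invariant (P : ℕ) (T : Finset SPrime) (A : (p : SPrime) → Finset (ZMod p.1))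
    (K v a0 : ℝ) (hP : 2 ≤ P) (hT : InScale P T) (hK : 1 ≤ K) (hv : 0 < v) (hv' : v ≤ 1 / 16)
    (ha : K * a0 ≤ v)
    (hA : ∀ p ∈ T, (A p).Nonempty ∧ (((A p) - (A p)).card : ℝ) ≤ K * (A p).card ∧
      ((A p).card : ℝ) ≤ p.1 * a0) (R : ℕ) :
    ∃ T' ⊆ T, (T.card : ℝ) ≤ (10 * Real.log P) ^ R * T'.card ∧ ∃ c : ℕ → ℕ, (∀ i, c i ≤ P) ∧
      ∀ p ∈ T', (∀ r < R, (Nn (A p) (Iset (A p) c r) (c r : ZMod p.1) : ℝ) ≤ p.1 * v) ∧
        (#(Iset (A p) c R) : ℝ) ≤
          max (K ^ (60 * (R + 1) ^ 2) * (p.1 * a0) * (a0 / v) ^ R) (4 * K ^ 3 * √(p.1 * v)) := by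
  induction R with
  | zero =>
    refine ⟨T, Subset.rfl, by simp, fun _ => 0, fun _ => Nat.zero_le _, fun p hp =>
      ⟨fun r hr => by omega, le_trans ?_ (le_max_left _ _)⟩⟩
    obtain ⟨h1, h2, h3⟩ := hA p hp
    have h4 : (#(Iset (A p) (fun _ => 0) 0) : ℝ) ≤ #((A p - A p) + (A p - A p)) := by
      exact_mod_cast card_le_card (filter_subset _ _)
    refine h4.trans ((card_H2 h1 h2).trans ?_)
    rw [pow_zero, mul_one]
    exact mul_le_mul (pow_le_pow_right₀ hK (by norm_num)) h3 (Nat.cast_nonneg _) (by positivity)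
  | succ R ih =>
    obtain ⟨T1, hT1, hc1, c, hc, hI⟩ := ih
    obtain ⟨T', hT', hc', y, hy, hs⟩ := select T1 hP
      (fun p x => (Nn (A p) (Iset (A p) c R) (x : ZMod p.1) : ℝ) ≤ p.1 * v)
      (fun p => (#(Iset (A p) c R) : ℝ) ≤ 4 * K ^ 3 * √(p.1 * v))
      (fun p hp => by
        obtain ⟨h1, h2, h3⟩ := hA p (hT1 hp)
        have h4 : (Nn (A p) (Iset (A p) c R) ((0 : ℕ) : ZMod p.1) : ℝ) ≤ #(A p - A p) := by
          exact_mod_cast Nn_zero _
        have hp0 := p.pos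
        calc _ ≤ _ := h4
          _ ≤ K * #(A p) := h2
          _ ≤ K * (p.1 * a0) := by gcongr
          _ = p.1 * (K * a0) := by ring
          _ ≤ _ := by gcongr)
      (fun p hp hd => by
        obtain ⟨h1, h2, h3⟩ := hA p (hT1 hp)
        have hp0 := p.pos
        have h4 := large_I h1 hK h2 c R (Θ := p.1 * v) (by positivity) (not_le.1 hd).le
        have h5 := card_good_le (A := A p) (I := Iset (A p) c R) (by positivity) h4
        have h6 := card_range_good p (hT p (hT1 hp)).1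
          (fun x => (Nn (A p) (Iset (A p) c R) x : ℝ) ≤ p.1 * v)
        have h7 : (p.1 : ℝ) ≤ 2 * P := by exact_mod_cast (hT p (hT1 hp)).2
        rw [ZMod.card] at h5
        have h8 : (p.1 : ℝ) * v ≤ p.1 / 16 := by nlinarith
        have h9 : (4 : ℝ) * #((range P).filter (fun x : ℕ =>
            (Nn (A p) (Iset (A p) c R) (x : ZMod p.1) : ℝ) ≤ p.1 * v)) ≤ P := by
          have h10 : (#((range P).filter (fun x : ℕ =>
            (Nn (A p) (Iset (A p) c R) (x : ZMod p.1) : ℝ) ≤ p.1 * v)) : ℝ) ≤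
              p.1 * v + p.1 / 16 := by
            refine le_trans ?_ h5
            convert (Nat.cast_le (α := ℝ)).2 h6
          linarith
        exact_mod_cast h9)
    have hlog : 0 ≤ 10 * Real.log P := by
      have := Real.log_natCast_nonneg P
      positivity
    refine ⟨T', hT'.trans hT1, ?_, Function.update c R y, fun i => ?_, fun p hp => ?_⟩
    · calc (#T : ℝ) ≤ (10 * Real.log P) ^ R * #T1 := hc1
        _ ≤ (10 * Real.log P) ^ R * (10 * Real.log P * #T') := by gcongr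
        _ = _ := by ring
    · by_cases e : i = R
      · subst e; simpa using hy
      · simpa [e] using hc i
    have hcg : ∀ r ≤ R, Iset (A p) (Function.update c R y) r = Iset (A p) c r := fun r hr =>
      Iset_congr fun i hi => Function.update_of_ne (by omega) _ _
    obtain ⟨h1, h2, h3⟩ := hA p (hT1 (hT' hp))
    obtain ⟨h4, h5⟩ := hI p (hT' hp)
    obtain ⟨h6, h7⟩ := hs p hp
    have hp0 := p.pos
    refine ⟨fun r hr => ?_, ?_⟩
    · rw [hcg r (by omega)]
      by_cases e : r = R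
      · subst e; simpa using h6
      · rw [Function.update_of_ne e]; exact h4 r (by omega)
    have hsub : (#(Iset (A p) (Function.update c R y) (R + 1)) : ℝ) ≤ #(Iset (A p) c R) := by
      rw [← hcg R le_rfl]
      exact_mod_cast card_le_card (Iset_succ_subset _ _)
    by_cases hd : (#(Iset (A p) c R) : ℝ) ≤ 4 * K ^ 3 * √(p.1 * v)
    · exact hsub.trans (hd.trans (le_max_right _ _))
    obtain ⟨x, hx, hx2⟩ := h7.resolve_left hd
    have h8 : (#(Iset (A p) c R) : ℝ) ≤ K ^ (60 * (R + 1) ^ 2) * (p.1 * a0) * (a0 / v) ^ R :=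
      (le_max_iff.1 h5).resolve_right hd
    have h9 := card_succ_le h1 h2 (Function.update c R y) R x (Θ := p.1 * v) (by simpa using hx)
      (by rw [hcg R le_rfl]; exact (not_le.1 hx2).le)
    rw [hcg R le_rfl] at h9
    refine le_trans ?_ (le_max_left _ _)
    have ha0 : 0 ≤ a0 := by
      have : (0 : ℝ) ≤ p.1 * a0 := le_trans (Nat.cast_nonneg _) h3
      exact nonneg_of_mul_nonneg_right this hp0
    have hK0 : 0 ≤ K := by linarith
    have h10 : K ^ (18 * R + 33) * K ^ (60 * (R + 1) ^ 2) ≤ K ^ (60 * (R + 1 + 1) ^ 2) := by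
      rw [← pow_add]
      have : 18 * R + 33 + 60 * (R + 1) ^ 2 ≤ 60 * (R + 1 + 1) ^ 2 := by
        have e : 60 * (R + 1 + 1) ^ 2 = 60 * (R + 1) ^ 2 + (120 * R + 180) := by ring
        omega
      exact pow_le_pow_right₀ hK this
    refine le_of_mul_le_mul_right (h9.trans ?_) (mul_pos hp0 hv)
    calc K ^ (18 * R + 33) * #(A p) * #(Iset (A p) c R)
        ≤ K ^ (18 * R + 33) * (p.1 * a0) *
          (K ^ (60 * (R + 1) ^ 2) * (p.1 * a0) * (a0 / v) ^ R) := by gcongr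
      _ = (K ^ (18 * R + 33) * K ^ (60 * (R + 1) ^ 2)) *
          ((p.1 * a0) * (a0 / v) ^ (R + 1) * (p.1 * v)) := by
          rw [pow_succ (a0 / v)]; field_simp
      _ ≤ K ^ (60 * (R + 1 + 1) ^ 2) * ((p.1 * a0) * (a0 / v) ^ (R + 1) * (p.1 * v)) := by
          gcongr
      _ = _ := by ring

theorem fibre_diff (p : SPrime) {A : Finset (ZMod p.1)} (hA : A.Nonempty) (c : ℕ → ℕ) (r : ℕ)
    (s : ℕ → ZMod p.1) : ∀ a ∈ fibre p A c r s, ∀ b ∈ fibre p A c r s, a - b ∈ Iset A c r := by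
  intro a ha b hb
  simp only [fibre, mem_filter] at ha hb
  refine mem_Iset.2 ⟨H_sub_H2 hA (sub_mem_sub ha.1 hb.1), fun i hi => H_sub_H2 hA ?_⟩
  have := sub_mem_sub (ha.2 i hi) (hb.2 i hi)
  convert this using 1
  ring

end Mult

theorem multipliers : MultStmt := by
  intro P R T A K v a0 hP hT hK hv hv' ha hA
  obtain ⟨T', hT', hc', c, hc, hI⟩ := Mult.invariant P T A K v a0 hP hT hK hv hv' ha hA R
  refine ⟨T', hT', hc', c, hc, fun p hp s => ?_⟩
  obtain ⟨h1, h2, h3⟩ := hA p (hT' hp)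
  obtain ⟨h4, h5⟩ := hI p hp
  refine ⟨fun r hr => le_trans ?_ (h4 r hr), ?_⟩
  · exact_mod_cast Mult.card_sub_image_le h1 _ (Mult.fibre_diff p h1 c r s)
  have h6 : (#(fibre p (A p) c R s) : ℝ) ≤ #(Mult.Iset (A p) c R) := by
    exact_mod_cast Mult.card_le_of_diff (Mult.fibre_diff p h1 c R s)
  refine h6.trans (h5.trans ?_)
  have hp0 := p.pos
  rw [mul_max_of_nonneg _ _ hp0.le]
  refine max_le_max (le_of_eq (by ring)) ?_
  have hP0 : (0 : ℝ) < P := by positivity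
  have hPp : (P : ℝ) ≤ p.1 := by exact_mod_cast (hT p (hT' hp)).1
  have h7 : √(p.1 * v) ≤ p.1 * √(v / P) := by
    rw [← Real.sqrt_sq hp0.le, ← Real.sqrt_mul (sq_nonneg _), Real.sqrt_sq hp0.le]
    apply Real.sqrt_le_sqrt
    rw [sq, mul_assoc, ← mul_div_assoc]
    gcongr
    rw [le_div_iff₀ hP0, mul_comm]
    gcongr
  have hK0 : 0 ≤ K := by linarith
  calc 4 * K ^ 3 * √(p.1 * v) ≤ 4 * K ^ 3 * (p.1 * √(v / P)) := by gcongr
    _ = _ := by ring

end Crest.Agent.R2
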