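import Crest.Agent.R2.Basic

/-! # Row 2: iterating the entropy decrement step -/

set_option autoImplicit false

open Finset
open scoped Pointwise Classical

namespace Crest.Agent.R2

namespace NoPathAux

theorem mul_le_pow (n : ℕ) : 499999 * n ≤ (2 ^ n) ^ 1000002 := by
  rw [← pow_mul]
  have : n * 1000002 < 2 ^ (n * 1000002) := Nat.lt_two_pow_self
  exact le_trans (by omega) this.le

theorem iter (hS : StepStmt) (hP : PrimesStmt) (hPhi : PhiStmt) (D : ℕ) (hD : 1 ≤ D) (i : ℕ) :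
    ∃ (k : ℕ) (S : Finset SPrime) (K0 B : ℕ), ∀ K ≥ K0, ∀ z : ℕ → GI, IsPath D z (2 ^ K + 1) →
      (∀ p ∈ upto B, ∀ t ≤ 2 ^ K, res p (z t) ≠ 0) →
      phi z K k S ≤ Real.log ((2 * D + 1) ^ 2) - i * (1 / 10 ^ 24) := by
  induction i with
  | zero =>
    refine ⟨0, ∅, 0, 0, fun K _ z hz _ => ?_⟩
    simpa using hPhi.2.1 D z K 0 ∅ (Nat.zero_le K) hz
  | succ i ih =>
    obtain ⟨k, S, K0, B, ih⟩ := ih
    obtain ⟨n0, hn0⟩ := hS D hD
    obtain ⟨n, hn, hgood⟩ := hP (max n0 (max k ⌈∑ p ∈ S, Real.log p.1⌉₊))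
    have h1 : n0 ≤ n := le_trans (le_max_left _ _) hn
    have h2 : k ≤ n := le_trans (le_trans (le_max_left _ _) (le_max_right _ _)) hn
    have h3 : ⌈∑ p ∈ S, Real.log p.1⌉₊ ≤ n :=
      le_trans (le_trans (le_max_right _ _) (le_max_right _ _)) hn
    obtain ⟨u, hu⟩ : ∃ u, u = 2 ^ n := ⟨_, rfl⟩
    have h4 : ∑ p ∈ S, Real.log p.1 ≤ (u : ℝ) ^ 999999 := by
      have e1 : n ≤ u := by rw [hu]; exact Nat.lt_two_pow_self.le
      have e2 : u ≤ u ^ 999999 := Nat.le_self_pow (by norm_num) u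
      exact (Nat.ceil_le.1 (h3.trans (e1.trans e2))).trans (by rw [Nat.cast_pow])
    refine ⟨u ^ 500009, S ∪ upto (2 * u ^ 1000001), max K0 (u ^ 1000002),
      max B (2 * u ^ 1000001), fun K hK z hz hres => ?_⟩
    have k1 : K0 ≤ K := le_trans (le_max_left _ _) hK
    have k2 : u ^ 1000002 ≤ K := le_trans (le_max_right _ _) hK
    have a1 := hn0 n h1 u hu hgood S h4 K k2 z hz
      (fun p hp => hres p (mem_upto.2 ((mem_upto.1 hp).trans (le_max_right _ _))))
    have a2 := ih K k1 z hz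
      (fun p hp => hres p (mem_upto.2 ((mem_upto.1 hp).trans (le_max_left _ _))))
    have a3 := hPhi.2.2.1 z K k (499999 * n) S (by omega)
      (le_trans (by rw [hu]; exact mul_le_pow n) k2)
    push_cast
    linarith

end NoPathAux

theorem noPath (hS : StepStmt) (hP : PrimesStmt) (hPhi : PhiStmt) : NoPathStmt := by
  intro D
  obtain ⟨i, hi⟩ := exists_nat_gt (Real.log ((2 * (D + 1 : ℕ) + 1) ^ 2) * 10 ^ 24)
  obtain ⟨k, S, K0, B, h⟩ := NoPathAux.iter hS hP hPhi (D + 1) (by omega) i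
  refine ⟨2 ^ K0 + 1, B, fun z hz => ?_⟩
  by_contra hc
  push Not at hc
  have h1 := h K0 le_rfl z (hz.mono_left (Nat.le_succ D))
    (fun p hp t ht => hc p hp t (Nat.lt_succ_of_le ht))
  have h2 := hPhi.1 z K0 k S
  linarith

end Crest.Agent.R2
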