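import Crest.Agent.R2.Entropy

/-! Row 2: the entropy functionals `phi` and `psi`. -/

set_option autoImplicit false

open Finset
open scoped Pointwise Classical

namespace Crest.Agent.R2

namespace Phi

theorem tele (z : ℕ → GI) (a a' m : ℕ)
    (h : ∀ t < m, z (a + t + 1) - z (a + t) = z (a' + t + 1) - z (a' + t)) :
    z (a + m) - z a = z (a' + m) - z a' := by
  induction m with
  | zero => simp
  | succ m ih =>
    have h1 := ih (fun t ht => h t (by omega))
    have h2 := h m (by omega)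
    rw [← add_assoc, ← add_assoc]
    linear_combination h1 + h2

theorem resAt_shift {S : Finset SPrime} {v v' w w' : GI} (h : resAt S v = resAt S v')
    (hd : w - v = w' - v') : resAt S w = resAt S w' := by
  funext p
  have h1 := congrFun h p
  unfold resAt at h1 ⊢
  by_cases hp : p ∈ S
  · simp only [hp, if_true] at h1 ⊢
    have h2 := congrArg (res p) hd
    rw [map_sub, map_sub] at h2
    linear_combination h1 + h2
  · simp [hp]

theorem resAt_mono {S S' : Finset SPrime} (hS : S ⊆ S') {v v' : GI}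
    (h : resAt S' v = resAt S' v') : resAt S v = resAt S v' := by
  funext p
  have h1 := congrFun h p
  unfold resAt at h1 ⊢
  by_cases hp : p ∈ S
  · simpa only [hp, hS hp, if_true] using h1
  · simp [hp]

theorem incr_eq_iff (z : ℕ → GI) (l i i' : ℕ) : incr z l i = incr z l i' ↔
    ∀ t < 2 ^ l, z (i * 2 ^ l + t + 1) - z (i * 2 ^ l + t) =
      z (i' * 2 ^ l + t + 1) - z (i' * 2 ^ l + t) :=
  ⟨fun h t ht => congrFun h ⟨t, ht⟩, fun h => funext fun t => h t t.2⟩

/-- if the pieces before `e` agree then the steps up to time `e * 2 ^ l` agree -/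
theorem steps_of_pieces (z : ℕ → GI) (l n n' e : ℕ)
    (h : ∀ e' < e, incr z l (n + e') = incr z l (n' + e')) :
    ∀ t < e * 2 ^ l, z (n * 2 ^ l + t + 1) - z (n * 2 ^ l + t) =
      z (n' * 2 ^ l + t + 1) - z (n' * 2 ^ l + t) := by
  intro t ht
  have hp : 0 < 2 ^ l := by positivity
  have h1 := (incr_eq_iff z l _ _).1 (h (t / 2 ^ l) ((Nat.div_lt_iff_lt_mul hp).2 ht))
    (t % 2 ^ l) (Nat.mod_lt _ hp)
  have e1 : ∀ m : ℕ, (m + t / 2 ^ l) * 2 ^ l + t % 2 ^ l = m * 2 ^ l + t := fun m => by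
    rw [add_mul, add_assoc, Nat.div_add_mod']
  rwa [e1, e1] at h1

theorem pow_split {l l' : ℕ} (h : l ≤ l') : 2 ^ (l' - l) * 2 ^ l = 2 ^ l' := by
  rw [← pow_add, Nat.sub_add_cancel h]

theorem mul_pow_split {l l' : ℕ} (h : l ≤ l') (i : ℕ) :
    i * 2 ^ (l' - l) * 2 ^ l = i * 2 ^ l' := by
  rw [mul_assoc, pow_split h]

/-- the pieces of length `2 ^ l` of the window of length `2 ^ l'` -/
def pieces (z : ℕ → GI) (l l' i : ℕ) : Fin (2 ^ (l' - l)) → Fin (2 ^ l) → GI :=
  fun e => incr z l (i * 2 ^ (l' - l) + e)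

theorem cH_incr_le_pieces (z : ℕ → GI) {l l' : ℕ} (h : l ≤ l') (s : Finset ℕ) {β : Type}
    (g : ℕ → β) : cH s (incr z l') g ≤ cH s (pieces z l l') g := by
  refine cH_mono_left fun i _ i' _ _ hF => ?_
  rw [incr_eq_iff]
  have := steps_of_pieces z l (i * 2 ^ (l' - l)) (i' * 2 ^ (l' - l)) (2 ^ (l' - l))
    (fun e' he' => congrFun hF ⟨e', he'⟩)
  rwa [mul_pow_split h, mul_pow_split h, pow_split h] at this

/-- entropy of the `e`-th piece given the residues at its start -/
noncomputable def pieceH (z : ℕ → GI) (K l l' : ℕ) (S : Finset SPrime) (e : ℕ) : ℝ :=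
  cH (range (2 ^ (K - l'))) (fun i => incr z l (i * 2 ^ (l' - l) + e))
    (fun i => resAt S (z ((i * 2 ^ (l' - l) + e) * 2 ^ l)))

theorem avg_pieceH_le (z : ℕ → GI) {K l l' : ℕ} (h : l ≤ l') (h' : l' ≤ K) (S : Finset SPrime) :
    avg (range (2 ^ (l' - l))) (pieceH z K l l' S) ≤ 2 ^ l * phi z K l S := by
  have h1 := cH_range_mul (2 ^ (K - l')) (2 ^ (l' - l)) (incr z l)
    (fun i => resAt S (z (i * 2 ^ l)))
  have e : 2 ^ (K - l') * 2 ^ (l' - l) = 2 ^ (K - l) := by
    rw [← pow_add]; congr 1; omega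
  rw [e] at h1
  unfold phi
  rw [mul_div_cancel₀ _ (by positivity)]
  exact h1

theorem phi_anti (z : ℕ → GI) {K l l' : ℕ} (S : Finset SPrime) (h : l ≤ l') (h' : l' ≤ K) :
    phi z K l' S ≤ phi z K l S := by
  have h1 := cH_incr_le_pieces z h (range (2 ^ (K - l'))) (fun i => resAt S (z (i * 2 ^ l')))
  have h2 := cH_pi_le (s := range (2 ^ (K - l'))) (pieces z l l')
    (fun i => resAt S (z (i * 2 ^ l')))
    (fun e i => resAt S (z ((i * 2 ^ (l' - l) + e) * 2 ^ l))) (by
      intro e i _ i' _ hg hF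
      refine resAt_shift hg ?_
      have h3 := tele z _ _ _ (steps_of_pieces z l (i * 2 ^ (l' - l)) (i' * 2 ^ (l' - l)) e
        (fun e' he' => hF ⟨e', he'.trans e.2⟩ he'))
      rw [mul_pow_split h, mul_pow_split h] at h3
      rw [add_mul, add_mul, mul_pow_split h, mul_pow_split h]
      exact h3)
  have h3 : ∑ e : Fin (2 ^ (l' - l)), cH (range (2 ^ (K - l'))) (fun i => pieces z l l' i e)
      (fun i => resAt S (z ((i * 2 ^ (l' - l) + e) * 2 ^ l))) =
      ∑ e ∈ range (2 ^ (l' - l)), pieceH z K l l' S e :=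
    Fin.sum_univ_eq_sum_range (pieceH z K l l' S) _
  have h4 := avg_pieceH_le z h h' S
  unfold avg at h4
  rw [card_range, div_le_iff₀ (by positivity)] at h4
  have h5 : (2 : ℝ) ^ l' = 2 ^ l * ((2 ^ (l' - l) : ℕ) : ℝ) := by
    rw [mul_comm]; exact_mod_cast (pow_split h).symm
  conv_lhs => unfold phi
  rw [div_le_iff₀ (by positivity), h5]
  linarith

theorem phi_le (D : ℕ) (z : ℕ → GI) {K l : ℕ} (S : Finset SPrime) (h : l ≤ K)
    (hz : IsPath D z (2 ^ K + 1)) : phi z K l S ≤ Real.log ((2 * D + 1) ^ 2) := by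
  have h1 := cH_le_log_card (s := range (2 ^ (K - l))) (f := incr z l)
    (fun i => resAt S (z (i * 2 ^ l))) (Fintype.piFinset fun _ => ball (D * 1)) (by
      intro i hi
      rw [Fintype.mem_piFinset]
      intro t
      have hi' : (i + 1) * 2 ^ l ≤ 2 ^ K := by
        rw [← pow_split h]
        exact Nat.mul_le_mul_right _ (mem_range.1 hi)
      have ht := t.2
      rw [add_mul, one_mul] at hi'
      exact hz.sub_mem_ball (by omega) (by omega) (by omega) (by omega))
  rw [Fintype.card_piFinset, prod_const, card_univ, Fintype.card_fin, card_ball, mul_one,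
    Nat.cast_pow, Real.log_pow] at h1
  unfold phi
  rw [div_le_iff₀ (by positivity)]
  push_cast at h1
  linarith

/-! ### the upper bound for `psi` -/

theorem piece_start {k1 b l1 : ℕ} (h1 : l1 ≤ b) (h2 : b ≤ k1) (i β o : ℕ) :
    (i * 2 ^ (k1 - l1) + (β * 2 ^ (b - l1) + o)) * 2 ^ l1 =
      i * 2 ^ k1 + β * 2 ^ b + o * 2 ^ l1 := by
  rw [add_mul, add_mul, mul_pow_split (h1.trans h2), mul_pow_split h1, add_assoc]

theorem samp_le (D : ℕ) (z : ℕ → GI) {K k1 b l1 r : ℕ} (S : Finset SPrime) (h1 : l1 ≤ b)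
    (h2 : b ≤ k1) (h3 : k1 ≤ K) (hz : IsPath D z (2 ^ K + 1)) {ω : ℕ × (Fin r → ℕ)}
    (hω : ω ∈ omega k1 b l1 r) :
    cH (range (2 ^ (K - k1))) (samp z k1 b l1 r ω) (fun i => resAt S (z (i * 2 ^ k1))) ≤
      Real.log ((2 * (D * 2 ^ k1) + 1) ^ 2) + r * Real.log ((2 * (D * 2 ^ b) + 1) ^ 2) +
        ∑ j, pieceH z K l1 k1 S (ω.1 * 2 ^ (b - l1) + ω.2 j) := by
  obtain ⟨β, o⟩ := ω
  obtain ⟨hβ, ho⟩ := mem_product.1 hω
  have hβ' : (β + 1) * 2 ^ b ≤ 2 ^ k1 := by
    rw [← pow_split h2]; exact Nat.mul_le_mul_right _ (mem_range.1 hβ)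
  have ho' : ∀ j, (o j + 1) * 2 ^ l1 ≤ 2 ^ b := fun j => by
    rw [← pow_split h1]
    exact Nat.mul_le_mul_right _ (mem_range.1 (Fintype.mem_piFinset.1 ho j))
  have hi' : ∀ i ∈ range (2 ^ (K - k1)), (i + 1) * 2 ^ k1 ≤ 2 ^ K := fun i hi => by
    rw [← pow_split h3]; exact Nat.mul_le_mul_right _ (mem_range.1 hi)
  have p1 : 0 < 2 ^ b := by positivity
  have p2 : 0 < 2 ^ l1 := by positivity
  set s := range (2 ^ (K - k1)) with hs
  set g : ℕ → (p : SPrime) → ZMod p.1 := fun i => resAt S (z (i * 2 ^ k1)) with hg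
  set d0 : ℕ → GI := fun i => z (i * 2 ^ k1 + β * 2 ^ b) - z (i * 2 ^ k1) with hd0
  set d : Fin r → ℕ → GI := fun j i =>
    z (i * 2 ^ k1 + β * 2 ^ b + o j * 2 ^ l1) - z (i * 2 ^ k1 + β * 2 ^ b) with hd
  set w : Fin r → ℕ → Fin (2 ^ l1) → GI := fun j i =>
    incr z l1 (i * 2 ^ (k1 - l1) + (β * 2 ^ (b - l1) + o j)) with hw
  have a1 : cH s (samp z k1 b l1 r (β, o)) g ≤
      cH s (fun i => (d0 i, fun j => (d j i, w j i))) g := by
    refine cH_mono_left fun i _ i' _ _ hF => ?_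
    obtain ⟨e0, e1⟩ := Prod.ext_iff.1 hF
    funext j t
    obtain ⟨e2, e3⟩ := Prod.ext_iff.1 (congrFun e1 j)
    have e4 := (incr_eq_iff z l1 _ _).1 e3
    rw [piece_start h1 h2, piece_start h1 h2] at e4
    have e5 := tele z _ _ t (fun t' ht' => e4 t' (by have := t.2; omega))
    simp only [hd0, hd] at e0 e2
    simp only [samp]
    linear_combination e0 + e2 + e5
  have a2 := cH_chain s d0 (fun i j => (d j i, w j i)) g
  have a3 : cH s d0 g ≤ Real.log ((2 * (D * 2 ^ k1) + 1) ^ 2) := by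
    have := cH_le_log_card (s := s) (f := d0) g (ball (D * 2 ^ k1)) (fun i hi => by
      have := hi' i hi
      rw [add_mul, one_mul] at this hβ'
      exact hz.sub_mem_ball (by omega) (by omega) (by omega) (by omega))
    rw [card_ball] at this
    exact_mod_cast this
  have a4 := cH_pi_le (s := s) (fun i j => (d j i, w j i)) (fun i => (d0 i, g i))
    (fun _ i => (d0 i, g i)) (fun _ _ _ _ _ h _ => h)
  have a5 : ∀ j, cH s (fun i => (d j i, w j i)) (fun i => (d0 i, g i)) ≤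
      Real.log ((2 * (D * 2 ^ b) + 1) ^ 2) + pieceH z K l1 k1 S (β * 2 ^ (b - l1) + o j) := by
    intro j
    rw [cH_chain]
    refine add_le_add ?_ ?_
    · have := cH_le_log_card (s := s) (f := d j) (fun i => (d0 i, g i)) (ball (D * 2 ^ b))
        (fun i hi => by
          have h4 := hi' i hi
          have h5 := ho' j
          rw [add_mul, one_mul] at h4 h5 hβ'
          exact hz.sub_mem_ball (by omega) (by omega) (by omega) (by omega))
      rw [card_ball] at this
      exact_mod_cast this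
    · refine cH_mono_right fun i _ i' _ h => ?_
      obtain ⟨e0, e1⟩ := Prod.ext_iff.1 h
      obtain ⟨e2, e3⟩ := Prod.ext_iff.1 e1
      refine resAt_shift e3 ?_
      rw [piece_start h1 h2, piece_start h1 h2]
      simp only [hd0, hd] at e0 e2
      linear_combination e0 + e2
  have a6 := sum_le_sum (s := univ) fun j _ => a5 j
  rw [sum_add_distrib, sum_const, card_univ, Fintype.card_fin, nsmul_eq_mul] at a6
  linarith

theorem omega_nonempty (k1 b l1 r : ℕ) : (omega k1 b l1 r).Nonempty :=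
  ⟨(0, fun _ => 0), mem_product.2 ⟨by simp, by simp⟩⟩

theorem avg_omega {k1 b l1 r : ℕ} (h1 : l1 ≤ b) (h2 : b ≤ k1) (j : Fin r) (Φ : ℕ → ℝ) :
    avg (omega k1 b l1 r) (fun ω => Φ (ω.1 * 2 ^ (b - l1) + ω.2 j)) =
      avg (range (2 ^ (k1 - l1))) Φ := by
  have e : 2 ^ (k1 - l1) = 2 ^ (k1 - b) * 2 ^ (b - l1) := by
    rw [← pow_add]; congr 1; omega
  rw [e, avg_range_mul, omega, avg_product]
  refine avg_congr fun β _ => ?_
  exact avg_piFinset_eval (fun _ => range (2 ^ (b - l1))) (fun _ => ⟨0, by simp⟩) j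
    (fun t => Φ (β * 2 ^ (b - l1) + t))

/-! ### the lower bound for `psi` -/

theorem one_sub_pow_le (r : ℕ) {x : ℝ} (h0 : 0 ≤ x) (h1 : x ≤ 1) :
    (1 - x) ^ r ≤ 1 - r * x + (r * x) ^ 2 := by
  induction r with
  | zero => simp
  | succ r ih =>
    rw [pow_succ]
    refine (mul_le_mul_of_nonneg_right ih (by linarith)).trans ?_
    push_cast
    have hr : (0 : ℝ) ≤ r := Nat.cast_nonneg r
    nlinarith [mul_nonneg hr (sq_nonneg x), mul_nonneg (mul_nonneg (mul_nonneg hr hr) h0)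
      (sq_nonneg x), sq_nonneg x]

theorem avg_ind {m t0 : ℕ} (h : t0 < m) :
    avg (range m) (fun t => if t = t0 then (1 : ℝ) else 0) = 1 / m := by
  simp [avg, h]

/-- the probability that a given piece is sampled -/
theorem prob_hit {B m r e : ℕ} (he : e < B * m) :
    1 / (B : ℝ) * (r * (1 / m) * (1 - r * (1 / m))) ≤
      avg (range B ×ˢ Fintype.piFinset (fun _ : Fin r => range m))
        (fun ω => if ∃ j, e = ω.1 * m + ω.2 j then (1 : ℝ) else 0) := by
  have hm : 0 < m := Nat.pos_of_ne_zero (by rintro rfl; simp at he)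
  have hβ : e / m < B := (Nat.div_lt_iff_lt_mul hm).2 he
  have ho : e % m < m := Nat.mod_lt _ hm
  have hne : (range m).Nonempty := ⟨0, mem_range.2 hm⟩
  have h1 : avg (range B ×ˢ Fintype.piFinset (fun _ : Fin r => range m))
      (fun ω => (if ω.1 = e / m then (1 : ℝ) else 0) *
        (1 - ∏ j, (1 - if ω.2 j = e % m then (1 : ℝ) else 0))) =
      1 / (B : ℝ) * (1 - (1 - 1 / m) ^ r) := by
    rw [avg_product, avg_congr (fun β _ => avg_mul_left (Fintype.piFinset fun _ : Fin r => range m)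
      (if β = e / m then (1 : ℝ) else 0)
      (fun o => 1 - ∏ j, (1 - if o j = e % m then (1 : ℝ) else 0)))]
    rw [avg_mul_right, avg_ind hβ, avg_sub, avg_const (Fintype.piFinset_nonempty.2 fun _ => hne),
      avg_piFinset_prod (fun _ : Fin r => range m)
        (fun _ t => 1 - if t = e % m then (1 : ℝ) else 0), avg_sub, avg_const hne, avg_ind ho,
      prod_const, card_univ, Fintype.card_fin]
  have hm' : (1 : ℝ) ≤ m := by exact_mod_cast hm
  have h2 := one_sub_pow_le r (x := 1 / (m : ℝ)) (by positivity)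
    (by rw [div_le_one (by linarith)]; exact hm')
  refine le_trans ?_ (h1.ge.trans (avg_le_avg fun ω _ => ?_))
  · refine mul_le_mul_of_nonneg_left (by nlinarith) (by positivity)
  · by_cases hex : ∃ j, e = ω.1 * m + ω.2 j
    · rw [if_pos hex]
      have hp : 0 ≤ ∏ j, (1 - if ω.2 j = e % m then (1 : ℝ) else 0) :=
        prod_nonneg fun j _ => by split_ifs <;> norm_num
      split_ifs <;> linarith
    · rw [if_neg hex]
      by_cases hb : ω.1 = e / m
      · have : ∏ j, (1 - if ω.2 j = e % m then (1 : ℝ) else 0) = 1 := by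
          refine prod_eq_one fun j _ => ?_
          rw [if_neg, sub_zero]
          intro hj
          exact hex ⟨j, by rw [hb, hj, Nat.div_add_mod']⟩
        rw [this]; simp
      · simp [hb]

theorem samp_ge (z : ℕ → GI) {k1 b l1 r : ℕ} (h1 : l1 ≤ b) (h2 : b ≤ k1) (s : Finset ℕ)
    {β : Type} (g : ℕ → β) (ω : ℕ × (Fin r → ℕ)) :
    ∑ e : Fin (2 ^ (k1 - l1)), (if ∃ j, (e : ℕ) = ω.1 * 2 ^ (b - l1) + ω.2 j then (1 : ℝ) else 0) *
      cH s (fun i => pieces z l1 k1 i e) (fun i => (g i, pre (pieces z l1 k1) e i)) ≤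
      cH s (samp z k1 b l1 r ω) g := by
  have := cH_shearer (s := s) (pieces z l1 k1) g (samp z k1 b l1 r ω)
    (univ.filter (fun e => ∃ j, (e : ℕ) = ω.1 * 2 ^ (b - l1) + ω.2 j)) (by
      intro e he i _ i' _ _ hX
      obtain ⟨j, hj⟩ := (mem_filter.1 he).2
      unfold pieces
      rw [incr_eq_iff, hj, piece_start h1 h2, piece_start h1 h2]
      intro t ht
      have e1 := congrFun (congrFun hX j) ⟨t, by omega⟩
      have e2 := congrFun (congrFun hX j) ⟨t + 1, by omega⟩
      simp only [samp, ← add_assoc] at e1 e2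
      linear_combination e2 - e1)
  refine le_trans (le_of_eq ?_) this
  rw [sum_filter]
  exact sum_congr rfl fun e _ => by split_ifs <;> simp

end Phi

theorem psiUpper : PsiUpperStmt := by
  intro D z K k1 b l1 r S h1 h2 h3 hz
  refine (avg_le_avg fun ω hω => Phi.samp_le D z S h1 h2 h3 hz hω).trans ?_
  rw [avg_add, avg_const (Phi.omega_nonempty _ _ _ _), avg_sum]
  refine add_le_add le_rfl ?_
  have h4 := Phi.avg_pieceH_le z (h1.trans h2) h3 S
  rw [sum_congr rfl (fun j _ => Phi.avg_omega h1 h2 j (Phi.pieceH z K l1 k1 S)), sum_const,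
    card_univ, Fintype.card_fin, nsmul_eq_mul, mul_assoc]
  exact mul_le_mul_of_nonneg_left h4 (Nat.cast_nonneg r)

theorem psiLower : PsiLowerStmt := by
  intro z K k1 b l1 r S h1 h2 h3
  have hphi : 0 ≤ phi z K k1 S := div_nonneg (cH_nonneg _ _ _) (by positivity)
  by_cases hc : 1 - (r : ℝ) / 2 ^ (b - l1) ≤ 0
  · refine le_trans ?_ (avg_nonneg fun ω _ => cH_nonneg _ _ _)
    exact mul_nonpos_of_nonpos_of_nonneg
      (mul_nonpos_of_nonneg_of_nonpos (by positivity) hc) hphi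
  push Not at hc
  set s := range (2 ^ (K - k1)) with hs
  set g : ℕ → (p : SPrime) → ZMod p.1 := fun i => resAt S (z (i * 2 ^ k1)) with hg
  refine le_trans ?_ (avg_le_avg fun ω _ => Phi.samp_ge z h1 h2 s g ω)
  rw [avg_sum]
  simp only [avg_mul_right]
  have e : 2 ^ (k1 - l1) = 2 ^ (k1 - b) * 2 ^ (b - l1) := by
    rw [← pow_add]; congr 1; omega
  set c : ℝ := 1 / ((2 ^ (k1 - b) : ℕ) : ℝ) * (r * (1 / ((2 ^ (b - l1) : ℕ) : ℝ)) *
    (1 - r * (1 / ((2 ^ (b - l1) : ℕ) : ℝ)))) with hcdef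
  have hc' : c * 2 ^ k1 = r * 2 ^ l1 * (1 - r / 2 ^ (b - l1)) := by
    have e2 : (2 : ℝ) ^ k1 = 2 ^ (k1 - b) * 2 ^ (b - l1) * 2 ^ l1 := by
      rw [← pow_add, ← pow_add]; congr 1; omega
    rw [hcdef, e2]
    push_cast
    field_simp
  have hc0 : 0 ≤ c := by
    have : 0 ≤ c * 2 ^ k1 := by rw [hc']; positivity
    exact nonneg_of_mul_nonneg_left this (by positivity)
  have h4 : 2 ^ k1 * phi z K k1 S ≤ ∑ e : Fin (2 ^ (k1 - l1)),
      cH s (fun i => Phi.pieces z l1 k1 i e) (fun i => (g i, pre (Phi.pieces z l1 k1) e i)) := by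
    rw [← cH_pi_eq]
    unfold phi
    rw [mul_div_cancel₀ _ (by positivity)]
    exact Phi.cH_incr_le_pieces z (h1.trans h2) s g
  rw [← hc', mul_assoc]
  refine (mul_le_mul_of_nonneg_left h4 hc0).trans ?_
  rw [mul_sum]
  refine sum_le_sum fun e' _ => mul_le_mul_of_nonneg_right ?_ (cH_nonneg _ _ _)
  exact Phi.prob_hit (e ▸ e'.2)

theorem phiStmt : PhiStmt := by
  refine ⟨fun z K l S => div_nonneg (cH_nonneg _ _ _) (by positivity),
    fun D z K l S h hz => Phi.phi_le D z S h hz, fun z K l l' S h h' => Phi.phi_anti z S h h',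
    fun z K k1 b l1 r S S' hS => avg_le_avg fun ω _ => ?_⟩
  exact cH_mono_right fun i _ j _ h => Phi.resAt_mono hS h

end Crest.Agent.R2
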