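import Crest.Agent.R2.Basic

/-! # Row 2: infinitely many ranges of scales with many split primes -/

set_option autoImplicit false

open Finset
open scoped Pointwise Classical

namespace Crest.Agent.R2

namespace Primes

open ArithmeticFunction.vonMangoldt

/-- weight of a scale -/
noncomputable def aa (j : ℕ) : ℝ := (∑ p ∈ scale j, Real.log p.1) / 2 ^ j

theorem aa_le (j : ℕ) : aa j ≤ 4 := by
  have h1 : ∑ p ∈ scale j, Real.log p.1 ≤ ∑ p ∈ upto (2 ^ (j + 1)), Real.log p.1 :=
    sum_le_sum_of_subset_of_nonneg (fun p hp => mem_upto.2 (mem_scale.1 hp).2.le)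
      fun p _ _ => Real.log_natCast_nonneg _
  have h2 := sum_log_upto_le (2 ^ (j + 1))
  rw [aa, div_le_iff₀ (by positivity)]
  push_cast at h2
  rw [pow_succ (2 : ℝ)] at h2
  linarith

theorem aa_le_of_not_good {j : ℕ} (hj : 2 ≤ j) (h : ¬ Good (2 ^ j) (scale j)) : aa j ≤ 1 / 16 := by
  have hin : InScale (2 ^ j) (scale j) := fun p hp =>
    ⟨(mem_scale.1 hp).1, by have := (mem_scale.1 hp).2; omega⟩
  have h1 : 24 * Real.log ((2 ^ j : ℕ) : ℝ) * (scale j).card < ((2 ^ j : ℕ) : ℝ) :=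
    not_le.1 fun h' => h ⟨hin, h'⟩
  push_cast at h1
  rw [Real.log_pow] at h1
  have h2 : ∑ p ∈ scale j, Real.log p.1 ≤ (scale j).card • ((j + 1) * Real.log 2) := by
    refine sum_le_card_nsmul _ _ _ fun p hp => ?_
    have h3 : (p.1 : ℝ) ≤ 2 ^ (j + 1) := by exact_mod_cast (mem_scale.1 hp).2.le
    have h4 := Real.log_le_log (by exact_mod_cast p.2.1.pos) h3
    rw [Real.log_pow] at h4
    exact_mod_cast h4
  rw [nsmul_eq_mul] at h2
  rw [aa, div_le_iff₀ (by positivity)]
  have hj' : (2 : ℝ) ≤ j := by exact_mod_cast hj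
  have h5 : 0 ≤ ((scale j).card : ℝ) * Real.log 2 :=
    mul_nonneg (Nat.cast_nonneg _) (Real.log_nonneg one_le_two)
  nlinarith [mul_nonneg h5 (sub_nonneg.2 hj')]

/-- number of good scales below `b` -/
noncomputable def gg (b : ℕ) : ℕ := ((range b).filter fun j => Good (2 ^ j) (scale j)).card

theorem gg_le {n0 : ℕ} (h : ∀ n ≥ n0, ¬ ManyGood n) : ∃ C : ℕ, ∀ b, 50 * gg b ≤ C + 2 * b := by
  refine ⟨50 * (1000001 * (n0 + 2000000)), fun b => ?_⟩
  induction b using Nat.strong_induction_on with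
  | _ b ih =>
    by_cases hb : b ≤ 1000001 * (n0 + 2000000)
    · have : gg b ≤ b := (card_filter_le _ _).trans (card_range b).le
      omega
    · obtain ⟨n, hn⟩ : ∃ n, n = (b + 1000000) / 1000001 := ⟨_, rfl⟩
      have h1 := ih (1000000 * n) (by omega)
      have h2 := not_le.1 (h n (by omega))
      have h3 : gg b ≤ gg (1000000 * n) +
          ((Ico (1000000 * n) (1000001 * n)).filter fun j => Good (2 ^ j) (scale j)).card := by
        refine le_trans (card_le_card ?_) (card_union_le _ _)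
        intro j hj
        simp only [mem_filter, mem_range, mem_union, mem_Ico] at hj ⊢
        by_cases h4 : j < 1000000 * n
        · exact .inl ⟨h4, hj.2⟩
        · exact .inr ⟨⟨by omega, by omega⟩, hj.2⟩
      omega

theorem sum_aa_le {n0 : ℕ} (h : ∀ n ≥ n0, ¬ ManyGood n) :
    ∃ C : ℝ, ∀ b : ℕ, ∑ j ∈ range b, (aa j - 9 / 40) ≤ C := by
  obtain ⟨C, hC⟩ := gg_le h
  refine ⟨8 + 4 * C / 50, fun b => ?_⟩
  have h1 : ∑ j ∈ range b, (aa j - 9 / 40) ≤ ∑ j ∈ range b, ((1 / 16 - 9 / 40 : ℝ) +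
      ((if Good (2 ^ j) (scale j) then 4 else 0) + if j ∈ range 2 then 4 else 0)) := by
    refine sum_le_sum fun j _ => ?_
    have h2 := aa_le j
    by_cases h3 : Good (2 ^ j) (scale j)
    · split_ifs <;> linarith
    · by_cases h4 : j ∈ range 2
      · rw [if_neg h3, if_pos h4]; linarith
      · rw [if_neg h3, if_neg h4]
        have := aa_le_of_not_good (not_lt.1 fun h' => h4 (mem_range.2 h')) h3
        linarith
  have h2 : ∑ j ∈ range b, (if j ∈ range 2 then (4 : ℝ) else 0) ≤ 8 := by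
    rw [sum_ite_mem, sum_const, nsmul_eq_mul]
    have : ((range b ∩ range 2).card : ℝ) ≤ 2 := by
      exact_mod_cast (card_le_card inter_subset_right).trans (card_range 2).le
    linarith
  have h3 : ∑ j ∈ range b, (if Good (2 ^ j) (scale j) then (4 : ℝ) else 0) = gg b * 4 := by
    rw [← sum_filter, sum_const, nsmul_eq_mul, gg]
  rw [sum_add_distrib, sum_add_distrib, h3, sum_const, card_range, nsmul_eq_mul] at h1
  have h4 : (50 : ℝ) * gg b ≤ C + 2 * b := by exact_mod_cast hC b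
  have h5 : (0 : ℝ) ≤ b := Nat.cast_nonneg b
  linarith

theorem abel {d : ℕ → ℝ} {C r : ℝ} (h : ∀ b, ∑ j ∈ range b, d j ≤ C) (h0 : 0 ≤ r) (h1 : r ≤ 1)
    (b : ℕ) : ∑ j ∈ range b, d j * r ^ j ≤ C := by
  have key : ∀ b, ∑ j ∈ range b, d j * r ^ j ≤ C * (1 - r ^ b) + (∑ j ∈ range b, d j) * r ^ b := by
    intro b
    induction b with
    | zero => simp
    | succ b ih =>
      have h2 := mul_nonneg (sub_nonneg.2 (h (b + 1)))
        (mul_nonneg (pow_nonneg h0 b) (sub_nonneg.2 h1))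
      rw [sum_range_succ] at h2
      rw [sum_range_succ, sum_range_succ, pow_succ]
      nlinarith
  nlinarith [key b, mul_nonneg (sub_nonneg.2 (h b)) (pow_nonneg h0 b)]

/-- the prime part -/
noncomputable def pr (n : ℕ) : ℝ := if n.Prime then residueClass (1 : ZMod 4) n else 0

theorem pr_eq (n : ℕ) : pr n = if n.Prime ∧ n % 4 = 1 then Real.log n else 0 := by
  unfold pr
  by_cases hn : n.Prime
  · have : ((n : ZMod 4) = 1) ↔ n % 4 = 1 := by
      rw [← Nat.cast_one, ZMod.natCast_eq_natCast_iff']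
    simp [hn, residueClass, Set.indicator_apply, ArithmeticFunction.vonMangoldt_apply_prime hn, this]
  · simp [hn]

theorem pr_nonneg (n : ℕ) : 0 ≤ pr n := by
  rw [pr_eq]
  split_ifs
  · exact Real.log_natCast_nonneg n
  · exact le_rfl

theorem block (j : ℕ) {t : ℝ} (ht : 0 ≤ t) :
    ∑ n ∈ Ico (2 ^ j) (2 ^ (j + 1)), pr n / (n : ℝ) ^ (1 + t) ≤ aa j * ((2 : ℝ) ^ (-t)) ^ j := by
  have h1 : ∑ p ∈ scale j, Real.log p.1 = ∑ n ∈ Ico (2 ^ j) (2 ^ (j + 1)), pr n := by
    simp only [pr_eq]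
    rw [← sum_filter, scale]
    convert sum_subtype_eq_sum_filter (fun n : ℕ => Real.log n)
  rw [aa, h1, sum_div, sum_mul]
  refine sum_le_sum fun n hn => ?_
  have h2 : ((2 : ℝ) ^ j) ≤ n := by exact_mod_cast (mem_Ico.1 hn).1
  have h3 : ((2 : ℝ) ^ j) ^ (1 + t) ≤ (n : ℝ) ^ (1 + t) :=
    Real.rpow_le_rpow (by positivity) h2 (by linarith)
  refine (div_le_div_of_nonneg_left (pr_nonneg n) (by positivity) h3).trans (le_of_eq ?_)
  rw [Real.rpow_add (by positivity), Real.rpow_one, ← Real.rpow_natCast, ← Real.rpow_natCast,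
    ← Real.rpow_mul zero_le_two, ← Real.rpow_mul zero_le_two, neg_mul, Real.rpow_neg zero_le_two,
    mul_comm t, div_mul_eq_div_div, div_eq_mul_inv]

theorem sum_pr_le (b : ℕ) {t : ℝ} (ht : 0 ≤ t) :
    ∑ n ∈ range (2 ^ b), pr n / (n : ℝ) ^ (1 + t) ≤ ∑ j ∈ range b, aa j * ((2 : ℝ) ^ (-t)) ^ j := by
  induction b with
  | zero => simp [pr, Nat.not_prime_zero]
  | succ b ih =>
    rw [← sum_range_add_sum_Ico _ (Nat.pow_le_pow_right two_pos (Nat.le_succ b)), sum_range_succ]
    exact add_le_add ih (block b ht)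

theorem geom_le (b : ℕ) {t : ℝ} (ht : 0 < t) :
    ∑ j ∈ range b, ((2 : ℝ) ^ (-t)) ^ j ≤ 1 + 3 / 2 / t := by
  have hl : (2 : ℝ) / 3 < Real.log 2 := by linarith [Real.log_two_gt_d9]
  have h1 : 1 + 2 / 3 * t ≤ (2 : ℝ) ^ t := by
    rw [Real.rpow_def_of_pos two_pos]
    nlinarith [Real.add_one_le_exp (Real.log 2 * t)]
  have h0 : 0 < (2 : ℝ) ^ (-t) := by positivity
  have h2 : (2 : ℝ) ^ (-t) * (1 + 2 / 3 * t) ≤ 1 := by
    rw [Real.rpow_neg zero_le_two, inv_mul_le_iff₀ (by positivity)]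
    linarith
  have h3 : (2 : ℝ) ^ (-t) < 1 := by nlinarith
  have h4 : ∑ j ∈ range b, ((2 : ℝ) ^ (-t)) ^ j ≤ (1 - (2 : ℝ) ^ (-t))⁻¹ := by
    rw [← tsum_geometric_of_lt_one h0.le h3]
    exact (summable_geometric_of_lt_one h0.le h3).sum_le_tsum _ fun j _ => by positivity
  refine h4.trans ?_
  rw [inv_le_iff_one_le_mul₀ (by linarith)]
  have h5 : 1 + 3 / 2 / t = (1 + 2 / 3 * t) * (3 / 2 / t) := by field_simp; ring
  have h6 : 2 / 3 * t * (3 / 2 / t) = 1 := by field_simp
  have h7 : 0 < 3 / 2 / t := by positivity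
  rw [h5]
  nlinarith [mul_le_mul_of_nonneg_right h2 h7.le]

end Primes

open Primes ArithmeticFunction.vonMangoldt in
theorem primes : PrimesStmt := by
  intro n0
  by_contra hcon
  push Not at hcon
  obtain ⟨C, hC⟩ := sum_aa_le hcon
  obtain ⟨C₀, hC₀⟩ := LSeries_residueClass_lower_bound (a := (1 : ZMod 4)) isUnit_one
  have hs := summable_residueClass_non_primes_div (1 : ZMod 4)
  set C₁ := ∑' n : ℕ, (if n.Prime then 0 else residueClass (1 : ZMod 4) n) / n with hC₁
  have key : ∀ t : ℝ, 0 < t → t ≤ 1 → 1 / 2 / t ≤ C₀ + C₁ + C + 9 / 40 * (1 + 3 / 2 / t) := by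
    intro t ht ht1
    have h1 := hC₀ (x := 1 + t) ⟨by linarith, by linarith⟩
    have h2 : Nat.totient 4 = 2 := by decide
    rw [h2, add_sub_cancel_left] at h1
    have h3 : ∑' n : ℕ, residueClass (1 : ZMod 4) n / (n : ℝ) ^ (1 + t) ≤
        C₁ + (C + 9 / 40 * (1 + 3 / 2 / t)) := by
      refine Real.tsum_le_of_sum_range_le
        (fun n => div_nonneg (residueClass_nonneg _ n) (by positivity)) fun N => ?_
      have h4 : ∀ n : ℕ, 0 ≤ (if n.Prime then 0 else residueClass (1 : ZMod 4) n) := fun n => by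
        split_ifs
        · exact le_rfl
        · exact residueClass_nonneg _ n
      have h5 : ∑ n ∈ range N, residueClass (1 : ZMod 4) n / (n : ℝ) ^ (1 + t) ≤
          ∑ n ∈ range N, ((if n.Prime then 0 else residueClass (1 : ZMod 4) n) / n +
            pr n / (n : ℝ) ^ (1 + t)) := by
        refine sum_le_sum fun n _ => ?_
        by_cases hn : n.Prime
        · simp [pr, hn]
        · simp only [pr, hn, if_false, zero_div, add_zero]
          rcases n.eq_zero_or_pos with rfl | h6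
          · simp
          · refine div_le_div_of_nonneg_left (residueClass_nonneg _ _) (by exact_mod_cast h6) ?_
            conv_lhs => rw [← Real.rpow_one n]
            exact Real.rpow_le_rpow_of_exponent_le (by exact_mod_cast h6) (by linarith)
      rw [sum_add_distrib] at h5
      refine h5.trans (add_le_add
        (hs.sum_le_tsum _ fun n _ => div_nonneg (h4 n) (Nat.cast_nonneg n)) ?_)
      have h6 : ∑ n ∈ range N, pr n / (n : ℝ) ^ (1 + t) ≤
          ∑ n ∈ range (2 ^ N), pr n / (n : ℝ) ^ (1 + t) :=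
        sum_le_sum_of_subset_of_nonneg (range_subset_range.2 Nat.lt_two_pow_self.le)
          fun n _ _ => div_nonneg (pr_nonneg n) (by positivity)
      have h7 := abel hC (r := (2 : ℝ) ^ (-t)) (by positivity)
        (Real.rpow_le_one_of_one_le_of_nonpos one_le_two (by linarith)) N
      simp only [sub_mul, sum_sub_distrib, ← mul_sum] at h7
      linarith [sum_pr_le N ht.le, geom_le N ht]
    have h4 : ((2 : ℕ) : ℝ)⁻¹ / t = 1 / 2 / t := by norm_num
    linarith
  set K := |C₀ + C₁ + C + 9 / 40| + 1 with hK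
  have hK1 : 1 ≤ K := by linarith [abs_nonneg (C₀ + C₁ + C + 9 / 40)]
  have h1 := key (1 / (10 * K)) (by positivity) (by
    rw [div_le_one (by positivity)]; linarith)
  have h2 : (1 : ℝ) / 2 / (1 / (10 * K)) = 5 * K := by field_simp; norm_num
  have h3 : (3 : ℝ) / 2 / (1 / (10 * K)) = 15 * K := by field_simp; norm_num
  rw [h2, h3] at h1
  linarith [le_abs_self (C₀ + C₁ + C + 9 / 40)]

end Crest.Agent.R2
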