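import Crest.Agent.R2.Basic

/-! # Row 2: the projection theorem -/

set_option autoImplicit false

open Finset
open scoped Pointwise Classical

namespace Crest.Agent.R2

namespace Prj

theorem NoGrowth.mono {S : Finset SPrime} {q α s0 s1 R2 : ℝ} (h : NoGrowth S q α s1 R2)
    (hs : s0 ≤ s1) : NoGrowth S q α s0 R2 := fun V W T f hW =>
  h V W T f ⟨fun v hv => ⟨(hW.1 v hv).1, (hW.1 v hv).2.1.trans hs, (hW.1 v hv).2.2⟩, hW.2⟩

/-- the deterministic channel of a labelling -/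
theorem isChan_det {τ : Type} (N : ℕ) (C : ℕ → τ) :
    IsChan N ((range N).image C) (fun n x => if C n = x then 1 / (N : ℝ) else 0) := by
  refine ⟨fun n _ x _ => by dsimp only; split_ifs <;> positivity, fun n hn => ?_⟩
  rw [sum_ite_eq, if_pos (mem_image_of_mem C (mem_range.2 hn))]

theorem excW_det (p : SPrime) (q : ℝ) {τ : Type} (N : ℕ) (u : ℕ → GI) (C : ℕ → τ) :
    excW p q N u ((range N).image C) (fun n x => if C n = x then 1 / (N : ℝ) else 0) =
      avg (range N) (fun n => exc p q ((range N).filter (fun n' => C n' = C n)) u) := by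
  unfold avg
  rw [sum_comp (fun x => exc p q ((range N).filter (fun n' => C n' = x)) u) C, sum_div, excW]
  refine sum_congr rfl fun x hx => ?_
  have hne : (0 : ℝ) < ((range N).filter (fun n' => C n' = x)).card := by
    obtain ⟨i, hi, rfl⟩ := mem_image.1 hx
    have : ((range N).filter (fun j => C j = C i)).Nonempty := ⟨i, mem_filter.2 ⟨hi, rfl⟩⟩
    exact_mod_cast this.card_pos
  obtain ⟨m, hm⟩ : ∃ m : ℝ, m = (((range N).filter (fun n' => C n' = x)).card : ℝ) := ⟨_, rfl⟩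
  rw [← hm] at hne
  have e1 : ∑ n ∈ range N, (if C n = x then 1 / (N : ℝ) else 0) = m / N := by
    rw [← sum_filter, sum_const, nsmul_eq_mul, ← hm]; ring
  have e2 : ∀ a, push p (range N) u (fun n => if C n = x then 1 / (N : ℝ) else 0) a =
      m / N * law p ((range N).filter (fun n' => C n' = x)) u a := by
    intro a
    unfold push law
    rw [← sum_filter, sum_const, nsmul_eq_mul, filter_comm, ← hm]
    field_simp
  simp only [e1, e2]
  rw [nsmul_eq_mul, card_range, ← hm, exc, mul_sum, sum_div]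
  refine sum_congr rfl fun a _ => ?_
  have hmN : 0 ≤ m / N := by positivity
  have : m / N * law p ((range N).filter (fun n' => C n' = x)) u a - q / p.1 * (m / N) =
      m / N * (law p ((range N).filter (fun n' => C n' = x)) u a - q / p.1) := by ring
  rw [this, mul_div_right_comm, mul_max_of_nonneg _ _ hmN, mul_zero]

/-! ### numerics -/

theorem two_pow_eq (k : ℕ) : (2 : ℝ) ^ k = Real.exp (k * Real.log 2) := by
  rw [Real.exp_nat_mul, Real.exp_log (by norm_num)]

theorem num_c80 {h y μ : ℝ} (hh : 38 ≤ h) (hy : h ^ 5 ≤ y) (hμ : μ ≤ 1 / 2) :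
    h ^ 80 ≤ Real.exp ((1 - μ) * y) := by
  have hpos : 0 < h := by linarith
  have e1 : h ≤ Real.exp h := by have := Real.add_one_le_exp h; linarith
  have e2 : h ^ 80 ≤ Real.exp (80 * h) := by
    have := pow_le_pow_left₀ hpos.le e1 80
    rwa [← Real.exp_nat_mul] at this
  refine e2.trans (Real.exp_le_exp.2 ?_)
  have e3 : (38 : ℝ) ^ 4 ≤ h ^ 4 := pow_le_pow_left₀ (by norm_num) hh 4
  have e4 : 38 ^ 4 * h ≤ h ^ 5 := by
    rw [pow_succ h 4]; exact mul_le_mul_of_nonneg_right e3 hpos.le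
  have e5 : 0 ≤ y := le_trans (by positivity) hy
  have e6 : 1 / 2 * y ≤ (1 - μ) * y := mul_le_mul_of_nonneg_right (by linarith) e5
  linarith

theorem num_J {y μ L κ : ℝ} {J : ℕ} (hμ : 0 < μ) (hL : 0 < L) (hκ : κ = 10 * L / μ)
    (hy : 38 + 16 * κ ≤ y) (hJ : μ * y / (2 * L) < J + 1) :
    Real.log (100 * Real.exp y) + 1 < J * κ := by
  have hκ0 : 0 < κ := by rw [hκ]; positivity
  have e1 : 5 * y < (J + 1) * κ := by
    have : 5 * y = μ * y / (2 * L) * κ := by rw [hκ]; field_simp; ring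
    rw [this]
    exact mul_lt_mul_of_pos_right hJ hκ0
  have e2 : Real.log 100 ≤ 14 := by
    rw [Real.log_le_iff_le_exp (by norm_num)]
    have e4 := Real.quadratic_le_exp_of_nonneg (x := 14) (by norm_num)
    linarith
  rw [Real.log_mul (by norm_num) (Real.exp_pos y).ne', Real.log_exp]
  rw [add_mul, one_mul] at e1
  linarith

theorem num_hi {y μ η A : ℝ} {j J : ℕ} (hμ : 0 < μ) (hη : 0 < η) (hA : 10 ≤ A)
    (hL : 0 < Real.log A) (hJ : (J : ℝ) ≤ μ * y / (2 * Real.log A)) (hj : j ≤ J)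
    (hy : 48 / (μ * η) ≤ y) : A ^ j * Real.exp ((1 - μ) * y) ≤ η / 24 * Real.exp y := by
  have e1 : A ^ j ≤ Real.exp (μ * y / 2) := by
    have e2 : A ^ j ≤ A ^ J := pow_le_pow_right₀ (by linarith) hj
    refine e2.trans ?_
    have e3 : A ^ J = Real.exp (J * Real.log A) := by
      rw [Real.exp_nat_mul, Real.exp_log (by linarith)]
    rw [e3, Real.exp_le_exp]
    rw [le_div_iff₀ (by positivity)] at hJ
    linarith
  have e4 : 24 / η ≤ Real.exp (μ * y / 2) := by
    have e5 := Real.add_one_le_exp (μ * y / 2)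
    rw [div_le_iff₀ (by positivity)] at hy
    have e7 : 24 / η ≤ μ * y / 2 := by
      rw [div_le_iff₀ hη]; linarith
    linarith
  have e8 : Real.exp y = Real.exp (μ * y / 2) * (Real.exp (μ * y / 2) * Real.exp ((1 - μ) * y)) := by
    rw [← Real.exp_add, ← Real.exp_add]; congr 1; ring
  have e9 : 1 ≤ η / 24 * Real.exp (μ * y / 2) := by
    rw [div_le_iff₀ hη] at e4
    linarith
  calc A ^ j * Real.exp ((1 - μ) * y) ≤ Real.exp (μ * y / 2) * Real.exp ((1 - μ) * y) := by gcongr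
    _ ≤ (η / 24 * Real.exp (μ * y / 2)) * (Real.exp (μ * y / 2) * Real.exp ((1 - μ) * y)) :=
        le_mul_of_one_le_left (by positivity) e9
    _ = η / 24 * Real.exp y := by rw [e8]; ring

theorem num_D {P H c Y : ℝ} {k : ℕ} (hP : P = Real.exp H) (hP2 : 2 ≤ P) (hc : c ≤ Y / 24)
    (hH : 38 * H ≤ Y) (hY : 0 ≤ Y) (hk : Y / 2 ≤ k) :
    Real.exp c * P * Real.log (2 * P) ≤ 2 ^ k := by
  have hl2a : 0.69 < Real.log 2 := by have := Real.log_two_gt_d9; linarith
  have e1 : Real.log (2 * P) ≤ P * P := by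
    have := Real.log_le_sub_one_of_pos (x := 2 * P) (by positivity)
    nlinarith
  calc Real.exp c * P * Real.log (2 * P) ≤ Real.exp c * P * (P * P) := by gcongr
    _ = Real.exp (c + (H + H + H)) := by
        rw [Real.exp_add, hP, Real.exp_add, Real.exp_add]
        ring
    _ ≤ 2 ^ k := by
        rw [two_pow_eq, Real.exp_le_exp]
        have e5 : Y / 2 * 0.69 ≤ k * Real.log 2 :=
          mul_le_mul hk hl2a.le (by norm_num) (Nat.cast_nonneg _)
        linarith

theorem num_α {h κ : ℝ} (hκ : 0 < κ) (hh : 38 + 16 * κ ≤ h) :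
    Real.exp (-h ^ 4) ≤
      (1 / h) ^ 2 / 4 * Real.exp (-((4 * κ / (1 / h) + 1) * 4 / (1 / h) ^ 2)) * (1 / h) / 8 := by
  have hpos : 0 < h := by linarith
  have e1 : (1 / h) ^ 2 / 4 * Real.exp (-((4 * κ / (1 / h) + 1) * 4 / (1 / h) ^ 2)) * (1 / h) / 8 =
      Real.exp (-(16 * κ * h ^ 3 + 4 * h ^ 2)) / (32 * h ^ 3) := by
    have : (4 * κ / (1 / h) + 1) * 4 / (1 / h) ^ 2 = 16 * κ * h ^ 3 + 4 * h ^ 2 := by
      field_simp; ring
    rw [this]; field_simp; ring
  have e2 : 32 * h ^ 3 ≤ Real.exp (32 * h ^ 3) := by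
    have := Real.add_one_le_exp (32 * h ^ 3); linarith
  rw [e1, le_div_iff₀ (by positivity)]
  calc Real.exp (-h ^ 4) * (32 * h ^ 3) ≤ Real.exp (-h ^ 4) * Real.exp (32 * h ^ 3) := by
        gcongr
    _ = Real.exp (-h ^ 4 + 32 * h ^ 3) := (Real.exp_add _ _).symm
    _ ≤ _ := by
        rw [Real.exp_le_exp]
        have e3 : h ^ 2 ≤ h ^ 3 := pow_le_pow_right₀ (by linarith) (by norm_num)
        have e4 : (38 + 16 * κ) * h ^ 3 ≤ h * h ^ 3 :=
          mul_le_mul_of_nonneg_right hh (by positivity)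
        have e5 : h * h ^ 3 = h ^ 4 := by ring
        have e6 : 0 < h ^ 3 := by positivity
        have e7 : (38 + 16 * κ) * h ^ 3 = 38 * h ^ 3 + 16 * κ * h ^ 3 := by ring
        linarith

theorem num_s0 {c g β η lE ρ : ℝ} {k' : ℕ} (hη : 0 < η) (hβ : Real.exp (-g) ≤ β / 8)
    (hρ : ρ = lE + k' * Real.log 2) (hE0 : 0 ≤ lE) (hE : lE ≤ c) (hg : 1 + g ≤ c)
    (hk : 3 * c ≤ η * (k' * Real.log 2)) :
    16 * Real.exp c / (β * 2 ^ k') ≤ Real.exp (-(1 - η) * ρ) := by
  have e3 : 8 * Real.exp (-g) ≤ β := by linarith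
  have hβ0 : 0 < β := lt_of_lt_of_le (by positivity) e3
  have e4 : (2 : ℝ) ≤ Real.exp 1 := by have := Real.add_one_le_exp 1; linarith
  rw [div_le_iff₀ (by positivity)]
  calc 16 * Real.exp c ≤ 8 * (Real.exp 1 * Real.exp c) := by
        have := mul_le_mul_of_nonneg_right e4 (Real.exp_pos c).le
        linarith
    _ = 8 * Real.exp (1 + c) := by rw [Real.exp_add]
    _ ≤ 8 * Real.exp (-(1 - η) * ρ + (-g + k' * Real.log 2)) := by
        refine mul_le_mul_of_nonneg_left (Real.exp_le_exp.2 ?_) (by norm_num)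
        have e5 := mul_nonneg hη.le hE0
        have e6 : -(1 - η) * ρ + (-g + k' * Real.log 2) =
            -lE + η * lE + η * (k' * Real.log 2) - g := by rw [hρ]; ring
        rw [e6]
        linarith
    _ = Real.exp (-(1 - η) * ρ) * (8 * Real.exp (-g) * 2 ^ k') := by
        rw [Real.exp_add, Real.exp_add, two_pow_eq]; ring
    _ ≤ Real.exp (-(1 - η) * ρ) * (β * 2 ^ k') := by gcongr

theorem num_card {t t' c d M ρ lE κ : ℝ} (ht : t ≤ Real.exp c) (ht' : t' ≤ t * (2 * M + 1) ^ 2)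
    (hM : Real.exp ρ = M) (hM1 : 1 ≤ M) (hρ : ρ = lE + κ) (hE : lE ≤ c) (hκ : κ ≤ 3 * d + 1)
    (hd : c ≤ d) (hc : 6 ≤ c) : t' ≤ Real.exp (10 * d) := by
  have e3 : 2 * M + 1 ≤ Real.exp (2 + ρ) := by
    have e4 : (3 : ℝ) ≤ Real.exp 2 := by have := Real.add_one_le_exp 2; linarith
    have := mul_le_mul_of_nonneg_right e4 (show 0 ≤ M by linarith)
    rw [Real.exp_add, hM]; linarith
  calc t' ≤ t * (2 * M + 1) ^ 2 := ht'
    _ ≤ Real.exp c * Real.exp (2 + ρ) ^ 2 := by gcongr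
    _ = Real.exp (c + 2 * (2 + ρ)) := by
        rw [Real.exp_add c, ← Real.exp_nat_mul]; norm_num
    _ ≤ _ := by
        rw [Real.exp_le_exp]
        linarith

theorem num_k' {c η Y : ℝ} {k : ℕ} (hη : 0 < η) (hη1 : η < 1) (hc : 38 ≤ c)
    (hcY : c ≤ η / 24 * Y) (hk : Y / 2 ≤ k) :
    ∃ k' : ℕ, k' ≤ k ∧ 3 * c ≤ η * (k' * Real.log 2) ∧ c ≤ k' * Real.log 2 ∧
      k' * Real.log 2 ≤ 3 * (c / η) + 1 ∧ c ≤ c / η := by
  have hl2a : 0.69 < Real.log 2 := by have := Real.log_two_gt_d9; linarith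
  have hl2b : Real.log 2 < 0.7 := by have := Real.log_two_lt_d9; linarith
  have hcpos : 0 < c := by linarith
  obtain ⟨k', hk'⟩ : ∃ k' : ℕ, k' = ⌈3 * c / (η * Real.log 2)⌉₊ := ⟨_, rfl⟩
  have hk'1 : 3 * c / (η * Real.log 2) ≤ k' := hk' ▸ Nat.le_ceil _
  have hk'2 : (k' : ℝ) < 3 * c / (η * Real.log 2) + 1 :=
    hk' ▸ Nat.ceil_lt_add_one (by positivity)
  have hk'3 : 3 * c ≤ η * (k' * Real.log 2) := by
    rw [div_le_iff₀ (by positivity)] at hk'1; linarith
  have hk'4 : (k' : ℝ) * Real.log 2 ≤ 3 * (c / η) + Real.log 2 := by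
    have e1 : (k' : ℝ) * Real.log 2 ≤ (3 * c / (η * Real.log 2) + 1) * Real.log 2 :=
      mul_le_mul_of_nonneg_right hk'2.le (by linarith)
    refine e1.trans (le_of_eq ?_)
    field_simp
  have hcη : c ≤ c / η := by
    rw [le_div_iff₀ hη]; exact mul_le_of_le_one_right hcpos.le hη1.le
  have hcη2 : c / η ≤ Y / 24 := by
    rw [div_le_iff₀ hη]; linarith
  have hkl : 0 ≤ (k' : ℝ) * Real.log 2 := by positivity
  have hkl2 : η * (k' * Real.log 2) ≤ k' * Real.log 2 := mul_le_of_le_one_left hkl hη1.le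
  refine ⟨k', ?_, hk'3, by linarith, by linarith, hcη⟩
  have e1 : (k' : ℝ) * Real.log 2 ≤ k * Real.log 2 := by
    have e5 : Y / 2 * 0.69 ≤ k * Real.log 2 :=
      mul_le_mul hk hl2a.le (by norm_num) (Nat.cast_nonneg _)
    linarith
  have e2 : (k' : ℝ) ≤ k := le_of_mul_le_mul_right e1 (by linarith)
  exact_mod_cast e2

end Prj

open Prj in
theorem proj (h1 : ProjStepStmt) (h2 : DefBoundStmt) : ProjStmt := by
  intro a η b μ hη hη1 hμ hμ2 hG
  obtain ⟨h0, hG⟩ := hG
  obtain ⟨A, hA⟩ : ∃ A : ℝ, A = 10 / η := ⟨_, rfl⟩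
  have hA10 : 10 ≤ A := by rw [hA, le_div_iff₀ hη]; linarith
  have hlogA : 0 < Real.log A := Real.log_pos (by linarith)
  obtain ⟨κ, hκ⟩ : ∃ κ : ℝ, κ = 10 * Real.log A / μ := ⟨_, rfl⟩
  have hκ0 : 0 < κ := by rw [hκ]; positivity
  refine ⟨max h0 (max (38 + 16 * κ) (48 / (μ * η))), ?_⟩
  intro h hh P S hP hS y hy1 hy2 E k hE hEy hk1 hk2 u hu τ C hC
  have hh0 : h0 ≤ h := (le_max_left _ _).trans hh
  have hh1 : 38 + 16 * κ ≤ h := (le_max_left _ _).trans ((le_max_right _ _).trans hh)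
  have hh2 : 48 / (μ * η) ≤ h := (le_max_right _ _).trans ((le_max_right _ _).trans hh)
  have hh38 : 38 ≤ h := by linarith only [hh1, hκ0]
  have hone : 1 ≤ h := by linarith only [hh38]
  have hpos : 0 < h := by linarith only [hh38]
  have hpow : ∀ i j : ℕ, i ≤ j → h ^ i ≤ h ^ j := fun i j hij => pow_le_pow_right₀ hone hij
  have hhy : h ≤ y := by
    have := hpow 1 5 (by norm_num); rw [pow_one] at this; exact this.trans hy1
  have hy0 : 0 < y := hpos.trans_le hhy
  have hl2 : 0 < Real.log 2 := Real.log_pos (by norm_num)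
  have hE' : (1 : ℝ) ≤ E := by exact_mod_cast hE
  have hlogE : 0 ≤ Real.log E := Real.log_nonneg hE'
  -- `P ≥ 2`
  have h40 : 38 ≤ h ^ 40 := by
    have := hpow 1 40 (by norm_num); rw [pow_one] at this; exact hh38.trans this
  have hPpos : (0 : ℝ) < P := by
    rcases Nat.eq_zero_or_pos P with h | h
    · rw [h] at hP; simp only [Nat.cast_zero, Real.log_zero] at hP; linarith only [hP, h40]
    · exact_mod_cast h
  have hPexp : (P : ℝ) = Real.exp (h ^ 40) := by rw [hP, Real.exp_log hPpos]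
  have hP2' : (2 : ℝ) ≤ P := by
    rw [hPexp]; have := Real.add_one_le_exp (h ^ 40); linarith only [this, h40]
  have hP2 : 2 ≤ P := by exact_mod_cast hP2'
  have hcard : (0 : ℝ) < S.card := by
    by_contra h
    have h0 : (S.card : ℝ) = 0 := le_antisymm (not_lt.1 h) (Nat.cast_nonneg _)
    have := hS.2
    rw [h0] at this
    linarith only [this, hPpos]
  have hne : S.Nonempty := card_pos.1 (by exact_mod_cast hcard)
  -- the scales
  have hc80 : h ^ 80 ≤ Real.exp ((1 - μ) * y) := num_c80 hh38 hy1 hμ2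
  have h80 : 38 * h ^ 40 ≤ h ^ 80 := by
    rw [show h ^ 80 = h ^ 40 * h ^ 40 by ring]
    exact mul_le_mul_of_nonneg_right h40 (by positivity)
  have hc0y : Real.exp ((1 - μ) * y) ≤ Real.exp y :=
    Real.exp_le_exp.2 (mul_le_of_le_one_left hy0.le (by linarith only [hμ]))
  obtain ⟨J, hJ⟩ : ∃ J : ℕ, J = ⌊μ * y / (2 * Real.log A)⌋₊ := ⟨_, rfl⟩
  have hJ1 : (J : ℝ) ≤ μ * y / (2 * Real.log A) := hJ ▸ Nat.floor_le (by positivity)
  have hJ2 : μ * y / (2 * Real.log A) < J + 1 := hJ ▸ Nat.lt_floor_add_one _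
  have hJκ : Real.log (100 * Real.exp y) + 1 < J * κ := num_J hμ hlogA hκ (hh1.trans hhy) hJ2
  have hcj_lo : ∀ j : ℕ, Real.exp ((1 - μ) * y) ≤ A ^ j * Real.exp ((1 - μ) * y) := fun j =>
    le_mul_of_one_le_left (Real.exp_pos _).le (one_le_pow₀ (by linarith only [hA10]))
  have hcj_hi : ∀ j ≤ J, A ^ j * Real.exp ((1 - μ) * y) ≤ η / 24 * Real.exp y := fun j hj =>
    num_hi hμ hη hA10 hlogA hJ1 hj (hh2.trans hhy)
  have hey : 0 < Real.exp y := Real.exp_pos y
  have hlogk : ∀ k' : ℕ, Real.log (E * 2 ^ k') = Real.log E + k' * Real.log 2 := fun k' => by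
    rw [Real.log_mul (by positivity) (by positivity), Real.log_pow]
  obtain ⟨c0, hc0⟩ : ∃ c0 : ℝ, c0 = Real.exp ((1 - μ) * y) := ⟨_, rfl⟩
  rw [← hc0] at hc80 hc0y hcj_lo hcj_hi hC hEy
  -- the deficiency bound
  have hD : ∀ j ≤ J, ∀ {σ : Type} (T : Finset σ) (π : ℕ → σ → ℝ), IsChan (2 ^ k) T π →
      (T.card : ℝ) ≤ Real.exp (A ^ j * c0) →
      0 ≤ avg S (fun p => defic p (2 ^ k) u T π) ∧
        avg S (fun p => defic p (2 ^ k) u T π) ≤ Real.log (100 * Real.exp y) + 1 := by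
    intro j hj σ T π hπ hT
    refine h2 P S E k u T π _ (Real.exp y) hP2 hS hE hu hπ hT (Real.one_le_exp hy0.le)
      (by rw [hlogk]; exact hk2) ?_
    refine num_D hPexp hP2' ((hcj_hi j hj).trans ?_) (h80.trans (hc80.trans hc0y)) hey.le hk1
    have := mul_le_of_le_one_left hey.le hη1.le
    linarith only [this]
  -- the step
  have hw0 : 0 < 1 / h := by positivity
  have hw1 : 1 / h ≤ 1 := (div_le_one hpos).2 hone
  have key : ∀ i j : ℕ, j + i = J → ∀ {σ : Type} (T : Finset σ) (π : ℕ → σ → ℝ),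
      IsChan (2 ^ k) T π → (T.card : ℝ) ≤ Real.exp (A ^ j * c0) →
      j * κ ≤ avg S (fun p => defic p (2 ^ k) u T π) →
      avg S (fun p => excW p (Real.exp (b * y)) (2 ^ k) u T π) ≤ 1 / h := by
    intro i
    induction i with
    | zero =>
      intro j hj σ T π hπ hT hd
      have hj' : j = J := by omega
      rw [hj'] at hT hd
      exact absurd (hd.trans (hD J le_rfl T π hπ hT).2) (not_le.2 hJκ)
    | succ i ih =>
      intro j hj σ T π hπ hT hd
      obtain ⟨c, hc⟩ : ∃ c : ℝ, c = A ^ j * c0 := ⟨_, rfl⟩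
      have hclo : c0 ≤ c := hc ▸ hcj_lo j
      have hchi : c ≤ η / 24 * Real.exp y := hc ▸ hcj_hi j (by omega)
      rw [← hc] at hT
      have hc40 : 38 * h ^ 40 ≤ c := h80.trans (hc80.trans hclo)
      have hc38 : 38 ≤ c := by linarith only [hc40, h40]
      obtain ⟨k', hk'k, hk'3, hk'4, hk'5, hcη⟩ := num_k' hη hη1 hc38 hchi hk1
      have hα := num_α hκ0 hh1
      obtain ⟨α1, hα1⟩ : ∃ α1 : ℝ, α1 =
        (1 / h) ^ 2 / 4 * Real.exp (-((4 * κ / (1 / h) + 1) * 4 / (1 / h) ^ 2)) := ⟨_, rfl⟩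
      rw [← hα1] at hα
      obtain ⟨ρ, hρ⟩ : ∃ ρ : ℝ, ρ = Real.log (E * 2 ^ k') := ⟨_, rfl⟩
      have hρ1 : ρ = Real.log E + k' * Real.log 2 := hρ.trans (hlogk k')
      have hρlo : h ^ 80 ≤ ρ := by
        rw [hρ1]
        exact (hc80.trans (hclo.trans hk'4)).trans (le_add_of_nonneg_left hlogE)
      have hρhi : ρ ≤ Real.exp y := by
        have e1 : (k' : ℝ) * Real.log 2 ≤ k * Real.log 2 :=
          mul_le_mul_of_nonneg_right (by exact_mod_cast hk'k) hl2.le
        linarith only [e1, hρ1, hk2]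
      have hEk : (0 : ℝ) < E * 2 ^ k' := by positivity
      have hexpρ : Real.exp ρ = E * 2 ^ k' := hρ ▸ Real.exp_log hEk
      have hNG := hG h hh0 P S hP hS y ρ (α1 * (1 / h) / 8) (Real.exp (b * y)) hy1 hy2 hρlo hρhi
        hα le_rfl
      have hR2 : Real.exp (2 * ρ) = ((E : ℝ) * 2 ^ k') ^ 2 := by
        rw [← hexpρ, ← Real.exp_nat_mul]; norm_num
      rw [hR2] at hNG
      have hs0 : 16 * Real.exp c / (α1 * (1 / h) * 2 ^ k') ≤ Real.exp (-(1 - η) * ρ) := by
        refine num_s0 hη hα hρ1 hlogE (hEy.trans hclo) ?_ hk'3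
        have e6 : h ^ 4 ≤ h ^ 40 := hpow 4 40 (by norm_num)
        linarith only [e6, hc40, h40]
      rcases h1 S E k k' u T π (Real.exp (b * y)) (1 / h) κ c α1 hne hk'k hu hπ (Real.exp_pos _)
        hw0 hw1 hκ0.le hT hα1 (NoGrowth.mono hNG hs0) with h | ⟨T', π', hπ', hT', hd', he'⟩
      · exact h
      · refine he'.trans (ih (j + 1) (by omega) T' π' hπ' ?_ ?_)
        · have e1 : (T'.card : ℝ) ≤ T.card * (2 * (E * 2 ^ k') + 1) ^ 2 := by exact_mod_cast hT'
          have e2 : (1 : ℝ) ≤ E * 2 ^ k' :=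
            one_le_mul_of_one_le_of_one_le hE' (one_le_pow₀ (by norm_num))
          have e5 : A ^ (j + 1) * c0 = 10 * (c / η) := by
            rw [hc, pow_succ, hA]; ring
          rw [e5]
          exact num_card hT e1 hexpρ e2 hρ1 (hEy.trans hclo) hk'5 hcη (by linarith only [hc38])
        · push_cast; linarith only [hd, hd']
  have hfin := key J 0 (by simp) ((range (2 ^ k)).image C)
    (fun n x => if C n = x then 1 / ((2 ^ k : ℕ) : ℝ) else 0) (isChan_det _ C)
    (by simpa using hC) (by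
      simpa using (hD 0 (Nat.zero_le _) _ _ (isChan_det _ C) (by simpa using hC)).1)
  rw [avg_comm]
  refine le_trans (le_of_eq ?_) hfin
  exact avg_congr fun p _ => (excW_det p _ _ u C).symm

end Crest.Agent.R2
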