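import Crest.Agent.R2.ProjStepAux

/-! Row 2: the return-displacement dichotomy. -/

set_option autoImplicit false

open Finset
open scoped Pointwise Classical

namespace Crest.Agent.R2

namespace PS

/-- the disc of radius `R` -/
noncomputable def disc (R : ℕ) : Finset GI := (ball R).filter (fun v => v.norm ≤ (R : ℤ) ^ 2)

theorem mem_disc {R : ℕ} {v : GI} : v ∈ disc R ↔ v.norm ≤ (R : ℤ) ^ 2 :=
  ⟨fun h => (mem_filter.1 h).2, fun h => mem_filter.2 ⟨mem_ball_of_norm_le h, h⟩⟩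

/-- residues of large mass -/
noncomputable def Aset (p : SPrime) (q : ℝ) (s : Finset ℕ) (u : ℕ → GI) (m : ℕ → ℝ) :
    Finset (ZMod p.1) := univ.filter (fun a => q / p.1 * ∑ n ∈ s, m n < push p s u m a)

/-- information carried by the displacement about the residue -/
noncomputable def infp (p : SPrime) (s : Finset ℕ) (u : ℕ → GI) (B : ℕ → ℕ) (m : ℕ → ℝ)
    (D : Finset GI) : ℝ :=
  info D (fun d => push p s u (fun n => pd s u (gk s B m) n d)) (push p s u m)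
    (fun d => ∑ n ∈ s, pd s u (gk s B m) n d) (∑ n ∈ s, m n) p.1

/-- the approximately invariant vector -/
noncomputable def fv (p : SPrime) (q : ℝ) (s : Finset ℕ) (u : ℕ → GI) (m : ℕ → ℝ)
    (a : ZMod p.1) : ℝ :=
  if a ∈ Aset p q s u m then √(push p s u m a / ∑ n ∈ s, m n) else 0

/-- the kernel restricted to heavy blocks -/
noncomputable def gh (s : Finset ℕ) (B : ℕ → ℕ) (m : ℕ → ℝ) (θ : ℝ) (n n' : ℕ) : ℝ :=
  if θ ≤ mB s B m (B n) then gk s B m n n' else 0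

/-- the law of the displacement inside heavy blocks -/
noncomputable def Wt (s : Finset ℕ) (u : ℕ → GI) (B : ℕ → ℕ) (m : ℕ → ℝ) (θ : ℝ) (d : GI) : ℝ :=
  (∑ n ∈ s, pd s u (gh s B m θ) n d) / ∑ n ∈ s, m n

variable {p : SPrime} {q θ : ℝ} {s : Finset ℕ} {u : ℕ → GI} {B : ℕ → ℕ} {m : ℕ → ℝ}
  {D : Finset GI}

theorem sum_pd_gk (hm : ∀ n ∈ s, 0 ≤ m n)
    (hD : ∀ n ∈ s, ∀ n' ∈ s, B n = B n' → u n' - u n ∈ D) {n : ℕ} (hn : n ∈ s) :
    ∑ d ∈ D, pd s u (gk s B m) n d = m n := by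
  have := sum_pd_mul (s := s) (u := u) (g := gk s B m) (D := D) (n := n)
    (fun n' hn' h => hD n hn n' hn' (eq_of_gk_ne_zero h)) (fun _ => 1)
  simp only [mul_one] at this
  rw [this, sum_gk hm hn]

theorem joint (p : SPrime) (hm : ∀ n ∈ s, 0 ≤ m n)
    (hD : ∀ n ∈ s, ∀ n' ∈ s, B n = B n' → u n' - u n ∈ D) :
    Joint D (fun d => push p s u (fun n => pd s u (gk s B m) n d)) (push p s u m)
      (fun d => ∑ n ∈ s, pd s u (gk s B m) n d) (∑ n ∈ s, m n) where
  nonneg d _ a := push_nonneg p u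
    (fun n hn => pd_nonneg (fun n' hn' => gk_nonneg hm hn hn') d) a
  left a := by
    unfold push
    rw [sum_comm]
    exact sum_congr rfl fun n hn => sum_pd_gk hm hD (mem_filter.1 hn).1
  right d _ := sum_push p s u _
  total := sum_push p s u m

theorem transfer (hD : ∀ n ∈ s, ∀ n' ∈ s, B n = B n' → u n' - u n ∈ D)
    (G : ZMod p.1 → ZMod p.1 → ℝ) :
    ∑ d ∈ D, ∑ a, push p s u (fun n => pd s u (gk s B m) n d) a * G a (a + res p d) =
      ∑ n ∈ s, ∑ n' ∈ s, gk s B m n n' * G (res p (u n)) (res p (u n')) := by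
  simp only [sum_push_mul]
  rw [sum_comm]
  refine sum_congr rfl fun n hn => ?_
  rw [sum_pd_mul (fun n' hn' h => hD n hn n' hn' (eq_of_gk_ne_zero h))
    (fun d => G (res p (u n)) (res p (u n) + res p d))]
  refine sum_congr rfl fun n' _ => ?_
  rw [map_sub, add_sub_cancel]

theorem exc_le_eA (hm : ∀ n ∈ s, 0 ≤ m n) (hq : 0 ≤ q) :
    ∑ a, max (push p s u m a - q / p.1 * ∑ n ∈ s, m n) 0 ≤
      ∑ a ∈ Aset p q s u m, push p s u m a := by
  rw [Aset, sum_filter]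
  refine sum_le_sum fun a _ => ?_
  have h1 : 0 ≤ q / p.1 * ∑ n ∈ s, m n :=
    mul_nonneg (div_nonneg hq (Nat.cast_nonneg _)) (sum_nonneg hm)
  have h2 := push_nonneg p u hm a
  split_ifs with h
  · exact max_le (by linarith) h2
  · exact max_le (by linarith) le_rfl

theorem eA_le (hm : ∀ n ∈ s, 0 ≤ m n) : ∑ a ∈ Aset p q s u m, push p s u m a ≤ ∑ n ∈ s, m n := by
  rw [← sum_push p s u m]
  exact sum_le_sum_of_subset_of_nonneg (subset_univ _) fun a _ _ => push_nonneg p u hm a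

theorem fv_nonneg (a : ZMod p.1) : 0 ≤ fv p q s u m a := by
  unfold fv
  split_ifs <;> positivity

theorem sum_fv_sq (hm : ∀ n ∈ s, 0 ≤ m n) (ht : 0 < ∑ n ∈ s, m n) :
    ∑ a, fv p q s u m a ^ 2 ≤ 1 := by
  have : ∑ a, fv p q s u m a ^ 2 ≤ ∑ a, push p s u m a / ∑ n ∈ s, m n := by
    refine sum_le_sum fun a _ => ?_
    have h1 := div_nonneg (push_nonneg p u hm a) ht.le
    unfold fv
    split_ifs
    · rw [Real.sq_sqrt h1]
    · simpa using h1
  rwa [← sum_div, sum_push, div_self ht.ne'] at this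

theorem card_fv (hm : ∀ n ∈ s, 0 ≤ m n) (ht : 0 < ∑ n ∈ s, m n) (hq : 0 ≤ q) :
    ((univ.filter (fun a => fv p q s u m a ≠ 0)).card : ℝ) * q ≤ p.1 := by
  have h1 : (univ.filter (fun a => fv p q s u m a ≠ 0)).card ≤ (Aset p q s u m).card := by
    refine card_le_card fun a ha => ?_
    by_contra hn
    exact (mem_filter.1 ha).2 (if_neg hn)
  have h2 : (Aset p q s u m).card • (q / p.1 * ∑ n ∈ s, m n) ≤
      ∑ a ∈ Aset p q s u m, push p s u m a :=
    card_nsmul_le_sum _ _ _ fun a ha => (mem_filter.1 ha).2.le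
  have h3 := h2.trans (eA_le hm)
  rw [nsmul_eq_mul, ← mul_assoc, mul_le_iff_le_one_left ht, ← mul_div_assoc,
    div_le_one p.pos] at h3
  exact (mul_le_mul_of_nonneg_right (by exact_mod_cast h1) hq).trans h3

theorem invar_full (hm : ∀ n ∈ s, 0 ≤ m n) (ht : 0 < ∑ n ∈ s, m n) (hq : 0 ≤ q)
    (hD : ∀ n ∈ s, ∀ n' ∈ s, B n = B n' → u n' - u n ∈ D) {l L : ℝ} (hl : 0 < l) (hL : 0 ≤ L)
    (he : l * ∑ n ∈ s, m n ≤ ∑ a ∈ Aset p q s u m, push p s u m a)
    (hI : infp p s u B m D ≤ L * ∑ n ∈ s, m n) :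
    l ^ 2 * Real.exp (-((L + 1) / l ^ 2)) * ∑ n ∈ s, m n ≤
      ∑ n ∈ s, ∑ n' ∈ s, gk s B m n n' *
        ∑ a, fv p q s u m a * fv p q s u m (a + res p (u n' - u n)) := by
  have h1 := (joint p hm hD).core p.pos ht (fun d a => a + res p d) (Aset p q s u m)
    (E0 := l ^ 2) (L := L + 1) (fun a ha => ?_) (by positivity) (by linarith) ?_ ?_
    (by unfold infp at hI; linarith)
  · refine h1.trans (le_of_eq ?_)
    simp only [sum_mul]
    rw [sum_comm]
    exact sum_congr rfl fun n hn =>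
      sum_pd_mul (fun n' hn' h => hD n hn n' hn' (eq_of_gk_ne_zero h))
        (fun d => ∑ a, fv p q s u m a * fv p q s u m (a + res p d))
  · exact lt_of_le_of_lt (mul_nonneg (div_nonneg hq (Nat.cast_nonneg _)) ht.le) (mem_filter.1 ha).2
  · rw [transfer hD (fun a b => if a ∈ Aset p q s u m ∧ b ∈ Aset p q s u m then
        Real.log (push p s u m b) else 0),
      transfer hD (fun a b => if a ∈ Aset p q s u m ∧ b ∈ Aset p q s u m then
        Real.log (push p s u m a) else 0), sum_comm]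
    refine sum_congr rfl fun n _ => sum_congr rfl fun n' _ => ?_
    rw [gk_symm n' n]
    simp only [and_comm]
  · rw [transfer hD (fun a b => if a ∈ Aset p q s u m ∧ b ∈ Aset p q s u m then 1 else 0)]
    have h2 := return_bound (B := B) hm
      (fun n => if res p (u n) ∈ Aset p q s u m then 1 else 0)
      (fun n => by split_ifs <;> simp) l
    have h3 : ∑ n ∈ s, m n * (if res p (u n) ∈ Aset p q s u m then 1 else 0) =
        ∑ a ∈ Aset p q s u m, push p s u m a := by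
      rw [← sum_push_mul p s u m (fun a => if a ∈ Aset p q s u m then 1 else 0)]
      simp only [mul_ite, mul_one, mul_zero]
      rw [sum_ite_mem, univ_inter]
    rw [h3] at h2
    simp only [ite_zero_mul_ite_zero, mul_one] at h2
    have h4 := mul_le_mul_of_nonneg_left he hl.le
    linarith

theorem gh_symm (n n' : ℕ) : gh s B m θ n n' = gh s B m θ n' n := by
  unfold gh
  by_cases h : B n = B n'
  · rw [h, gk_symm]
  · simp only [gk, if_neg h, if_neg (Ne.symm h), ite_self]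

theorem gh_nonneg (hm : ∀ n ∈ s, 0 ≤ m n) {n n' : ℕ} (hn : n ∈ s) (hn' : n' ∈ s) :
    0 ≤ gh s B m θ n n' := by
  unfold gh
  split_ifs
  · exact gk_nonneg hm hn hn'
  · exact le_rfl

theorem gh_le_gk (hm : ∀ n ∈ s, 0 ≤ m n) {n n' : ℕ} (hn : n ∈ s) (hn' : n' ∈ s) :
    gh s B m θ n n' ≤ gk s B m n n' := by
  unfold gh
  split_ifs
  · exact le_rfl
  · exact gk_nonneg hm hn hn'

theorem eq_of_gh_ne_zero {n n' : ℕ} (h : gh s B m θ n n' ≠ 0) : B n = B n' := by
  refine eq_of_gk_ne_zero (s := s) (m := m) fun h0 => h ?_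
  rw [gh, h0, ite_self]

theorem sum_Wt_mul (hD : ∀ n ∈ s, ∀ n' ∈ s, B n = B n' → u n' - u n ∈ D) (F : GI → ℝ) :
    ∑ d ∈ D, Wt s u B m θ d * F d =
      (∑ n ∈ s, ∑ n' ∈ s, gh s B m θ n n' * F (u n' - u n)) / ∑ n ∈ s, m n := by
  simp only [Wt, div_mul_eq_mul_div, ← sum_div, sum_mul]
  rw [sum_comm]
  congr 1
  exact sum_congr rfl fun n hn =>
    sum_pd_mul (fun n' hn' h => hD n hn n' hn' (eq_of_gh_ne_zero h)) F

theorem Wt_nonneg (hm : ∀ n ∈ s, 0 ≤ m n) (d : GI) : 0 ≤ Wt s u B m θ d :=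
  div_nonneg (sum_nonneg fun _ hn => pd_nonneg (fun _ hn' => gh_nonneg hm hn hn') d)
    (sum_nonneg hm)

theorem Wt_neg (d : GI) : Wt s u B m θ (-d) = Wt s u B m θ d := by
  rw [Wt, Wt, sum_pd_neg gh_symm]

theorem Wt_le (hm : ∀ n ∈ s, 0 ≤ m n) (ht : 0 < ∑ n ∈ s, m n) (hu : Set.InjOn u s) {M : ℝ}
    (hM0 : 0 ≤ M) (hM : ∀ n ∈ s, m n ≤ M) (hθ : 0 < θ) (d : GI) : Wt s u B m θ d ≤ M / θ := by
  rw [Wt, div_le_iff₀ ht, mul_sum]
  refine sum_le_sum fun n hn => pd_le hu (mul_nonneg (by positivity) (hm n hn)) (fun n' hn' => ?_) d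
  have h0 : 0 ≤ M / θ * m n := mul_nonneg (by positivity) (hm n hn)
  unfold gh gk
  split_ifs with h1 h2
  · rw [div_mul_eq_mul_div, mul_comm M]
    exact div_le_div₀ (mul_nonneg (hm n hn) hM0)
      (mul_le_mul_of_nonneg_left (hM n' hn') (hm n hn)) hθ h1
  · exact h0
  · exact h0

theorem sum_Wt_le (hm : ∀ n ∈ s, 0 ≤ m n) (ht : 0 < ∑ n ∈ s, m n)
    (hD : ∀ n ∈ s, ∀ n' ∈ s, B n = B n' → u n' - u n ∈ D) : ∑ d ∈ D, Wt s u B m θ d ≤ 1 := by
  have := sum_Wt_mul (m := m) (θ := θ) hD (fun _ => 1)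
  simp only [mul_one] at this
  rw [this, div_le_one ht]
  refine sum_le_sum fun n hn => ?_
  rw [← sum_gk (B := B) hm hn]
  exact sum_le_sum fun n' hn' => gh_le_gk hm hn hn'

theorem invar_heavy (hm : ∀ n ∈ s, 0 ≤ m n) (ht : 0 < ∑ n ∈ s, m n) (hθ : 0 ≤ θ)
    (hD : ∀ n ∈ s, ∀ n' ∈ s, B n = B n' → u n' - u n ∈ D) (F : GI → ℝ) (hF : ∀ d, F d ≤ 1)
    {α β : ℝ} (h1 : (α + β) * ∑ n ∈ s, m n ≤ ∑ n ∈ s, ∑ n' ∈ s, gk s B m n n' * F (u n' - u n))
    (h2 : (s.image B).card * θ ≤ β * ∑ n ∈ s, m n) : α ≤ ∑ d ∈ D, Wt s u B m θ d * F d := by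
  rw [sum_Wt_mul hD, le_div_iff₀ ht]
  have h3 := light_mass (s := s) (B := B) (m := m) hθ
  have h4 : ∑ n ∈ s, ∑ n' ∈ s, gk s B m n n' * F (u n' - u n) ≤
      ∑ n ∈ s, ∑ n' ∈ s, gh s B m θ n n' * F (u n' - u n) +
        ∑ n ∈ s, m n * (if θ ≤ mB s B m (B n) then 0 else 1) := by
    rw [← sum_add_distrib]
    refine sum_le_sum fun n hn => ?_
    unfold gh
    split_ifs with h
    · simp
    · simp only [zero_mul, sum_const_zero, zero_add, mul_one]
      rw [← sum_gk (B := B) hm hn]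
      exact sum_le_sum fun n' hn' => mul_le_of_le_one_right (gk_nonneg hm hn hn') (hF _)
  linarith

theorem card_blocks {k k' : ℕ} (hk : k' ≤ k) :
    ((range (2 ^ k)).image (· / 2 ^ k')).card * 2 ^ k' ≤ 2 ^ k := by
  have h4 : (range (2 ^ k)).image (· / 2 ^ k') ⊆ range (2 ^ (k - k')) := by
    intro b hb
    obtain ⟨n, hn, rfl⟩ := mem_image.1 hb
    rw [mem_range, Nat.div_lt_iff_lt_mul (Nat.two_pow_pos k'), ← pow_add, Nat.sub_add_cancel hk]
    exact mem_range.1 hn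
  have h5 := card_le_card h4
  rw [card_range] at h5
  calc _ ≤ 2 ^ (k - k') * 2 ^ k' := Nat.mul_le_mul_right _ h5
    _ = 2 ^ k := by rw [← pow_add, Nat.sub_add_cancel hk]

theorem sub_mem_disc {E N L : ℕ} (hL : 0 < L) (hu : IsPath E u N) :
    ∀ n ∈ range N, ∀ n' ∈ range N, n / L = n' / L → u n' - u n ∈ disc (E * L) := by
  intro n hn n' hn' h
  have h1 := Nat.div_add_mod n L
  have h2 := Nat.div_add_mod n' L
  have h3 := Nat.mod_lt n hL
  have h4 := Nat.mod_lt n' hL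
  rw [h] at h1
  exact mem_disc.2 (hu.norm_le (mem_range.1 hn') (mem_range.1 hn) (by omega) (by omega))

/-- a heavy label with many good primes contradicts `NoGrowth` -/
theorem label_contra {S : Finset SPrime} {R : ℕ} {N L w κ c α1 : ℝ} (hN : 0 < N) (hL : 0 < L)
    (hm : ∀ n ∈ s, 0 ≤ m n) (hM : ∀ n ∈ s, m n ≤ 1 / N) (hu : Set.InjOn u s)
    (hD : ∀ n ∈ s, ∀ n' ∈ s, B n = B n' → u n' - u n ∈ disc R)
    (hB : ((s.image B).card : ℝ) * L ≤ N) (hq : 0 < q) (hw : 0 < w) (hw1 : w ≤ 1) (hκ : 0 ≤ κ)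
    (hα : α1 = w ^ 2 / 4 * Real.exp (-((4 * κ / w + 1) * 4 / w ^ 2)))
    (hNG : NoGrowth S q (α1 * w / 8) (16 * Real.exp c / (α1 * w * L)) ((R : ℝ) ^ 2))
    (ht0 : w / 8 / Real.exp c ≤ ∑ n ∈ s, m n)
    (hcard : w / 8 * S.card ≤ (S.filter (fun p =>
      w / 2 * ∑ n ∈ s, m n ≤ ∑ a ∈ Aset p q s u m, push p s u m a ∧
        infp p s u B m (disc R) ≤ 4 * κ / w * ∑ n ∈ s, m n)).card) : False := by
  have ht : 0 < ∑ n ∈ s, m n := lt_of_lt_of_le (by positivity) ht0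
  have hα0 : 0 < α1 := by rw [hα]; positivity
  have hα1 : α1 ≤ 1 := by
    have h1 : Real.exp (-((4 * κ / w + 1) * 4 / w ^ 2)) ≤ 1 :=
      Real.exp_le_one_iff.2 (neg_nonpos.2 (by positivity))
    rw [hα]
    exact mul_le_one₀ (by nlinarith) (Real.exp_pos _).le h1
  have hθ : 0 < α1 / 2 * L / N * ∑ n ∈ s, m n := by positivity
  refine hNG (disc R) (Wt s u B m (α1 / 2 * L / N * ∑ n ∈ s, m n))
    _ (fun p => fv p q s u m) ⟨fun v hv => ⟨Wt_nonneg hm v, ?_, ?_⟩,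
      sum_Wt_le hm ht hD⟩ (fun v hv => ⟨?_, Wt_neg v⟩) (filter_subset _ _) (le_trans ?_ hcard)
    fun p hp => ⟨fv_nonneg, sum_fv_sq hm ht, card_fv hm ht hq.le, ?_⟩
  · refine (Wt_le hm ht hu (by positivity) hM hθ v).trans ?_
    rw [div_le_iff₀ (Real.exp_pos c)] at ht0
    rw [div_le_div_iff₀ hθ (by positivity)]
    have h1 := mul_le_mul_of_nonneg_left ht0 (by positivity : 0 ≤ 8 * α1 * L / N)
    refine le_trans (le_of_eq ?_) (h1.trans (le_of_eq ?_)) <;> ring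
  · exact_mod_cast mem_disc.1 hv
  · rw [mem_disc, Zsqrtd.norm_neg]
    exact mem_disc.1 hv
  · refine mul_le_mul_of_nonneg_right ?_ (Nat.cast_nonneg _)
    nlinarith
  · obtain ⟨-, he, hi⟩ := mem_filter.1 hp
    have h1 := invar_full hm ht hq.le hD (by positivity) (by positivity) he hi
    have h2 : (w / 2) ^ 2 * Real.exp (-((4 * κ / w + 1) / (w / 2) ^ 2)) = α1 / 2 + α1 / 2 := by
      have : (4 * κ / w + 1) / (w / 2) ^ 2 = (4 * κ / w + 1) * 4 / w ^ 2 := by
        field_simp; ring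
      rw [this, hα]; ring
    rw [h2] at h1
    refine le_trans (by nlinarith) (invar_heavy hm ht hθ.le hD
      (fun d => ∑ a, fv p q s u m a * fv p q s u m (a + res p d))
      (fun d => corr_le_one _ (sum_fv_sq hm ht) _) h1 ?_)
    rw [← div_le_one hN] at hB
    have h7 := mul_le_mul_of_nonneg_right hB (by positivity : 0 ≤ α1 / 2 * ∑ n ∈ s, m n)
    refine le_trans (le_of_eq ?_) (h7.trans (le_of_eq ?_)) <;> ring

/-- the refined channel -/
noncomputable def chan {τ : Type} (s : Finset ℕ) (u : ℕ → GI) (B : ℕ → ℕ) (π : ℕ → τ → ℝ)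
    (n : ℕ) (xd : τ × GI) : ℝ := pd s u (gk s B (fun n => π n xd.1)) n xd.2

section chan
variable {τ : Type} {T : Finset τ} {π : ℕ → τ → ℝ} {N : ℕ}

theorem chan_isChan (hπ : IsChan N T π)
    (hD : ∀ n ∈ range N, ∀ n' ∈ range N, B n = B n' → u n' - u n ∈ D) :
    IsChan N (T ×ˢ D) (chan (range N) u B π) := by
  have hm : ∀ x ∈ T, ∀ n ∈ range N, 0 ≤ π n x := fun x hx n hn => hπ.1 n (mem_range.1 hn) x hx
  refine ⟨fun n hn xd hxd => ?_, fun n hn => ?_⟩
  · exact pd_nonneg (fun n' hn' => gk_nonneg (hm _ (mem_product.1 hxd).1) (mem_range.2 hn) hn') _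
  · rw [sum_product, ← hπ.2 n hn]
    exact sum_congr rfl fun x hx => sum_pd_gk (hm x hx) hD (mem_range.2 hn)

theorem defic_chan (p : SPrime) (hπ : IsChan N T π)
    (hD : ∀ n ∈ range N, ∀ n' ∈ range N, B n = B n' → u n' - u n ∈ D) :
    defic p N u (T ×ˢ D) (chan (range N) u B π) =
      defic p N u T π + ∑ x ∈ T, infp p (range N) u B (fun n => π n x) D := by
  have hm : ∀ x ∈ T, ∀ n ∈ range N, 0 ≤ π n x := fun x hx n hn => hπ.1 n (mem_range.1 hn) x hx
  unfold defic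
  rw [sum_product, ← sum_add_distrib]
  refine sum_congr rfl fun x hx => ?_
  rw [infp, (joint p (hm x hx) hD).info_eq, add_sub_cancel]
  rfl

theorem excW_chan (p : SPrime) (hπ : IsChan N T π)
    (hD : ∀ n ∈ range N, ∀ n' ∈ range N, B n = B n' → u n' - u n ∈ D) :
    excW p q N u T π ≤ excW p q N u (T ×ˢ D) (chan (range N) u B π) := by
  have hm : ∀ x ∈ T, ∀ n ∈ range N, 0 ≤ π n x := fun x hx n hn => hπ.1 n (mem_range.1 hn) x hx
  unfold excW
  rw [sum_product]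
  exact sum_le_sum fun x hx => (joint p (hm x hx) hD).exc_le _

end chan

end PS

open PS in
theorem projStep : ProjStepStmt := by
  intro S E k k' u τ T π q w κ c α1 hS hk hu hπ hq hw hw1 hκ hT hα hNG
  rw [or_iff_not_imp_left, not_le]
  intro hexc
  have hB := card_blocks hk
  have hD := sub_mem_disc (Nat.two_pow_pos k') hu
  have hN : (0 : ℝ) < (2 ^ k : ℕ) := by positivity
  generalize 2 ^ k = N at *
  have hm : ∀ x ∈ T, ∀ n ∈ range N, 0 ≤ π n x := fun x hx n hn => hπ.1 n (mem_range.1 hn) x hx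
  refine ⟨T ×ˢ disc (E * 2 ^ k'), chan (range N) u (· / 2 ^ k') π, chan_isChan hπ hD, ?_, ?_,
    avg_le_avg fun p _ => excW_chan p hπ hD⟩
  · rw [card_product, ← card_ball]
    exact Nat.mul_le_mul_left _ (card_filter_le _ _)
  rw [avg_congr fun p _ => defic_chan p hπ hD, avg_add, add_le_add_iff_left]
  by_contra hlt
  rw [not_le] at hlt
  have hI : ∀ x ∈ T, ∀ p ∈ S,
      0 ≤ infp p (range N) u (· / 2 ^ k') (fun n => π n x) (disc (E * 2 ^ k')) :=
    fun x hx p _ => (joint p (hm x hx) hD).info_nonneg p.pos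
  have hκ' : 0 < κ := (avg_nonneg fun p hp => sum_nonneg fun x hx => hI x hx p hp).trans_lt hlt
  have hSc : (0 : ℝ) < S.card := by exact_mod_cast hS.card_pos
  have htot : ∑ x ∈ T, ∑ n ∈ range N, π n x ≤ 1 := by
    rw [sum_comm, sum_congr rfl fun n hn => hπ.2 n (mem_range.1 hn), sum_const, card_range,
      nsmul_eq_mul, mul_one_div_cancel hN.ne']
  have h1 : T.card * (w / 8 / Real.exp c) ≤ w / 8 := by
    rw [← mul_div_assoc, div_le_iff₀ (Real.exp_pos c), mul_comm]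
    exact mul_le_mul_of_nonneg_left hT (by positivity)
  have h2 : w * S.card < ∑ p ∈ S, ∑ x ∈ T,
      ∑ a ∈ Aset p q (range N) u (fun n => π n x), push p (range N) u (fun n => π n x) a := by
    rw [avg, lt_div_iff₀ hSc] at hexc
    exact hexc.trans_le (sum_le_sum fun p _ => sum_le_sum fun x hx => exc_le_eA (hm x hx) hq.le)
  rw [avg, div_lt_iff₀ hSc] at hlt
  obtain ⟨x, hx, ht0, hcard⟩ := select T S (fun x => ∑ n ∈ range N, π n x)
    (fun x p => ∑ a ∈ Aset p q (range N) u (fun n => π n x), push p (range N) u (fun n => π n x) a)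
    (fun x p => infp p (range N) u (· / 2 ^ k') (fun n => π n x) (disc (E * 2 ^ k')))
    hw hκ' (fun x hx => sum_nonneg (hm x hx)) htot
    (fun x hx p _ => eA_le (hm x hx)) hI (by positivity) h1 h2 hlt.le
  refine label_contra (L := 2 ^ k') (c := c) hN (by positivity) (hm x hx) (fun n hn => ?_) hu.injOn
    hD (by exact_mod_cast hB) hq hw hw1 hκ hα (by exact_mod_cast hNG) ht0 hcard
  rw [← hπ.2 n (mem_range.1 hn)]
  exact single_le_sum (fun y hy => hm y hy n hn) hx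

end Crest.Agent.R2
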