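import Crest.Agent.R2.Basic

/-! Row 2: from the absence of long unsieved paths to bounded components. -/

set_option autoImplicit false

open Finset
open scoped Pointwise Classical

namespace Crest.Agent.R2

namespace Reduce

open Crest.NumberTheoryR

theorem step_le {D : ℝ} {E : ℕ} (hE : D ≤ E) {v w : GI} (p : (gaussianPrimeGraph D).Walk v w)
    (i d : ℕ) (h : i + d ≤ p.length) :
    ‖GaussianInt.toComplex (p.getVert i - p.getVert (i + d))‖ ≤ E * d := by
  induction d with
  | zero => simp
  | succ d ih =>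
    have h1 := ih (by omega)
    have h2 := (p.adj_getVert_succ (i := i + d) (by omega)).2.2.2
    have e : p.getVert i - p.getVert (i + (d + 1)) =
        (p.getVert i - p.getVert (i + d)) + (p.getVert (i + d) - p.getVert (i + d + 1)) := by
      rw [← add_assoc]; ring
    rw [e, map_add]
    refine (norm_add_le _ _).trans ?_
    push_cast
    linarith

theorem norm_le_of {v : GI} {R : ℕ} (h : ‖GaussianInt.toComplex v‖ ≤ R) :
    v.norm ≤ (R : ℤ) ^ 2 := by
  have h1 : (v.norm : ℝ) ≤ (R : ℝ) ^ 2 := by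
    rw [GaussianInt.intCast_real_norm, Complex.normSq_eq_norm_sq]
    exact pow_le_pow_left₀ (norm_nonneg _) h 2
  exact_mod_cast h1

theorem walk_norm_le {D : ℝ} {E : ℕ} (hE : D ≤ E) {v w : GI} (p : (gaussianPrimeGraph D).Walk v w)
    {i j : ℕ} (hi : i ≤ p.length) (hj : j ≤ p.length) :
    (p.getVert i - p.getVert j).norm ≤ ((E : ℤ) * ((i : ℤ) - j)) ^ 2 := by
  have key : ∀ i d, i + d ≤ p.length →
      (p.getVert i - p.getVert (i + d)).norm ≤ ((E : ℤ) * d) ^ 2 := fun i d h => by
    have := norm_le_of (R := E * d) (by push_cast; exact step_le hE p i d h)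
    push_cast at this
    exact this
  rcases le_total i j with h | h
  · obtain ⟨d, rfl⟩ := Nat.exists_eq_add_of_le h
    refine (key i d hj).trans (le_of_eq ?_)
    push_cast; ring
  · obtain ⟨d, rfl⟩ := Nat.exists_eq_add_of_le h
    rw [← Zsqrtd.norm_neg, neg_sub]
    refine (key j d hi).trans (le_of_eq ?_)
    push_cast; ring

theorem norm_eq_of_res {p : SPrime} {z : GI} (hz : Irreducible z) (h : res p z = 0) :
    z.norm = p.1 := by
  obtain ⟨π, h1, h2⟩ := exists_pi p
  obtain ⟨u, rfl⟩ := (h2 z).1 h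
  rcases hz.isUnit_or_isUnit rfl with hu | hu
  · have := (Zsqrtd.norm_eq_one_iff' (by norm_num) π).2 hu
    rw [h1] at this
    have h3 := p.two_le
    omega
  · rw [Zsqrtd.norm_mul, h1, (Zsqrtd.norm_eq_one_iff' (by norm_num) u).2 hu, mul_one]

theorem length_lt {D : ℝ} {E N B : ℕ} (hE : D ≤ E)
    (h : ∀ z : ℕ → GI, IsPath E z N → ∃ p ∈ upto B, ∃ i < N, res p (z i) = 0) {v w : GI}
    (p : (gaussianPrimeGraph D).Walk v w) (hp : p.IsPath) :
    p.length < ((2 * B + 1) ^ 2 + 1) * N := by
  by_contra hl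
  rw [not_lt] at hl
  have hP : IsPath E p.getVert p.length := fun i hi j hj =>
    ⟨fun e => hp.getVert_injOn (show i ≤ p.length from hi.le) (show j ≤ p.length from hj.le) e,
      walk_norm_le hE p hi.le hj.le⟩
  have hle : ∀ t < (2 * B + 1) ^ 2 + 1, t * N + N ≤ p.length := fun t ht =>
    le_trans (by rw [← Nat.succ_mul]; exact Nat.mul_le_mul_right _ ht) hl
  have hex : ∀ t, ∃ i, t < (2 * B + 1) ^ 2 + 1 → i < N ∧ p.getVert (t * N + i) ∈ ball B := by
    intro t
    by_cases ht : t < (2 * B + 1) ^ 2 + 1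
    · obtain ⟨q, hq, i, hi, hr⟩ := h _ (hP.shift (t * N) N (hle t ht))
      refine ⟨i, fun _ => ⟨hi, mem_ball_of_norm_le ?_⟩⟩
      have hirr := (p.adj_getVert_succ (i := t * N + i) (by have := hle t ht; omega)).2.1
      rw [norm_eq_of_res hirr hr]
      have := mem_upto.1 hq
      have h2 : q.1 ≤ B ^ 2 := this.trans (Nat.le_self_pow (by norm_num) B)
      exact_mod_cast h2
    · exact ⟨0, fun h' => absurd h' ht⟩
  choose ι hι using hex
  have hc := card_le_card_of_injOn (s := range ((2 * B + 1) ^ 2 + 1)) (t := ball B)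
    (fun t => p.getVert (t * N + ι t)) (fun t ht => (hι t (by simpa using ht)).2)
    (fun t ht t' ht' e => by
      have a1 : t < (2 * B + 1) ^ 2 + 1 := by simpa using ht
      have a2 : t' < (2 * B + 1) ^ 2 + 1 := by simpa using ht'
      have b1 := (hι t a1).1
      have b2 := (hι t' a2).1
      have c1 := hle t a1
      have c2 := hle t' a2
      have e' := (hP _ (by omega) _ (by omega)).1 e
      have hN : 0 < N := by omega
      have e1 : (t * N + ι t) / N = (t' * N + ι t') / N := by rw [e']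
      rwa [Nat.add_comm, Nat.add_mul_div_right _ _ hN, Nat.add_comm (t' * N),
        Nat.add_mul_div_right _ _ hN, Nat.div_eq_of_lt b1, Nat.div_eq_of_lt b2, zero_add,
        zero_add] at e1)
  rw [card_range, card_ball] at hc
  omega

end Reduce

theorem reduce (h : NoPathStmt) : FinalStmt := by
  intro D
  obtain ⟨N, B, hNB⟩ := h ⌈D⌉₊
  set R := ⌈D⌉₊ * (((2 * B + 1) ^ 2 + 1) * N) with hR
  refine ⟨(2 * R + 1) ^ 2, fun c => ?_⟩
  obtain ⟨v, rfl⟩ := c.exists_rep
  have hsub : SimpleGraph.ConnectedComponent.supp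
      (Quot.mk (Crest.NumberTheoryR.gaussianPrimeGraph D).Reachable v) ⊆
      ((ball R).image (fun x => v - x) : Finset GI) := by
    intro w hw
    have hr : (Crest.NumberTheoryR.gaussianPrimeGraph D).Reachable v w :=
      (SimpleGraph.ConnectedComponent.exact hw).symm
    obtain ⟨p, hp⟩ := hr.exists_isPath
    have h1 := Reduce.length_lt (Nat.le_ceil D) hNB p hp
    have h2 := Reduce.step_le (Nat.le_ceil D) p 0 p.length (by omega)
    rw [zero_add, p.getVert_zero, p.getVert_length] at h2
    have h3 : v - w ∈ ball R := by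
      refine mem_ball_of_norm_le (Reduce.norm_le_of (h2.trans ?_))
      rw [hR]
      exact_mod_cast Nat.mul_le_mul_left _ h1.le
    exact mem_coe.2 (mem_image.2 ⟨v - w, h3, by ring⟩)
  refine ⟨(finite_toSet _).subset hsub, (Set.ncard_le_ncard hsub (finite_toSet _)).trans ?_⟩
  rw [Set.ncard_coe_finset, ← card_ball]
  exact card_image_le

end Crest.Agent.R2
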