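import Crest.Agent.R2.Defs

/-! Six-point lemma: an approximate field of multipliers. -/

set_option autoImplicit false

open Finset
open scoped Pointwise Classical

namespace Crest.Agent.R2

namespace Six

theorem card_scale {c : ℂ} (hc : c ≠ 0) (X Y : Finset ℂ) : #(c • X - c • Y) = #(X - Y) := by
  rw [← card_smul_finset₀ hc (X - Y)]
  congr 1
  ext z
  simp only [mem_sub, mem_smul_finset, smul_eq_mul]
  constructor
  · rintro ⟨_, ⟨a, ha, rfl⟩, _, ⟨b, hb, rfl⟩, rfl⟩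
    exact ⟨a - b, ⟨a, ha, b, hb, rfl⟩, by ring⟩
  · rintro ⟨_, ⟨a, ha, b, hb, rfl⟩, rfl⟩
    exact ⟨_, ⟨a, ha, rfl⟩, _, ⟨b, hb, rfl⟩, by ring⟩

theorem card_sub_comm (X Y : Finset ℂ) : #(X - Y) = #(Y - X) := by
  rw [← card_neg, neg_sub]

theorem sum_rule (X : Finset ℂ) (g g' c : ℂ) :
    #((g + c * g') • X - X) * #X ^ 2 ≤ #(g • X - X) * #(g' • X - X) * #(X + c • X - X) := by
  have hex : ∀ z : ℂ, ∃ ab : ℂ × ℂ, z ∈ (g + c * g') • X - X →
      ab.1 ∈ X ∧ ab.2 ∈ X ∧ (g + c * g') * ab.1 - ab.2 = z := by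
    intro z
    by_cases hz : z ∈ (g + c * g') • X - X
    · simp only [mem_sub, mem_smul_finset, smul_eq_mul] at hz
      obtain ⟨_, ⟨a, ha, rfl⟩, b, hb, rfl⟩ := hz
      exact ⟨(a, b), fun _ => ⟨ha, hb, rfl⟩⟩
    · exact ⟨(0, 0), fun h => absurd h hz⟩
  choose r hr using hex
  rw [sq, ← card_product X X, ← card_product, ← card_product, ← card_product]
  refine card_le_card_of_injOn (fun w => ((g * (r w.1).1 - w.2.1, g' * (r w.1).1 - w.2.2),
    w.2.1 + c * w.2.2 - (r w.1).2)) ?_ ?_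
  · rintro ⟨z, a, b⟩ hw
    simp only [coe_product, Set.mem_prod, mem_coe] at hw ⊢
    obtain ⟨h1, h2, -⟩ := hr z hw.1
    exact ⟨⟨sub_mem_sub (smul_mem_smul_finset h1) hw.2.1,
      sub_mem_sub (smul_mem_smul_finset h1) hw.2.2⟩,
      sub_mem_sub (add_mem_add hw.2.1 (smul_mem_smul_finset hw.2.2)) h2⟩
  · rintro ⟨z, a, b⟩ hw ⟨z', a', b'⟩ hw' h
    simp only [coe_product, Set.mem_prod, mem_coe] at hw hw'
    simp only [Prod.mk.injEq] at h ⊢
    obtain ⟨⟨e1, e2⟩, e3⟩ := h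
    have hz : z = z' := by
      rw [← (hr z hw.1).2.2, ← (hr z' hw'.1).2.2]
      linear_combination e1 + c * e2 + e3
    subst hz
    exact ⟨rfl, by linear_combination -e1, by linear_combination -e2⟩

/-- `g` is a multiplier of degree `m` -/
def Deg (X : Finset ℂ) (κ : ℝ) (m : ℕ) (g : ℂ) : Prop := (#(g • X - X) : ℝ) ≤ κ ^ m * #X

variable {X : Finset ℂ} {κ : ℝ} {m m' : ℕ} {g g' : ℂ}

theorem Deg.mul (hX : X.Nonempty) (hκ : 0 ≤ κ) (hg : g ≠ 0) (h : Deg X κ m g) (h' : Deg X κ m' g') :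
    Deg X κ (m + m') (g * g') := by
  have h1 := ruzsa_triangle_inequality_sub_sub_sub ((g * g') • X) (g • X) X
  rw [card_smul_finset₀ hg, mul_smul, card_scale hg, card_sub_comm X] at h1
  have h2 : (#(g • g' • X - X) : ℝ) * #X ≤ #(g' • X - X) * #(g • X - X) := by exact_mod_cast h1
  have h0 : (0 : ℝ) < #X := by exact_mod_cast hX.card_pos
  unfold Deg at *
  rw [mul_smul]
  refine le_of_mul_le_mul_right (h2.trans ?_) h0
  calc _ ≤ (κ ^ m' * #X) * (κ ^ m * #X) := by gcongr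
    _ = _ := by ring

theorem Deg.inv (hg : g ≠ 0) (h : Deg X κ m g) : Deg X κ m g⁻¹ := by
  unfold Deg at *
  rwa [← card_scale hg, smul_smul, mul_inv_cancel₀ hg, one_smul, card_sub_comm]

theorem Deg.lin (hX : X.Nonempty) (hκ : 0 ≤ κ) {c : ℂ} (hc : (#(X + c • X - X) : ℝ) ≤ κ ^ 3 * #X)
    (h : Deg X κ m g) (h' : Deg X κ m' g') : Deg X κ (m + m' + 3) (g + c * g') := by
  have h2 : (#((g + c * g') • X - X) : ℝ) * #X ^ 2 ≤
      #(g • X - X) * #(g' • X - X) * #(X + c • X - X) := by exact_mod_cast sum_rule X g g' c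
  have h0 : (0 : ℝ) < #X := by exact_mod_cast hX.card_pos
  unfold Deg at *
  refine le_of_mul_le_mul_right (h2.trans ?_) (pow_pos h0 2)
  calc _ ≤ (κ ^ m * #X) * (κ ^ m' * #X) * (κ ^ 3 * #X) := by gcongr
    _ = _ := by ring

theorem pl (hX : X.Nonempty) (h : Deg X κ 1 1) (a b : ℕ) :
    (#(a • X - b • X) : ℝ) ≤ κ ^ (a + b) * #X := by
  have h1 := pluennecke_ruzsa_inequality_nsmul_sub_nsmul_sub hX X a b
  have h0 : (0 : ℝ) < #X := by exact_mod_cast hX.card_pos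
  have h2 : (#(a • X - b • X) : ℝ) ≤ (#(X - X) / #X : ℝ) ^ (a + b) * #X := by
    have := (NNRat.cast_le (K := ℝ)).2 h1
    push_cast at this
    exact this
  refine h2.trans ?_
  have h3 : (#(X - X) / #X : ℝ) ≤ κ := by
    rw [div_le_iff₀ h0]
    simpa [Deg] using h
  gcongr

theorem Deg.add (hX : X.Nonempty) (hκ : 0 ≤ κ) (h1 : Deg X κ 1 1) (h : Deg X κ m g)
    (h' : Deg X κ m' g') : Deg X κ (m + m' + 3) (g + g') := by
  have := Deg.lin hX hκ (c := 1) (by simpa [two_nsmul] using pl hX h1 2 1) h h'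
  rwa [one_mul] at this

theorem Deg.sub (hX : X.Nonempty) (hκ : 0 ≤ κ) (h1 : Deg X κ 1 1) (h : Deg X κ m g)
    (h' : Deg X κ m' g') : Deg X κ (m + m' + 3) (g - g') := by
  have e : X + (-1 : ℂ) • X - X = 1 • X - 2 • X := by
    have : (-1 : ℂ) • X = -X := by ext z; simp
    rw [this, one_nsmul, two_nsmul, ← sub_eq_add_neg, sub_sub]
  have := Deg.lin hX hκ (c := -1) (by rw [e]; exact pl hX h1 1 2) h h'
  rwa [neg_one_mul, ← sub_eq_add_neg] at this

end Six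

open Six in
theorem six (h : BSGStmt) : SixStmt := by
  intro A G K x x' hK hA hG hAG x0 x1 x2 y0 y1 y2 hxy hE
  have hn : (0 : ℝ) < #A := by exact_mod_cast hA.card_pos
  have hK0 : 0 < K := by linarith
  have edges : ∀ X Y : Finset ℂ, ∑ a ∈ X, ∑ b ∈ Y,
      (if (a, b) ∈ G then (1 / #A : ℝ) * (1 / #A) else 0) =
        #((X ×ˢ Y).filter (· ∈ G)) / (#A : ℝ) ^ 2 := by
    intro X Y
    rw [← sum_product' (f := fun a b => if (a, b) ∈ G then (1 / #A : ℝ) * (1 / #A) else 0),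
      ← sum_filter, sum_const, nsmul_eq_mul]
    field_simp
  obtain ⟨X, hX, Y, hY, h1, h2⟩ := h A A (fun _ => 1 / #A) (fun _ => 1 / #A)
    (fun a b => (a, b) ∈ G) K (1 / #A) (1 / #A) hK0 (fun _ _ => ⟨by positivity, le_rfl⟩)
    (fun _ _ => ⟨by positivity, le_rfl⟩) (by simp [hn.ne']) (by simp [hn.ne'])
    (by
      have : 1 / K ≤ ∑ a ∈ A, ∑ b ∈ A, (if (a, b) ∈ G then (1 / #A : ℝ) * (1 / #A) else 0) := by
        rw [edges, filter_mem_eq_inter, inter_eq_right.2 hG, div_le_div_iff₀ hK0 (by positivity)]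
        linarith
      convert this)
  set E := (X ×ˢ Y).filter (· ∈ G) with hEdef
  have h3 : (#A : ℝ) ^ 2 ≤ 24 * K ^ 2 * #E := by
    have : 1 / (24 * K ^ 2) ≤ #E / (#A : ℝ) ^ 2 := by
      rw [← edges]; convert h1
    rw [div_le_div_iff₀ (by positivity) (by positivity)] at this
    linarith
  have h4 : (#E : ℝ) ≤ #X * #Y := by
    have := card_filter_le (X ×ˢ Y) (· ∈ G)
    rw [card_product] at this
    exact_mod_cast this
  have hXY : (0 : ℝ) < #X * #Y := by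
    by_contra hc
    have : (#A : ℝ) ^ 2 ≤ 0 := by nlinarith [sq_nonneg K]
    nlinarith
  have hX0 : X.Nonempty := by
    rw [nonempty_iff_ne_empty]; rintro rfl; simp at hXY
  have hY0 : Y.Nonempty := by
    rw [nonempty_iff_ne_empty]; rintro rfl; simp at hXY
  have hXp : (0 : ℝ) < #X := by exact_mod_cast hX0.card_pos
  have hYp : (0 : ℝ) < #Y := by exact_mod_cast hY0.card_pos
  have form : ∀ t : ℂ, t ≠ 0 → t ≠ 1 → (∀ e ∈ G, e.1 + t * (e.2 - e.1) ∈ A) →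
      (#((1 - t⁻¹) • X - Y) : ℝ) ≤ 2 ^ 14 * K ^ 5 * #A := by
    intro t t0 t1 ht
    have r0 : 1 - t⁻¹ ≠ 0 := by
      rw [sub_ne_zero]; intro hc; exact t1 (by rw [← inv_inv t, ← hc, inv_one])
    have := h2 (fun a => (1 - t⁻¹) * a) (fun b => -b) ((-t⁻¹) • A)
      (mul_right_injective₀ r0).injOn neg_injective.injOn (fun a _ b _ hab => by
        refine mem_smul_finset.2 ⟨_, ht _ hab, ?_⟩
        simp only [smul_eq_mul]; field_simp; ring)
    rw [card_smul_finset₀ (neg_ne_zero.2 (inv_ne_zero t0))] at this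
    have e : (1 - t⁻¹) • X - Y = X.image (fun a => (1 - t⁻¹) * a) + Y.image (fun b => -b) := by
      rw [sub_eq_add_neg]; rfl
    rw [e]
    refine this.trans (le_of_eq ?_)
    field_simp
  set κ : ℝ := 2 ^ 33 * K ^ 12 with hκ
  have κ0 : 0 ≤ κ := by positivity
  have quo : ∀ ρ ρ' : ℂ, ρ' ≠ 0 → (#(ρ • X - Y) : ℝ) ≤ 2 ^ 14 * K ^ 5 * #A →
      (#(ρ' • X - Y) : ℝ) ≤ 2 ^ 14 * K ^ 5 * #A → Deg X κ 1 (ρ / ρ') := by
    intro ρ ρ' h0 k1 k2
    have k3 : (#(ρ • X - ρ' • X) : ℝ) * #Y ≤ #(ρ • X - Y) * #(ρ' • X - Y) := by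
      exact_mod_cast ruzsa_triangle_inequality_sub_sub_sub (ρ • X) Y (ρ' • X)
    unfold Deg
    rw [← card_scale h0, smul_smul, mul_div_cancel₀ _ h0]
    refine le_of_mul_le_mul_right (k3.trans ?_) hYp
    calc _ ≤ (2 ^ 14 * K ^ 5 * #A) * (2 ^ 14 * K ^ 5 * #A) := by gcongr
      _ = 2 ^ 28 * K ^ 10 * (#A : ℝ) ^ 2 := by ring
      _ ≤ 2 ^ 28 * K ^ 10 * (32 * K ^ 2 * (#X * #Y)) := by
        gcongr
        refine h3.trans ?_
        gcongr
        norm_num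
      _ = _ := by rw [hκ]; ring
  have x2' : x + 1 ≠ 0 := fun hc => x2 (by linear_combination hc)
  have y2' : x' + 1 ≠ 0 := fun hc => y2 (by linear_combination hc)
  have x1' : x - 1 ≠ 0 := sub_ne_zero.2 x1
  have y1' : x' - 1 ≠ 0 := sub_ne_zero.2 y1
  have hxy' : x' - x ≠ 0 := sub_ne_zero.2 hxy.symm
  have f1 := form x x0 x1 fun e he => (hE e he).1
  have f2 := form (x + 1) x2' (by simpa using x0) fun e he => (hE e he).2.1
  have f3 := form x' y0 y1 fun e he => (hE e he).2.2.1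
  have f4 := form (x' + 1) y2' (by simpa using y0) fun e he => (hE e he).2.2.2
  have e1 : 1 - x⁻¹ = (x - 1) / x := by field_simp
  have e2 : 1 - (x + 1)⁻¹ = x / (x + 1) := by field_simp; ring
  have e3 : 1 - x'⁻¹ = (x' - 1) / x' := by field_simp
  have e4 : 1 - (x' + 1)⁻¹ = x' / (x' + 1) := by field_simp; ring
  rw [e1] at f1
  rw [e2] at f2
  rw [e3] at f3
  rw [e4] at f4
  have n1 : (x - 1) / x ≠ 0 := div_ne_zero x1' x0
  have n2 : x / (x + 1) ≠ 0 := div_ne_zero x0 x2'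
  have n3 : (x' - 1) / x' ≠ 0 := div_ne_zero y1' y0
  have n4 : x' / (x' + 1) ≠ 0 := div_ne_zero y0 y2'
  have d1 : Deg X κ 1 1 := by simpa [div_self n1] using quo _ _ n1 f1 f1
  have d12 := quo _ _ n2 f1 f2
  have d34 := quo _ _ n4 f3 f4
  have d13 := quo _ _ n3 f1 f3
  set r := (x - 1) / x / ((x' - 1) / x') with hr
  have r0 : r ≠ 0 := div_ne_zero n1 n3
  have r1 : 1 - r = (x' - x) / (x * (x' - 1)) := by rw [hr]; field_simp; ring
  have r1' : 1 - r ≠ 0 := by rw [r1]; exact div_ne_zero hxy' (mul_ne_zero x0 y1')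
  have dnum := Deg.sub hX0 κ0 d1 d12 (Deg.mul hX0 κ0 r0 d13 (Deg.mul hX0 κ0 r0 d13 d34))
  have dden := Deg.mul hX0 κ0 r0 d13 (Deg.mul hX0 κ0 r1' (Deg.sub hX0 κ0 d1 d1 d13)
    (Deg.add hX0 κ0 d1 d1 d1))
  have nden : r * ((1 - r) * (1 + 1)) ≠ 0 := mul_ne_zero r0 (mul_ne_zero r1' (by norm_num))
  have d3 := Deg.mul hX0 κ0 (inv_ne_zero nden) (dden.inv nden) dnum
  have e5 : (r * ((1 - r) * (1 + 1)))⁻¹ * ((x - 1) / x / (x / (x + 1)) -
      r * (r * ((x' - 1) / x' / (x' / (x' + 1))))) = (x' - 1) / x' := by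
    rw [inv_mul_eq_iff_eq_mul₀ nden, hr]; field_simp; ring
  rw [e5] at d3
  have h5 : (#(Y - X) : ℝ) ≤ κ ^ 18 * (2 ^ 14 * K ^ 5 * #A) := by
    have k1 := ruzsa_triangle_inequality_sub_sub_sub Y (((x' - 1) / x') • X) X
    rw [card_smul_finset₀ n3, card_sub_comm Y (_ • X), card_sub_comm X (_ • X)] at k1
    have k2 : (#(Y - X) : ℝ) * #X ≤ #(((x' - 1) / x') • X - Y) * #(((x' - 1) / x') • X - X) := by
      exact_mod_cast k1
    refine le_of_mul_le_mul_right (k2.trans ?_) hXp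
    have k3 : (#(((x' - 1) / x') • X - X) : ℝ) ≤ κ ^ 18 * #X := d3
    calc _ ≤ (2 ^ 14 * K ^ 5 * #A) * (κ ^ 18 * #X) := by gcongr
      _ = _ := by ring
  obtain ⟨d, -, hd⟩ := exists_max_image (Y - X) (fun d => #(G.filter fun e => e.2 - e.1 = d))
    (hY0.sub hX0)
  refine ⟨d, ?_⟩
  have h6 : #E ≤ #(G.filter fun e => e.2 - e.1 = d) * #(Y - X) := by
    refine card_le_mul_card_image_of_maps_to (f := fun e : ℂ × ℂ => e.2 - e.1) (fun e he => ?_) _
      fun b hb => le_trans (card_le_card fun e he => ?_) (hd b hb)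
    · have := mem_product.1 (mem_filter.1 he).1
      exact sub_mem_sub this.2 this.1
    · exact mem_filter.2 ⟨(mem_filter.1 (mem_filter.1 he).1).2, (mem_filter.1 he).2⟩
  have h7 : (#E : ℝ) ≤ #(G.filter fun e => e.2 - e.1 = d) * #(Y - X) := by exact_mod_cast h6
  set f : ℝ := (#(G.filter fun e => e.2 - e.1 = d) : ℝ) with hf
  have f0 : 0 ≤ f := by positivity
  have h8 : (#A : ℝ) * #A ≤ (2 ^ 613 * K ^ 223 * f) * #A :=
    calc _ = (#A : ℝ) ^ 2 := by ring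
      _ ≤ 24 * K ^ 2 * (f * (κ ^ 18 * (2 ^ 14 * K ^ 5 * #A))) :=
        h3.trans (by gcongr; exact h7.trans (by gcongr))
      _ ≤ 2 ^ 5 * K ^ 2 * (f * (κ ^ 18 * (2 ^ 14 * K ^ 5 * #A))) := by gcongr; norm_num
      _ = _ := by rw [hκ]; generalize (2 : ℝ) = w; ring
  refine (le_of_mul_le_mul_right h8 hn).trans ?_
  exact mul_le_mul_of_nonneg_right (mul_le_mul (pow_le_pow_right₀ one_le_two (by norm_num))
    (pow_le_pow_right₀ hK (by norm_num)) (by positivity) (by positivity)) f0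

end Crest.Agent.R2
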