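import Crest.Agent.R2.Basic

/-! # Row 2: the entropy decrement step -/

set_option autoImplicit false

open Finset
open scoped Pointwise Classical

namespace Crest.Agent.R2

namespace StepAux

theorem log_cost (D k : ℕ) :
    Real.log ((2 * (D * 2 ^ k) + 1) ^ 2) ≤ Real.log ((2 * D + 1) ^ 2) + 2 * k := by
  have h1 : (1 : ℝ) ≤ 2 ^ k := one_le_pow₀ (by norm_num)
  have h2 : (2 * (D * 2 ^ k) + 1 : ℝ) ≤ (2 * D + 1) * 2 ^ k := by nlinarith
  have h3 := Real.log_le_log (by positivity) h2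
  rw [Real.log_mul (by positivity) (by positivity), Real.log_pow] at h3
  have h4 : Real.log 2 ≤ 1 := by have := Real.log_two_lt_d9; linarith
  have h5 : (k : ℝ) * Real.log 2 ≤ k := mul_le_of_le_one_right (Nat.cast_nonneg k) h4
  rw [Real.log_pow, Real.log_pow]
  push_cast
  linarith

theorem big_pow {j : ℕ} (hj : 100 ≤ j) : 400000000 * j ≤ 2 ^ j := by
  induction j, hj using Nat.le_induction with
  | base => norm_num
  | succ j hj ih => rw [pow_succ]; omega

theorem t_ge {j : ℕ} (hj : 100 ≤ j) :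
    (2 : ℝ) ^ j / (400000000 * j) ≤ (2 ^ j / (200000000 * j) : ℕ) := by
  have h0 : 0 < 200000000 * j := by omega
  have h1 := Nat.div_add_mod (2 ^ j) (200000000 * j)
  have h2 := Nat.mod_lt (2 ^ j) h0
  have h3 := big_pow hj
  have h4 : 1 ≤ 2 ^ j / (200000000 * j) := (Nat.one_le_div_iff h0).2 (by omega)
  have h5 : 2 ^ j ≤ (2 ^ j / (200000000 * j)) * (400000000 * j) := by nlinarith
  rw [div_le_iff₀ (by positivity)]
  exact_mod_cast h5

theorem tc_le {j : ℕ} (hj : 1 ≤ j) :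
    ((2 ^ j / (200000000 * j) : ℕ) : ℝ) * ((j + 1) * Real.log 2) ≤ 7 / 10 ^ 9 * 2 ^ j := by
  have h0 : (1 : ℝ) ≤ j := by exact_mod_cast hj
  have h1 : ((2 ^ j / (200000000 * j) : ℕ) : ℝ) ≤ 2 ^ j / (200000000 * j) := by
    have := Nat.cast_div_le (α := ℝ) (m := 2 ^ j) (n := 200000000 * j)
    push_cast at this
    exact this
  have h2 : ((j : ℝ) + 1) * Real.log 2 ≤ 2 * j * (7 / 10) :=
    mul_le_mul (by linarith) (by have := Real.log_two_lt_d9; linarith)
      (Real.log_nonneg one_le_two) (by positivity)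
  refine (mul_le_mul h1 h2 (by have := Real.log_nonneg (one_le_two (α := ℝ)); positivity)
    (by positivity)).trans (le_of_eq ?_)
  field_simp
  norm_num

theorem geom (J : Finset ℕ) (j : ℕ) : ∑ j' ∈ J with j' ≤ j, (2 : ℝ) ^ j' ≤ 2 * 2 ^ j := by
  have h1 : ∑ j' ∈ J with j' ≤ j, (2 : ℝ) ^ j' ≤ ∑ j' ∈ range (j + 1), (2 : ℝ) ^ j' :=
    sum_le_sum_of_subset_of_nonneg
      (fun x hx => mem_range.2 (Nat.lt_succ_of_le (mem_filter.1 hx).2)) fun _ _ _ => by positivity
  rw [geom_sum_eq (by norm_num), pow_succ] at h1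
  linarith

/-- the numerical upper bound for the drop of `psi` -/
theorem drop {x L n a b A B : ℝ} (hx : 10 ^ 25 ≤ x) (hL : L ≤ x) (hn : n ≤ x)
    (hb : b ≤ L) (hab : a - b < 1 / 10 ^ 24)
    (hA : A ≤ L + 2 * x ^ 500009 + x ^ 11 * (L + 2 * (1000001 * n)) + x ^ 11 * x ^ 499999 * a)
    (hB : x ^ 11 * x ^ 499999 * (1 - x ^ 11 / x ^ 500002) * b ≤ B) :
    A - B < 3 / 10 ^ 24 * x ^ 500010 := by
  have x1 : 1 ≤ x := by linarith
  have x0 : 0 < x := by linarith
  obtain ⟨y, hy⟩ : ∃ y, y = x ^ 500009 := ⟨_, rfl⟩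
  have y0 : 0 < y := by rw [hy]; positivity
  have e1 : x ^ 500010 = y * x := by rw [hy, ← pow_succ]
  have e2 : x ^ 11 * x ^ 499999 = y * x := by rw [hy, ← pow_succ, ← pow_add]
  have e3 : x ≤ y := by rw [hy]; exact le_self_pow₀ x1 (by norm_num)
  have e4 : x ^ 11 * (L + 2 * (1000001 * n)) ≤ y := by
    calc _ ≤ x ^ 11 * (x * x) := mul_le_mul_of_nonneg_left (by nlinarith) (by positivity)
      _ = x ^ 13 := by ring
      _ ≤ y := by rw [hy]; exact pow_le_pow_right₀ x1 (by norm_num)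
  have e5 : x ^ 11 / x ^ 500002 * b ≤ 1 / 10 ^ 24 := by
    have h1 : x ^ 11 * x * x ≤ x ^ 500002 := by
      rw [← pow_succ, ← pow_succ]
      exact pow_le_pow_right₀ x1 (by norm_num)
    have h2 : (0 : ℝ) < x ^ 11 := by positivity
    rw [div_mul_eq_mul_div, div_le_iff₀ (by positivity)]
    have h3 : x ^ 11 * b ≤ x ^ 11 * x := mul_le_mul_of_nonneg_left (hb.trans hL) h2.le
    have h4 : x ^ 11 * x * 10 ^ 24 ≤ x ^ 11 * x * x :=
      mul_le_mul_of_nonneg_left (by linarith) (by positivity)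
    linarith
  rw [← hy, e2] at hA
  rw [e2, mul_assoc, sub_mul, one_mul] at hB
  rw [e1]
  have yx : 0 < y * x := mul_pos y0 x0
  have f1 : y * x * (a - b) < y * x * (1 / 10 ^ 24) := mul_lt_mul_of_pos_left hab yx
  have f2 : y * x * (x ^ 11 / x ^ 500002 * b) ≤ y * x * (1 / 10 ^ 24) :=
    mul_le_mul_of_nonneg_left e5 yx.le
  have f3 : y * 10 ^ 25 ≤ y * x := mul_le_mul_of_nonneg_left hx y0.le
  rw [mul_sub] at hB f1
  linarith

end StepAux

open StepAux in
theorem step (hC : ContraStmt) (hPhi : PhiStmt) (hU : PsiUpperStmt) (hL : PsiLowerStmt)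
    (hG : GreedyStmt) : StepStmt := by
  intro D hD
  obtain ⟨n0, hn0⟩ := hC D hD
  set L := Real.log ((2 * D + 1) ^ 2) with hLdef
  refine ⟨max n0 (max (10 ^ 25) ⌈L⌉₊), fun n hn u hu hgood S0 hS0 K hK z hz hres => ?_⟩
  have n1 : n0 ≤ n := le_trans (le_max_left _ _) hn
  have n2 : 10 ^ 25 ≤ n := le_trans (le_trans (le_max_left _ _) (le_max_right _ _)) hn
  have n3 : ⌈L⌉₊ ≤ n := le_trans (le_trans (le_max_right _ _) (le_max_right _ _)) hn
  have nu : n ≤ u := by rw [hu]; exact Nat.lt_two_pow_self.le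
  have nuR : (n : ℝ) ≤ u := by exact_mod_cast nu
  have n2R : (10 : ℝ) ^ 25 ≤ n := by exact_mod_cast n2
  have uR : (10 : ℝ) ^ 25 ≤ u := n2R.trans nuR
  have Lu : L ≤ u := (Nat.ceil_le.1 n3).trans nuR
  have u1 : 1 ≤ u := by omega
  have upow : ∀ m : ℕ, 2 ^ (m * n) = u ^ m := fun m => by rw [hu, ← pow_mul, mul_comm]
  have upowR : ∀ m : ℕ, (2 : ℝ) ^ (m * n) = (u : ℝ) ^ m := fun m => by exact_mod_cast upow m
  have b1 : 499999 * n ≤ 1000001 * n := by omega
  have b2 : 1000001 * n ≤ u ^ 500009 := by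
    have e1 : 1000001 * n ≤ u ^ 2 := by rw [sq]; exact Nat.mul_le_mul (by omega) nu
    exact e1.trans (Nat.pow_le_pow_right u1 (by norm_num))
  have b3 : u ^ 500009 ≤ K := (Nat.pow_le_pow_right u1 (by norm_num)).trans hK
  set S1 := S0 ∪ upto (2 * u ^ 1000001) with hS1
  by_contra hcon
  rw [not_le] at hcon
  have hA := hU D z K (u ^ 500009) (1000001 * n) (499999 * n) (u ^ 11) S0 b1 b2 b3 hz
  have hB := hL z K (u ^ 500009) (1000001 * n) (499999 * n) (u ^ 11) S1 b1 b2 b3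
  rw [show 1000001 * n - 499999 * n = 500002 * n by omega, upowR, upowR, Nat.cast_pow] at hB
  rw [upowR 499999, Nat.cast_pow] at hA
  have c1 := log_cost D (u ^ 500009)
  have c2 := mul_le_mul_of_nonneg_left (log_cost D (1000001 * n))
    (by positivity : (0 : ℝ) ≤ (u : ℝ) ^ 11)
  rw [Nat.cast_pow] at c1
  rw [Nat.cast_mul, Nat.cast_ofNat] at c2
  have hdrop := drop uR Lu nuR (hPhi.2.1 D z K _ S1 b3 hz) hcon
    (hA.trans (add_le_add (add_le_add c1 c2) le_rfl)) hB
  obtain ⟨l, hl⟩ : ∃ l : ℝ, l = (u : ℝ) ^ 500010 := ⟨_, rfl⟩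
  have l0 : 0 < l := by rw [hl]; positivity
  rw [← hl] at hdrop
  set J := (Ico (1000000 * n) (1000001 * n)).filter (fun j => Good (2 ^ j) (scale j)) with hJ
  have hJ1 : ∀ j ∈ J, 1000000 * n ≤ j ∧ j < 1000001 * n ∧ Good (2 ^ j) (scale j) := fun j hj =>
    ⟨(mem_Ico.1 (mem_filter.1 hj).1).1, (mem_Ico.1 (mem_filter.1 hj).1).2, (mem_filter.1 hj).2⟩
  have hsub : ∀ j ∈ J, scale j ⊆ upto (2 * u ^ 1000001) := by
    intro j hj p hp
    have e1 := (mem_scale.1 hp).2
    have e2 : 2 ^ (j + 1) ≤ 2 ^ (1000001 * n) := Nat.pow_le_pow_right two_pos (hJ1 j hj).2.1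
    rw [upow] at e2
    exact mem_upto.2 (by omega)
  obtain ⟨j, hj, S', -, -, hlog, havg⟩ := hG
    (psi z K (u ^ 500009) (1000001 * n) (499999 * n) (u ^ 11)) J scale
    (fun j => 2 ^ j / (200000000 * j)) (fun j => 1 / 10000000 * l / 2 ^ j)
    (fun j => (j + 1) * Real.log 2) S0 S1 (hPhi.2.2.2 z K _ _ _ _) subset_union_left
    (by
      intro j hj
      refine ⟨(hsub j hj).trans subset_union_right, ?_,
        mul_nonneg (by positivity) (Real.log_nonneg one_le_two), fun p hp => ?_⟩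
      · rw [nonempty_iff_ne_empty]
        intro h0
        have := (hJ1 j hj).2.2.2
        rw [h0, card_empty, Nat.cast_zero, mul_zero] at this
        exact absurd this (not_le.2 (by positivity))
      · have e1 : (p.1 : ℝ) ≤ 2 ^ (j + 1) := by exact_mod_cast (mem_scale.1 hp).2.le
        have := Real.log_le_log (by exact_mod_cast p.2.1.pos) e1
        rwa [Real.log_pow, Nat.cast_succ] at this)
    (by
      have n0R : (0 : ℝ) < n := by linarith
      have e1 : ∀ j ∈ J, 1 / 10000000 * l / (400000000 * (1000001 * n)) ≤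
          ((2 ^ j / (200000000 * j) : ℕ) : ℝ) * (1 / 10000000 * l / 2 ^ j) := by
        intro j hj
        have j1 := hJ1 j hj
        have j2 : (j : ℝ) ≤ 1000001 * n := by exact_mod_cast j1.2.1.le
        have j3 : (0 : ℝ) < j := by exact_mod_cast (show 0 < j by omega)
        refine le_trans ?_ (mul_le_mul_of_nonneg_right (t_ge (by omega)) (by positivity))
        calc _ ≤ 1 / 10000000 * l / (400000000 * j) := by gcongr
          _ = _ := by field_simp
      have e2 := card_nsmul_le_sum J _ _ e1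
      have e3 : (n : ℝ) ≤ 50 * J.card := by exact_mod_cast hgood
      rw [nsmul_eq_mul] at e2
      refine lt_of_lt_of_le hdrop (le_trans ?_ e2)
      calc 3 / 10 ^ 24 * l ≤ 1 / 10000000 / (50 * (400000000 * 1000001)) * l :=
            mul_le_mul_of_nonneg_right (by norm_num) l0.le
        _ = n / 50 * (1 / 10000000 * l / (400000000 * (1000001 * n))) := by field_simp
        _ ≤ _ := mul_le_mul_of_nonneg_right (by linarith) (by positivity))
  have j1 := hJ1 j hj
  have p1 : u ^ 1000000 ≤ 2 ^ j := by rw [← upow]; exact Nat.pow_le_pow_right two_pos j1.1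
  have p2 : 2 ^ j ≤ u ^ 1000001 := by rw [← upow]; exact Nat.pow_le_pow_right two_pos j1.2.1.le
  have hlog2 : ∑ p ∈ S', Real.log p.1 ≤ ((2 ^ j : ℕ) : ℝ) / 50000000 := by
    have e1 : ∑ j' ∈ J with j' ≤ j, ((2 ^ j' / (200000000 * j') : ℕ) : ℝ) * ((j' + 1) * Real.log 2)
        ≤ ∑ j' ∈ J with j' ≤ j, 7 / 10 ^ 9 * (2 : ℝ) ^ j' :=
      sum_le_sum fun j' hj' => tc_le (by have := (hJ1 j' (mem_filter.1 hj').1).1; omega)
    rw [← mul_sum] at e1
    have e2 := geom J j
    have e3 : (u : ℝ) ^ 999999 * u ≤ 2 ^ j := by rw [← pow_succ]; exact_mod_cast p1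
    have e4 : (u : ℝ) ^ 999999 * 10 ^ 25 ≤ (u : ℝ) ^ 999999 * u :=
      mul_le_mul_of_nonneg_left uR (by positivity)
    have e5 : (0 : ℝ) < 2 ^ j := by positivity
    rw [Nat.cast_pow, Nat.cast_ofNat]
    linarith
  have := hn0 n n1 u hu (2 ^ j) (scale j) S' p1 p2 j1.2.2 hlog2 K hK z hz
    (fun p hp => hres p (hsub j hj hp))
  rw [← hl, Nat.cast_pow, Nat.cast_ofNat] at this
  exact absurd havg (not_le.2 this)

end Crest.Agent.R2
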