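import Crest.Agent.R2.Basic

/-! # Row 2: iteration of the level lemma -/

set_option autoImplicit false

open Finset
open scoped Pointwise Classical

namespace Crest.Agent.R2

namespace UnderAux

variable {D : ℕ} {S : Finset SPrime} {k b : ℕ} {q q' q1 q2 M M' ε ε' : ℝ}

theorem hole_mono {G : (p : SPrime) → ZMod p.1 → ℝ} (h : IsHole S q G) (hq : q ≤ q') :
    IsHole S q' G := fun p hp => ⟨fun a => ⟨((h p hp).1 a).1, ((h p hp).1 a).2.trans hq⟩, (h p hp).2⟩

theorem A_of_M (h : UnderM D S k b q M ε) (hb : b ≤ k) : UnderA D S k q ε := by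
  intro z hz G hG
  refine (h z hz G hG).trans (avg_le_avg fun p _ => ?_)
  rw [avg_range_pow hb]
  exact avg_le_avg fun _ _ => min_le_right _ _

theorem A_mono (h : UnderA D S k q ε) (hq : q' ≤ q) (hε : ε ≤ ε') : UnderA D S k q' ε' :=
  fun z hz G hG => (sub_le_sub_left hε _).trans (h z hz G (hole_mono hG hq))

theorem C_mono (h : UnderC D S k q1 q2 ε) (hε : ε ≤ ε') : UnderC D S k q1 q2 ε' :=
  fun z hz G hG μ hμ => (sub_le_sub_left hε _).trans (h z hz G hG μ hμ)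

theorem M_mono (h : UnderM D S k b q M ε) (hM : M ≤ M') (hε : ε ≤ ε') : UnderM D S k b q M' ε' :=
  fun z hz G hG => (sub_le_sub_left hε _).trans ((h z hz G hG).trans
    (avg_le_avg fun _ _ => avg_le_avg fun _ _ => min_le_min_right _ hM))

theorem C_of_A (h : UnderA D S k q2 ε) (q1 : ℝ) : UnderC D S k q1 q2 ε := by
  intro z hz G hG μ hμ
  have hm : ∀ p : SPrime, mean p (fun y => ∑ c, μ p c * G p (y + c)) =
      mean p (G p) * ∑ a, μ p a := by
    intro p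
    unfold mean
    rw [sum_comm, mul_sum, sum_div]
    refine sum_congr rfl fun c _ => ?_
    rw [← mul_sum, Fintype.sum_equiv (Equiv.addRight c) (fun y => G p (y + c)) (G p) fun _ => rfl]
    ring
  have h1 := h z hz (fun p y => ∑ c, μ p c * G p (y + c)) fun p hp => by
    obtain ⟨hG1, hG2⟩ := hG p hp
    obtain ⟨hμ1, hμ2⟩ := hμ p hp
    have hp0 := p.pos
    have h0 : 0 ≤ mean p (G p) := div_nonneg (sum_nonneg fun a _ => (hG1 a).1) hp0.le
    have hq : 0 ≤ q2 / p.1 := (hμ1 0).1.trans (hμ1 0).2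
    refine ⟨fun y => ⟨sum_nonneg fun c _ => mul_nonneg (hμ1 c).1 (hG1 _).1, ?_⟩, ?_⟩
    · calc ∑ c, μ p c * G p (y + c) ≤ ∑ c, q2 / p.1 * G p (y + c) :=
            sum_le_sum fun c _ => mul_le_mul_of_nonneg_right (hμ1 c).2 (hG1 _).1
        _ = q2 / p.1 * (p.1 * mean p (G p)) := by
            rw [← mul_sum, Fintype.sum_equiv (Equiv.addLeft y) (fun c => G p (y + c)) (G p)
              fun _ => rfl, mean, mul_div_cancel₀ _ hp0.ne']
        _ ≤ q2 / p.1 * (p.1 * 1) := by gcongr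
        _ = q2 := by field_simp
    · rw [hm]
      exact mul_le_one₀ hG2 (sum_nonneg fun c _ => (hμ1 c).1) hμ2
  simpa only [hm] using h1

/-- the conclusion of `LevelOK` for fixed parameters -/
def Lev (D : ℕ) (S : Finset SPrime) (bb : ℕ) (h a b : ℝ) : Prop :=
  ∀ y x y' ε' : ℝ, h ^ 5 ≤ y → y ≤ a * h ^ 40 →
    0 ≤ x → x ≤ (1 - 2 * (5 / 10 ^ 6)) * y → h ^ 5 / 2 ≤ y' →
    b * y + y' ≤ (1 - 2 * (5 / 10 ^ 6)) * y → 0 ≤ ε' →
    UnderC D S ⌊Real.exp y'⌋₊ (Real.exp x) (Real.exp (b * y)) ε' →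
    UnderM D S ⌊Real.exp y⌋₊ bb (Real.exp x) (Real.exp (b * y) * h ^ 50) (ε' + 6 / h)

theorem pow_bounds {h : ℝ} (hh : 20 ≤ h) : 3200000 ≤ h ^ 5 ∧ 100 * h ≤ h ^ 5 ∧
    3200000 * h ^ 5 ≤ h ^ 40 := by
  have h4 : (20 : ℝ) ^ 4 ≤ h ^ 4 := pow_le_pow_left₀ (by norm_num) hh 4
  have h5 : (20 : ℝ) ^ 5 ≤ h ^ 5 := pow_le_pow_left₀ (by norm_num) hh 5
  have h35 : h ^ 5 ≤ h ^ 35 := pow_le_pow_right₀ (by linarith) (by norm_num)
  refine ⟨by linarith, ?_, ?_⟩
  · rw [show h ^ 5 = h ^ 4 * h by ring]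
    exact mul_le_mul_of_nonneg_right (by linarith) (by linarith)
  · rw [show h ^ 40 = h ^ 35 * h ^ 5 by ring]
    exact mul_le_mul_of_nonneg_right (by linarith) (by linarith)

theorem le_floor {h y : ℝ} (hh : 20 ≤ h) (hb : (b : ℝ) ≤ 3 * h ^ 40) (hy : h ^ 5 ≤ y) :
    b ≤ ⌊Real.exp y⌋₊ := by
  obtain ⟨h1, -, -⟩ := pow_bounds hh
  refine Nat.le_floor (hb.trans (le_trans ?_ (Real.exp_le_exp.2 hy)))
  refine le_trans ?_ (Real.pow_div_factorial_le_exp _ (by positivity) 9)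
  rw [le_div_iff₀ (by positivity), show (h ^ 5) ^ 9 = h ^ 40 * h ^ 5 by ring]
  have : (0 : ℝ) ≤ h ^ 40 := by positivity
  norm_num [Nat.factorial]
  nlinarith

theorem base (hF : FourierStmt) {h : ℝ} (hh : 20 ≤ h) (hb : (b : ℝ) ≤ 3 * h ^ 40)
    (L10 : Lev D S b h (5 / 100) (1 / 10))
    (hB : ∀ (y : ℝ) (k : ℕ), h ^ 5 ≤ y → y ≤ 3 * h ^ 5 → Real.exp y / 2 ≤ k →
      BiasLe D S k (Real.exp (-(18 / 100 * y)))) {y : ℝ} (h1 : 2 * h ^ 5 ≤ y)
    (h2 : y ≤ 4 * h ^ 5) :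
    UnderA D S ⌊Real.exp y⌋₊ (Real.exp ((1 - 2 * (5 / 10 ^ 6)) * y)) (13 / h) := by
  obtain ⟨p1, p2, p3⟩ := pow_bounds hh
  have h0 : 0 < h := by linarith
  have c1 := hF D S _ (Real.exp (1 / 10 * y)) (Real.exp (1 / 10 * (8 / 10 * y))) _
    (Real.exp_pos _).le (Real.exp_pos _).le
    (hB (64 / 100 * y) ⌊Real.exp (64 / 100 * y)⌋₊ (by linarith) (by linarith) (by
      have e1 := Nat.lt_floor_add_one (Real.exp (64 / 100 * y))
      have e2 : ((1 : ℕ) : ℝ) ≤ ⌊Real.exp (64 / 100 * y)⌋₊ := by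
        exact_mod_cast Nat.le_floor (by simpa using by linarith)
      push_cast at e2
      linarith))
  have c2 := C_mono c1 (ε' := 1 / h) (by
    rw [← Real.exp_add, ← Real.exp_half, ← Real.exp_add, le_div_iff₀ h0]
    have e1 : h ≤ Real.exp (25 / 1000 * y) := by linarith [Real.add_one_le_exp (25 / 1000 * y)]
    refine (mul_le_mul_of_nonneg_left e1 (Real.exp_pos _).le).trans ?_
    rw [← Real.exp_add, Real.exp_le_one_iff]
    linarith)
  have c3 := A_of_M (L10 (8 / 10 * y) (1 / 10 * y) (64 / 100 * y) (1 / h) (by linarith)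
    (by linarith) (by linarith) (by linarith) (by linarith) (by linarith) (by positivity) c2)
    (le_floor hh hb (by linarith))
  have c4 := A_of_M (L10 y ((1 - 2 * (5 / 10 ^ 6)) * y) (8 / 10 * y) (1 / h + 6 / h) (by linarith)
    (by linarith) (by linarith) le_rfl (by linarith) (by linarith) (by positivity)
    (C_of_A c3 _)) (le_floor hh hb (by linarith))
  exact A_mono c4 le_rfl (le_of_eq (by ring))

theorem step {h : ℝ} (hh : 20 ≤ h) (L2 : Lev D S b h (50002 / 100000) (35 / 100)) {y x : ℝ}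
    (h1 : h ^ 5 ≤ y) (h2 : y ≤ 50002 / 100000 * h ^ 40) (hx : 0 ≤ x)
    (hx' : x ≤ (1 - 2 * (5 / 10 ^ 6)) * y) (hε : 0 ≤ ε)
    (H : UnderA D S ⌊Real.exp (y / 2)⌋₊ (Real.exp ((1 - 2 * (5 / 10 ^ 6)) * (y / 2))) ε) :
    UnderM D S ⌊Real.exp y⌋₊ b (Real.exp x) (Real.exp (35 / 100 * y) * h ^ 50) (ε + 6 / h) := by
  obtain ⟨p1, -, -⟩ := pow_bounds hh
  exact L2 y x (y / 2) ε h1 h2 hx hx' (by linarith) (by linarith) hε
    (C_of_A (A_mono H (Real.exp_le_exp.2 (by linarith)) le_rfl) _)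

theorem iter (hF : FourierStmt) {h : ℝ} (hh : 20 ≤ h) (hb : (b : ℝ) ≤ 3 * h ^ 40)
    (L2 : Lev D S b h (50002 / 100000) (35 / 100)) (L10 : Lev D S b h (5 / 100) (1 / 10))
    (hB : ∀ (y : ℝ) (k : ℕ), h ^ 5 ≤ y → y ≤ 3 * h ^ 5 → Real.exp y / 2 ≤ k →
      BiasLe D S k (Real.exp (-(18 / 100 * y)))) (n : ℕ) : ∀ y : ℝ, 2 * h ^ 5 ≤ y →
    y ≤ 2 ^ n * (4 * h ^ 5) → y ≤ 50002 / 100000 * h ^ 40 →
    UnderA D S ⌊Real.exp y⌋₊ (Real.exp ((1 - 2 * (5 / 10 ^ 6)) * y)) ((13 + 6 * n) / h) := by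
  obtain ⟨p1, -, -⟩ := pow_bounds hh
  have h0 : 0 < h := by linarith
  induction n with
  | zero =>
    intro y h1 h2 _
    exact A_mono (base hF hh hb L10 hB h1 (by linarith)) le_rfl (by simp)
  | succ n ih =>
    intro y h1 h2 h3
    rcases le_total y (4 * h ^ 5) with h4 | h4
    · refine A_mono (base hF hh hb L10 hB h1 h4) le_rfl ?_
      gcongr
      have : (0 : ℝ) ≤ ((n + 1 : ℕ) : ℝ) := Nat.cast_nonneg _
      linarith
    · have c1 := ih (y / 2) (by linarith) (by rw [pow_succ] at h2; linarith) (by linarith)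
      refine A_mono (A_of_M (step hh L2 (by linarith) h3 (by linarith) le_rfl (by positivity) c1)
        (le_floor hh hb (by linarith))) le_rfl (le_of_eq ?_)
      push_cast
      ring

theorem exists_n {h ε : ℝ} (hh : 20 ≤ h) (hε : 0 < ε) (hε' : (700 / ε) ^ 2 ≤ h) :
    ∃ n : ℕ, h ^ 35 ≤ 2 ^ n ∧ (13 + 6 * n) / h + 6 / h ≤ ε := by
  have h0 : 0 < h := by linarith
  have l2 := Real.log_two_gt_d9
  have l0 : 0 ≤ Real.log h := Real.log_nonneg (by linarith)
  refine ⟨⌈35 * Real.log h / Real.log 2⌉₊, ?_, ?_⟩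
  · rw [← Real.log_le_log_iff (by positivity) (by positivity), Real.log_pow, Real.log_pow,
      ← div_le_iff₀ (by linarith)]
    exact_mod_cast Nat.le_ceil _
  · have e1 := (Nat.ceil_lt_add_one (show 0 ≤ 35 * Real.log h / Real.log 2 by positivity)).le
    have e2 : 35 * Real.log h / Real.log 2 ≤ 51 * Real.log h := by
      rw [div_le_iff₀ (by linarith)]
      nlinarith
    have s0 : 0 < √h := Real.sqrt_pos.2 h0
    have e3 : Real.log h ≤ 2 * √h := by
      have := Real.log_le_sub_one_of_pos s0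
      rw [Real.log_sqrt h0.le] at this
      linarith
    have s1 : 1 ≤ √h := Real.one_le_sqrt.2 (by linarith)
    have s2 : 700 / ε ≤ √h := Real.le_sqrt_of_sq_le hε'
    rw [div_le_iff₀ hε] at s2
    rw [← add_div, div_le_iff₀ h0]
    calc _ ≤ 700 * √h := by linarith
      _ ≤ √h * ε * √h := by gcongr
      _ = ε * (√h * √h) := by ring
      _ = ε * h := by rw [Real.mul_self_sqrt h0.le]

end UnderAux

open UnderAux

theorem under (hG : GrowthStmt) (hP : ProjStmt) (hL : LevelStmt) (hB : BiasStmt)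
    (hF : FourierStmt) : UnderStmt := by
  intro D ε hD hε
  obtain ⟨h2, L2⟩ := hL D (50002 / 100000) (35 / 100) (5 / 10 ^ 6) hD (by norm_num) (by norm_num)
    (by norm_num) (by norm_num) (hP _ (3 / 1000) _ _ (by norm_num) (by norm_num) (by norm_num)
      (by norm_num) (hG 2 _ (1 / 100) _ _ (by norm_num) (by norm_num) (by norm_num) (by norm_num)
        (by norm_num) (by norm_num) (by norm_num) (by norm_num) (by norm_num)))
  obtain ⟨h10, L10⟩ := hL D (5 / 100) (1 / 10) (5 / 10 ^ 6) hD (by norm_num) (by norm_num)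
    (by norm_num) (by norm_num) (hP _ (3 / 1000) _ _ (by norm_num) (by norm_num) (by norm_num)
      (by norm_num) (hG 10 _ (1 / 1000) _ _ (by norm_num) (by norm_num) (by norm_num) (by norm_num)
        (by norm_num) (by norm_num) (by norm_num) (by norm_num) (by norm_num)))
  obtain ⟨hb0, B⟩ := hB D hD
  obtain ⟨H, H1, H2, H3, H4, H5⟩ :
      ∃ H : ℝ, h2 ≤ H ∧ h10 ≤ H ∧ hb0 ≤ H ∧ 20 ≤ H ∧ (700 / ε) ^ 2 ≤ H :=
    ⟨max (max (max h2 h10) (max hb0 20)) ((700 / ε) ^ 2), by simp, by simp, by simp, by simp,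
      by simp⟩
  refine ⟨⌈Real.exp (H ^ 40)⌉₊, fun P hP0 S hS b k q M hb1 hb2 hk1 hk2 hq1 hq2 hM hPM => ?_⟩
  have hP1 : Real.exp (H ^ 40) ≤ P := Nat.ceil_le.1 hP0
  have hPpos : (0 : ℝ) < P := (Real.exp_pos _).trans_le hP1
  have hP2 : H ^ 40 ≤ Real.log P := (Real.le_log_iff_exp_le hPpos).2 hP1
  have hl0 : 0 ≤ Real.log P := le_trans (by positivity) hP2
  obtain ⟨h, hh0, hh⟩ : ∃ h : ℝ, 0 ≤ h ∧ h ^ 40 = Real.log P :=
    ⟨Real.log P ^ (((40 : ℕ) : ℝ)⁻¹), by positivity, Real.rpow_inv_natCast_pow hl0 (by norm_num)⟩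
  have hH : H ≤ h := (pow_le_pow_iff_left₀ (by linarith) hh0 (by norm_num)).1 (hh ▸ hP2)
  have h20 : 20 ≤ h := H4.trans hH
  obtain ⟨p1, p2, p3⟩ := pow_bounds h20
  have hb : (b : ℝ) ≤ 3 * h ^ 40 := by
    have e1 : (2 : ℝ) ^ b ≤ (P : ℝ) ^ 2 := by exact_mod_cast hb2
    have e2 := Real.log_le_log (by positivity) e1
    rw [Real.log_pow, Real.log_pow, ← hh] at e2
    have l2 := Real.log_two_gt_d9
    have b0 : (0 : ℝ) ≤ b := Nat.cast_nonneg _
    push_cast at e2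
    nlinarith
  have L2' : Lev D S b h (50002 / 100000) (35 / 100) := L2 h (H1.trans hH) P S hh hS b hb1 hb2
  have L10' : Lev D S b h (5 / 100) (1 / 10) := L10 h (H2.trans hH) P S hh hS b hb1 hb2
  obtain ⟨n, hn1, hn2⟩ := exists_n h20 hε (H5.trans hH)
  rw [← hh] at hk1 hk2
  have hn3 : h ^ 40 ≤ 2 ^ n * h ^ 5 := by
    rw [show h ^ 40 = h ^ 35 * h ^ 5 by ring]
    gcongr
  have c1 := iter hF h20 hb L2' L10' (B h (H3.trans hH) P S hh hS) n (Real.log k / 2)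
    (by linarith) (by linarith) (by linarith)
  have c2 := step h20 L2' (y := Real.log k) (x := Real.log q) (by linarith) hk2
    (Real.log_nonneg hq1) (by linarith) (by positivity) c1
  have hk : (0 : ℝ) < k := by
    rcases Nat.eq_zero_or_pos k with rfl | hk
    · simp only [Nat.cast_zero, Real.log_zero] at hk1
      linarith
    · exact_mod_cast hk
  rw [Real.exp_log hk, Nat.floor_natCast, Real.exp_log (by linarith)] at c2
  refine M_mono c2 ?_ hn2
  refine (pow_le_pow_iff_left₀ (by positivity) hM (by norm_num : 5 ≠ 0)).1 (le_trans ?_ hPM)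
  have e1 : h ≤ Real.exp h := by linarith [Real.add_one_le_exp h]
  calc (Real.exp (35 / 100 * Real.log k) * h ^ 50) ^ 5
      ≤ (Real.exp (35 / 100 * Real.log k) * Real.exp h ^ 50) ^ 5 := by gcongr
    _ = Real.exp (5 * (35 / 100 * Real.log k + 50 * h)) := by
        rw [← Real.exp_nat_mul, ← Real.exp_add, ← Real.exp_nat_mul]
        norm_num
    _ ≤ Real.exp (Real.log P) := Real.exp_le_exp.2 (by linarith)
    _ = P := Real.exp_log hPpos

end Crest.Agent.R2
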