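import Crest.Agent.R2.Johnson
import Crest.Agent.R2.BSG
import Crest.Agent.R2.BSGW
import Crest.Agent.R2.Six
import Crest.Agent.R2.Clique
import Crest.Agent.R2.Flatten
import Crest.Agent.R2.Mult
import Crest.Agent.R2.Count
import Crest.Agent.R2.Growth
import Crest.Agent.R2.ProjStep
import Crest.Agent.R2.DefBound
import Crest.Agent.R2.Proj
import Crest.Agent.R2.LevelCore
import Crest.Agent.R2.Level
import Crest.Agent.R2.Fourier
import Crest.Agent.R2.ECore
import Crest.Agent.R2.Bias
import Crest.Agent.R2.Under
import Crest.Agent.R2.Phi
import Crest.Agent.R2.Small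
import Crest.Agent.R2.Hit
import Crest.Agent.R2.Contra
import Crest.Agent.R2.Step
import Crest.Agent.R2.NoPath
import Crest.Agent.R2.Primes
import Crest.Agent.R2.Reduce

/-! Assembly of the Gaussian moat theorem. -/

set_option autoImplicit false

namespace Crest.Agent.R2

theorem final : FinalStmt :=
  reduce (noPath (step (contra (under (growth flatten (bsgW bsg) multipliers (count johnson))
    (proj projStep defBound) (level levelCore) (bias (eCore johnson bsg)) fourier)
    (clique (six bsg)) half light hit) phiStmt psiUpper psiLower greedy) primes phiStmt)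

end Crest.Agent.R2
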