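import Crest.Agent.R2.Basic

/-! Row 2: abstract finite inequalities for the return-displacement dichotomy. -/

set_option autoImplicit false

open Finset
open scoped Pointwise Classical

namespace Crest.Agent.R2.PS

/-- the pointwise information density -/
noncomputable def ell (c J' PD Ja tot : ℝ) : ℝ :=
  Real.log (c * J' / PD) - Real.log (c * Ja / tot)

theorem ell_eq {c J' PD Ja tot : ℝ} (hc : 0 < c) (h1 : 0 < J') (h2 : 0 < PD) (h3 : 0 < Ja)
    (h4 : 0 < tot) :
    ell c J' PD Ja tot = Real.log J' - Real.log PD - Real.log Ja + Real.log tot := by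
  unfold ell
  rw [Real.log_div (by positivity) h2.ne', Real.log_div (by positivity) h4.ne',
    Real.log_mul hc.ne' h1.ne', Real.log_mul hc.ne' h3.ne']
  ring

theorem gibbs_pt {c J' PD Ja tot : ℝ} (hc : 0 < c) (h1 : 0 ≤ J') (h2 : J' ≤ PD) (h3 : J' ≤ Ja)
    (h4 : Ja ≤ tot) : J' - Ja * PD / tot ≤ J' * ell c J' PD Ja tot := by
  rcases h1.eq_or_lt with h | h
  · subst h
    have : 0 ≤ Ja * PD / tot := div_nonneg (mul_nonneg h3 h2) (h3.trans h4)
    linarith
  · have p2 : 0 < PD := h.trans_le h2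
    have p3 : 0 < Ja := h.trans_le h3
    have p4 : 0 < tot := p3.trans_le h4
    have h5 := Real.log_le_sub_one_of_pos (x := Ja * PD / tot / J') (by positivity)
    rw [Real.log_div (by positivity) h.ne', Real.log_div (by positivity) p4.ne',
      Real.log_mul p3.ne' p2.ne'] at h5
    rw [ell_eq hc h p2 p3 p4]
    have h6 := mul_le_mul_of_nonneg_left h5 h1
    have h7 : J' * (Ja * PD / tot / J' - 1) = Ja * PD / tot - J' := by field_simp
    linarith

theorem tangent_pt {c J' PD Ja Jb tot t : ℝ} (hc : 0 < c) (h1 : 0 ≤ J') (h2 : J' ≤ PD)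
    (h3 : 0 < Ja) (h3' : 0 < Jb) (h4 : 0 < tot) :
    Real.exp t * (J' * (1 - t) + (J' * Real.log Jb - J' * Real.log Ja) / 2 -
      J' * ell c J' PD Ja tot) ≤ PD * (√(Ja / tot) * √(Jb / tot)) := by
  rcases h1.eq_or_lt with h | h
  · subst h
    simp only [zero_mul, sub_self, zero_div, add_zero, mul_zero]
    positivity
  · have p2 : 0 < PD := h.trans_le h2
    set y := PD * (√(Ja / tot) * √(Jb / tot)) with hy
    have hy0 : 0 < y := by positivity
    have hl : Real.log y = Real.log PD + (Real.log Ja + Real.log Jb) / 2 - Real.log tot := by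
      rw [hy, Real.log_mul p2.ne' (by positivity), Real.log_mul (by positivity) (by positivity),
        Real.log_sqrt (by positivity), Real.log_sqrt (by positivity),
        Real.log_div h3.ne' h4.ne', Real.log_div h3'.ne' h4.ne']
      ring
    have h5 := Real.add_one_le_exp (Real.log y - Real.log J' - t)
    rw [Real.exp_sub, Real.exp_sub, Real.exp_log hy0, Real.exp_log h, div_div,
      le_div_iff₀ (by positivity)] at h5
    rw [ell_eq hc h p2 h3 h4]
    refine le_trans (le_of_eq ?_) h5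
    rw [hl]
    ring

section joint
variable {Γ δ : Type} [Fintype Γ] {D : Finset δ} {J' : δ → Γ → ℝ} {J : Γ → ℝ} {PD : δ → ℝ}
  {tot c : ℝ}

/-- a joint weight with its marginals -/
structure Joint (D : Finset δ) (J' : δ → Γ → ℝ) (J : Γ → ℝ) (PD : δ → ℝ) (tot : ℝ) : Prop where
  nonneg : ∀ d ∈ D, ∀ a, 0 ≤ J' d a
  left : ∀ a, ∑ d ∈ D, J' d a = J a
  right : ∀ d ∈ D, ∑ a, J' d a = PD d
  total : ∑ a, J a = tot

theorem Joint.J_nonneg (h : Joint D J' J PD tot) (a : Γ) : 0 ≤ J a := by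
  rw [← h.left]; exact sum_nonneg fun d hd => h.nonneg d hd a

theorem Joint.le_J (h : Joint D J' J PD tot) {d : δ} (hd : d ∈ D) (a : Γ) : J' d a ≤ J a := by
  rw [← h.left]; exact single_le_sum (fun d hd => h.nonneg d hd a) hd

theorem Joint.le_PD (h : Joint D J' J PD tot) {d : δ} (hd : d ∈ D) (a : Γ) : J' d a ≤ PD d := by
  rw [← h.right d hd]; exact single_le_sum (fun a _ => h.nonneg d hd a) (mem_univ a)

theorem Joint.le_tot (h : Joint D J' J PD tot) (a : Γ) : J a ≤ tot := by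
  rw [← h.total]; exact single_le_sum (fun a _ => h.J_nonneg a) (mem_univ a)

theorem Joint.sum_PD (h : Joint D J' J PD tot) : ∑ d ∈ D, PD d = tot := by
  rw [← h.total, ← sum_congr rfl h.right, sum_comm]
  exact sum_congr rfl fun a _ => h.left a

theorem Joint.sum_prod (h : Joint D J' J PD tot) : ∑ d ∈ D, ∑ a, J a * PD d / tot = tot := by
  simp only [← sum_div, ← sum_mul, ← mul_sum, h.total, h.sum_PD]
  exact mul_self_div_self tot

/-- the mutual information -/
noncomputable def info (D : Finset δ) (J' : δ → Γ → ℝ) (J : Γ → ℝ) (PD : δ → ℝ) (tot c : ℝ) : ℝ :=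
  ∑ d ∈ D, ∑ a, J' d a * ell c (J' d a) (PD d) (J a) tot

theorem Joint.info_eq (h : Joint D J' J PD tot) :
    info D J' J PD tot c = ∑ d ∈ D, ∑ a, J' d a * Real.log (c * J' d a / PD d) -
      ∑ a, J a * Real.log (c * J a / tot) := by
  have : ∑ a, J a * Real.log (c * J a / tot) =
      ∑ d ∈ D, ∑ a, J' d a * Real.log (c * J a / tot) := by
    rw [sum_comm]
    exact sum_congr rfl fun a _ => by rw [← sum_mul, h.left]
  rw [this, info]
  simp only [ell, mul_sub, sum_sub_distrib]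

theorem Joint.info_nonneg (h : Joint D J' J PD tot) (hc : 0 < c) : 0 ≤ info D J' J PD tot c := by
  have h1 : ∑ d ∈ D, ∑ a, (J' d a - J a * PD d / tot) ≤ info D J' J PD tot c :=
    sum_le_sum fun d hd => sum_le_sum fun a _ =>
      gibbs_pt hc (h.nonneg d hd a) (h.le_PD hd a) (h.le_J hd a) (h.le_tot a)
  simp only [sum_sub_distrib] at h1
  rw [h.sum_prod, sum_congr rfl h.right, h.sum_PD, sub_self] at h1
  exact h1

theorem Joint.exc_le (h : Joint D J' J PD tot) (θ : ℝ) :
    ∑ a, max (J a - θ * tot) 0 ≤ ∑ d ∈ D, ∑ a, max (J' d a - θ * PD d) 0 := by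
  rw [sum_comm]
  refine sum_le_sum fun a _ => max_le ?_ (sum_nonneg fun d _ => le_max_right _ _)
  rw [← h.left, ← h.sum_PD, mul_sum, ← sum_sub_distrib]
  exact sum_le_sum fun d _ => le_max_left _ _

/-- small information and a likely symmetric event give approximate invariance -/
theorem Joint.core [DecidableEq Γ] (h : Joint D J' J PD tot) (hc : 0 < c) (htot : 0 < tot) (r : δ → Γ → Γ)
    (A : Finset Γ) (hA : ∀ a ∈ A, 0 < J a) {E0 L : ℝ} (hE0 : 0 < E0) (hL : 0 ≤ L)
    (hsym : ∑ d ∈ D, ∑ a, J' d a * (if a ∈ A ∧ r d a ∈ A then Real.log (J (r d a)) else 0) =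
      ∑ d ∈ D, ∑ a, J' d a * (if a ∈ A ∧ r d a ∈ A then Real.log (J a) else 0))
    (hE : E0 * tot ≤ ∑ d ∈ D, ∑ a, J' d a * (if a ∈ A ∧ r d a ∈ A then 1 else 0))
    (hI : info D J' J PD tot c + tot ≤ L * tot) :
    E0 * Real.exp (-(L / E0)) * tot ≤ ∑ d ∈ D, PD d * ∑ a,
      (if a ∈ A then √(J a / tot) else 0) * (if r d a ∈ A then √(J (r d a) / tot) else 0) := by
  set t := -(L / E0) with ht
  have key : ∀ d ∈ D, ∀ a, Real.exp t * ((1 - t) * (J' d a * (if a ∈ A ∧ r d a ∈ A then 1 else 0)) +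
      (J' d a * (if a ∈ A ∧ r d a ∈ A then Real.log (J (r d a)) else 0) -
        J' d a * (if a ∈ A ∧ r d a ∈ A then Real.log (J a) else 0)) / 2 -
      J' d a * ell c (J' d a) (PD d) (J a) tot - J a * PD d / tot) ≤
      PD d * ((if a ∈ A then √(J a / tot) else 0) *
        (if r d a ∈ A then √(J (r d a) / tot) else 0)) := by
    intro d hd a
    have hPD : 0 ≤ PD d := (h.nonneg d hd a).trans (h.le_PD hd a)
    by_cases hev : a ∈ A ∧ r d a ∈ A
    · simp only [hev, and_self, if_true, mul_one]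
      refine le_trans (mul_le_mul_of_nonneg_left ?_ (Real.exp_pos t).le)
        (tangent_pt (t := t) hc (h.nonneg d hd a) (h.le_PD hd a) (hA _ hev.1) (hA _ hev.2) htot)
      have : 0 ≤ J a * PD d / tot := div_nonneg (mul_nonneg (h.J_nonneg a) hPD) htot.le
      linarith
    · simp only [if_neg hev, mul_zero]
      refine le_trans (mul_nonpos_of_nonneg_of_nonpos (Real.exp_pos t).le ?_) ?_
      · have h1 := gibbs_pt hc (h.nonneg d hd a) (h.le_PD hd a) (h.le_J hd a) (h.le_tot a)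
        have h2 := h.nonneg d hd a
        linarith
      · refine mul_nonneg hPD (mul_nonneg ?_ ?_) <;> split_ifs <;> positivity
  have h1 := sum_le_sum fun d hd => sum_le_sum fun a (_ : a ∈ univ) => key d hd a
  simp only [← mul_sum, sum_sub_distrib, sum_add_distrib, ← sum_div] at h1
  have h2 := h.sum_prod
  simp only [← sum_div] at h2
  rw [h2, hsym, sub_self, zero_div, add_zero] at h1
  refine le_trans ?_ h1
  rw [mul_comm E0, mul_assoc]
  refine mul_le_mul_of_nonneg_left ?_ (Real.exp_pos t).le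
  have h3 : 0 ≤ 1 - t := by
    have : 0 ≤ L / E0 := by positivity
    linarith
  have h4 := mul_le_mul_of_nonneg_left hE h3
  have h5 : (1 - t) * (E0 * tot) = E0 * tot + L * tot := by
    rw [ht]; field_simp; ring
  unfold info at hI
  linarith

end joint

/-- choice of a heavy label with many good primes -/
theorem select {τ ι : Type} (T : Finset τ) (S : Finset ι) (tot : τ → ℝ) (e I : τ → ι → ℝ)
    {w κ t0 : ℝ} (hw : 0 < w) (hκ : 0 < κ) (h0 : ∀ x ∈ T, 0 ≤ tot x) (h1 : ∑ x ∈ T, tot x ≤ 1)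
    (he : ∀ x ∈ T, ∀ p ∈ S, e x p ≤ tot x) (hI : ∀ x ∈ T, ∀ p ∈ S, 0 ≤ I x p) (ht0 : 0 ≤ t0)
    (hT : T.card * t0 ≤ w / 8) (hE : w * S.card < ∑ p ∈ S, ∑ x ∈ T, e x p)
    (hI' : ∑ p ∈ S, ∑ x ∈ T, I x p ≤ κ * S.card) :
    ∃ x ∈ T, t0 ≤ tot x ∧ w / 8 * S.card ≤
      (S.filter (fun p => w / 2 * tot x ≤ e x p ∧ I x p ≤ 4 * κ / w * tot x)).card := by
  by_contra hn
  push Not at hn
  have hS : (0 : ℝ) ≤ S.card := Nat.cast_nonneg _
  have key : ∀ x ∈ T, ∑ p ∈ S, e x p ≤
      (w / 2 + w / 8) * S.card * tot x + w / (4 * κ) * ∑ p ∈ S, I x p + S.card * t0 := by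
    intro x hx
    have hx0 := h0 x hx
    have a1 : ∑ p ∈ S, e x p ≤ ∑ p ∈ S, (w / 2 * tot x + w / (4 * κ) * I x p +
        (if w / 2 * tot x ≤ e x p ∧ I x p ≤ 4 * κ / w * tot x then tot x else 0)) := by
      refine sum_le_sum fun p hp => ?_
      have b1 : 0 ≤ w / (4 * κ) * I x p := mul_nonneg (by positivity) (hI x hx p hp)
      have b2 : 0 ≤ w / 2 * tot x := by positivity
      have b3 := he x hx p hp
      split_ifs with hc
      · linarith
      · rcases not_and_or.1 hc with hc | hc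
        · linarith
        · have b4 := mul_le_mul_of_nonneg_left (not_le.1 hc).le
            (by positivity : 0 ≤ w / (4 * κ))
          have b5 : w / (4 * κ) * (4 * κ / w * tot x) = tot x := by field_simp
          linarith
    rw [sum_add_distrib, sum_add_distrib, ← mul_sum, ← mul_sum, ← sum_filter, sum_const, sum_const,
      nsmul_eq_mul, nsmul_eq_mul] at a1
    have a2 : ((S.filter (fun p => w / 2 * tot x ≤ e x p ∧ I x p ≤ 4 * κ / w * tot x)).card : ℝ) *
        tot x ≤ w / 8 * S.card * tot x + S.card * t0 := by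
      rcases le_or_gt t0 (tot x) with h | h
      · have := mul_le_mul_of_nonneg_right (hn x hx h).le hx0
        have : 0 ≤ S.card * t0 := by positivity
        linarith
      · have c1 : ((S.filter (fun p => w / 2 * tot x ≤ e x p ∧
            I x p ≤ 4 * κ / w * tot x)).card : ℝ) ≤ S.card := by
          exact_mod_cast card_filter_le _ _
        have c2 := mul_le_mul c1 h.le hx0 hS
        have : 0 ≤ w / 8 * S.card * tot x := by positivity
        linarith
    linarith
  have h2 := sum_le_sum key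
  rw [sum_add_distrib, sum_add_distrib, ← mul_sum, ← mul_sum, sum_const, nsmul_eq_mul,
    sum_comm, sum_comm (s := T)] at h2
  have h3 := mul_le_mul_of_nonneg_left h1 (by positivity : 0 ≤ (w / 2 + w / 8) * S.card)
  have h4 := mul_le_mul_of_nonneg_left hI' (by positivity : 0 ≤ w / (4 * κ))
  have h5 : w / (4 * κ) * (κ * S.card) = w / 4 * S.card := by field_simp
  have h6 := mul_le_mul_of_nonneg_left hT hS
  linarith

/-! ### the block kernel -/

section kernel
variable {s : Finset ℕ} {B : ℕ → ℕ} {m : ℕ → ℝ}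

/-- mass of a block -/
noncomputable def mB (s : Finset ℕ) (B : ℕ → ℕ) (m : ℕ → ℝ) (b : ℕ) : ℝ :=
  ∑ n ∈ s with B n = b, m n

/-- resampling inside the block -/
noncomputable def gk (s : Finset ℕ) (B : ℕ → ℕ) (m : ℕ → ℝ) (n n' : ℕ) : ℝ :=
  if B n = B n' then m n * m n' / mB s B m (B n) else 0

theorem mB_nonneg (hm : ∀ n ∈ s, 0 ≤ m n) (b : ℕ) : 0 ≤ mB s B m b :=
  sum_nonneg fun n hn => hm n (mem_filter.1 hn).1

theorem gk_symm (n n' : ℕ) : gk s B m n n' = gk s B m n' n := by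
  unfold gk
  by_cases h : B n = B n'
  · rw [if_pos h, if_pos h.symm, h, mul_comm]
  · rw [if_neg h, if_neg (Ne.symm h)]

theorem gk_nonneg (hm : ∀ n ∈ s, 0 ≤ m n) {n n' : ℕ} (hn : n ∈ s) (hn' : n' ∈ s) :
    0 ≤ gk s B m n n' := by
  unfold gk
  split_ifs
  · exact div_nonneg (mul_nonneg (hm n hn) (hm n' hn')) (mB_nonneg hm _)
  · exact le_rfl

theorem eq_of_gk_ne_zero {n n' : ℕ} (h : gk s B m n n' ≠ 0) : B n = B n' := by
  by_contra hne
  exact h (if_neg hne)

theorem sum_gk_mul (n : ℕ) (a : ℕ → ℝ) :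
    ∑ n' ∈ s, gk s B m n n' * a n' =
      m n * mB s B (fun n' => m n' * a n') (B n) / mB s B m (B n) := by
  conv_rhs => rw [mB.eq_1 s B (fun n' => m n' * a n'), sum_filter, mul_sum, sum_div]
  refine sum_congr rfl fun n' _ => ?_
  unfold gk
  by_cases h : B n = B n'
  · rw [if_pos h, if_pos h.symm]; ring
  · rw [if_neg h, if_neg (Ne.symm h)]; simp

theorem sum_gk (hm : ∀ n ∈ s, 0 ≤ m n) {n : ℕ} (hn : n ∈ s) : ∑ n' ∈ s, gk s B m n n' = m n := by
  have := sum_gk_mul (s := s) (B := B) (m := m) n (fun _ => 1)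
  simp only [mul_one] at this
  rw [this]
  by_cases h : mB s B m (B n) = 0
  · have h1 : m n ≤ mB s B m (B n) :=
      single_le_sum (f := m) (fun n hn => hm n (mem_filter.1 hn).1) (mem_filter.2 ⟨hn, rfl⟩)
    rw [h, div_zero]
    exact le_antisymm (hm n hn) (h1.trans h.le)
  · exact mul_div_cancel_right₀ _ h

theorem sum_mul_block (m : ℕ → ℝ) (F : ℕ → ℝ) :
    ∑ n ∈ s, m n * F (B n) = ∑ b ∈ s.image B, mB s B m b * F b := by
  rw [← sum_fiberwise_of_maps_to (fun n hn => mem_image_of_mem B hn)]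
  refine sum_congr rfl fun b _ => ?_
  rw [mB, sum_mul]
  exact sum_congr rfl fun n hn => by rw [(mem_filter.1 hn).2]

/-- Cauchy-Schwarz for the block kernel, tangent line form -/
theorem return_bound (hm : ∀ n ∈ s, 0 ≤ m n) (a : ℕ → ℝ) (ha : ∀ n, |a n| ≤ 1) (l : ℝ) :
    2 * l * ∑ n ∈ s, m n * a n - l ^ 2 * ∑ n ∈ s, m n ≤
      ∑ n ∈ s, ∑ n' ∈ s, gk s B m n n' * (a n * a n') := by
  have h1 : ∑ n ∈ s, ∑ n' ∈ s, gk s B m n n' * (a n * a n') =
      ∑ b ∈ s.image B, mB s B (fun n => m n * a n) b *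
        (mB s B (fun n => m n * a n) b / mB s B m b) := by
    rw [← sum_mul_block (fun n => m n * a n)
      (fun b => mB s B (fun n => m n * a n) b / mB s B m b)]
    refine sum_congr rfl fun n _ => ?_
    have : ∀ n', gk s B m n n' * (a n * a n') = a n * (gk s B m n n' * a n') := fun n' => by ring
    simp only [this]
    rw [← mul_sum, sum_gk_mul]
    ring
  have h2 := sum_mul_block (s := s) (B := B) (fun n => m n * a n) (fun _ => 1)
  have h3 := sum_mul_block (s := s) (B := B) m (fun _ => 1)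
  simp only [mul_one] at h2 h3
  rw [h1, h2, h3, mul_sum, mul_sum, ← sum_sub_distrib]
  refine sum_le_sum fun b _ => ?_
  have h4 : |mB s B (fun n => m n * a n) b| ≤ mB s B m b := by
    refine (abs_sum_le_sum_abs _ _).trans (sum_le_sum fun n hn => ?_)
    rw [abs_mul, abs_of_nonneg (hm n (mem_filter.1 hn).1)]
    exact mul_le_of_le_one_right (hm n (mem_filter.1 hn).1) (ha n)
  generalize mB s B (fun n => m n * a n) b = x at *
  generalize mB s B m b = y at *
  rcases ((abs_nonneg x).trans h4).eq_or_lt with h | h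
  · subst h
    have : x = 0 := abs_nonpos_iff.1 h4
    simp [this]
  · rw [← mul_div_assoc, le_div_iff₀ h]
    nlinarith [sq_nonneg (x - l * y)]

/-- mass of the light blocks -/
theorem light_mass {θ : ℝ} (hθ : 0 ≤ θ) :
    ∑ n ∈ s, m n * (if θ ≤ mB s B m (B n) then 0 else 1) ≤ (s.image B).card * θ := by
  rw [sum_mul_block m (fun b => if θ ≤ mB s B m b then 0 else 1), ← nsmul_eq_mul, ← sum_const]
  refine sum_le_sum fun b _ => ?_
  split_ifs with h
  · rw [mul_zero]; exact hθ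
  · rw [mul_one]; exact (not_le.1 h).le

end kernel

/-! ### displacements -/

section disp
variable {s : Finset ℕ} {u : ℕ → GI} {g : ℕ → ℕ → ℝ} {D : Finset GI}

/-- weight of the displacement `d` from `n` -/
noncomputable def pd (s : Finset ℕ) (u : ℕ → GI) (g : ℕ → ℕ → ℝ) (n : ℕ) (d : GI) : ℝ :=
  ∑ n' ∈ s with u n' - u n = d, g n n'

theorem pd_nonneg {n : ℕ} (hg : ∀ n' ∈ s, 0 ≤ g n n') (d : GI) : 0 ≤ pd s u g n d :=
  sum_nonneg fun n' hn' => hg n' (mem_filter.1 hn').1

theorem sum_pd_mul {n : ℕ} (hD : ∀ n' ∈ s, g n n' ≠ 0 → u n' - u n ∈ D) (F : GI → ℝ) :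
    ∑ d ∈ D, pd s u g n d * F d = ∑ n' ∈ s, g n n' * F (u n' - u n) := by
  simp only [pd, sum_filter, sum_mul]
  rw [sum_comm]
  refine sum_congr rfl fun n' hn' => ?_
  simp only [ite_mul, zero_mul]
  rw [sum_ite_eq]
  split_ifs with h
  · rfl
  · rw [not_not.1 (mt (hD n' hn') h), zero_mul]

theorem pd_le {n : ℕ} (hu : Set.InjOn u s) {M : ℝ} (hM : 0 ≤ M) (hg : ∀ n' ∈ s, g n n' ≤ M)
    (d : GI) : pd s u g n d ≤ M := by
  have h1 : (s.filter (fun n' => u n' - u n = d)).card ≤ 1 := by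
    refine card_le_one.2 fun a ha b hb => ?_
    rw [mem_filter] at ha hb
    exact hu ha.1 hb.1 (sub_left_injective (ha.2.trans hb.2.symm))
  refine (sum_le_card_nsmul _ _ M fun n' hn' => hg n' (mem_filter.1 hn').1).trans ?_
  rw [nsmul_eq_mul]
  exact mul_le_of_le_one_left hM (by exact_mod_cast h1)

theorem sum_pd_neg (hg : ∀ n n', g n n' = g n' n) (d : GI) :
    ∑ n ∈ s, pd s u g n (-d) = ∑ n ∈ s, pd s u g n d := by
  simp only [pd, sum_filter]
  rw [sum_comm]
  refine sum_congr rfl fun n _ => sum_congr rfl fun n' _ => ?_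
  rw [hg n' n]
  congr 1
  rw [← neg_sub, neg_inj]

end disp

theorem corr_le_one {Γ : Type} [Fintype Γ] [AddGroup Γ] (f : Γ → ℝ) (hf : ∑ a, f a ^ 2 ≤ 1) (r : Γ) :
    ∑ a, f a * f (a + r) ≤ 1 := by
  have h1 : ∑ a, f (a + r) ^ 2 = ∑ a, f a ^ 2 :=
    Equiv.sum_comp (Equiv.addRight r) (fun a => f a ^ 2)
  have h2 : ∑ a, f a * f (a + r) ≤ ∑ a, (f a ^ 2 + f (a + r) ^ 2) / 2 :=
    sum_le_sum fun a _ => by nlinarith [sq_nonneg (f a - f (a + r))]
  rw [← sum_div, sum_add_distrib, h1] at h2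
  linarith

end Crest.Agent.R2.PS
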