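import Crest.Agent.R2.Entropy

/-! Row 2: three small lemmas (greedy choice of primes, half entropy, light part). -/

set_option autoImplicit false

open Finset
open scoped Pointwise Classical

namespace Crest.Agent.R2

namespace Small

theorem sum_log_insert_le (S : Finset SPrime) (p : SPrime) {c : ℝ} (hc : 0 ≤ c)
    (hp : Real.log p.1 ≤ c) :
    ∑ q ∈ insert p S, Real.log q.1 ≤ ∑ q ∈ S, Real.log q.1 + c := by
  by_cases h : p ∈ S
  · rw [insert_eq_of_mem h]; linarith
  · rw [sum_insert h]; linarith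

theorem steps (Ψ : Finset SPrime → ℝ) (Pr S0 S1 : Finset SPrime) (τ c L : ℝ) (t : ℕ)
    (hPr : Pr ⊆ S1) (hne : Pr.Nonempty) (hc : 0 ≤ c) (hp : ∀ p ∈ Pr, Real.log p.1 ≤ c)
    (H : ∀ S', S0 ⊆ S' → S' ⊆ S1 → ∑ p ∈ S', Real.log p.1 ≤ L + t * c →
      τ < avg Pr (fun p => Ψ S' - Ψ (insert p S')))
    (S : Finset SPrime) (h0 : S0 ⊆ S) (h1 : S ⊆ S1) (hL : ∑ p ∈ S, Real.log p.1 ≤ L) :
    ∀ n ≤ t, ∃ S', S0 ⊆ S' ∧ S' ⊆ S1 ∧ ∑ p ∈ S', Real.log p.1 ≤ L + n * c ∧
      n * τ ≤ Ψ S - Ψ S' := by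
  intro n
  induction n with
  | zero => intro _; exact ⟨S, h0, h1, by simpa using hL, by simp⟩
  | succ n ih =>
    intro hn
    obtain ⟨S', a0, a1, a2, a3⟩ := ih (by omega)
    have hnt : (n : ℝ) * c ≤ t * c :=
      mul_le_mul_of_nonneg_right (by exact_mod_cast (by omega : n ≤ t)) hc
    have h2 := H S' a0 a1 (by linarith)
    obtain ⟨p, hpm, h3⟩ := exists_avg_le hne (fun p => Ψ S' - Ψ (insert p S'))
    refine ⟨insert p S', a0.trans (subset_insert _ _), insert_subset (hPr hpm) a1, ?_, ?_⟩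
    · have := sum_log_insert_le S' p hc (hp p hpm)
      push_cast; linarith
    · push_cast; linarith

theorem greedy_aux (Ψ : Finset SPrime → ℝ) (Pr : ℕ → Finset SPrime) (t : ℕ → ℕ) (τ c : ℕ → ℝ)
    (S0 S1 : Finset SPrime) (h01 : S0 ⊆ S1) (J : Finset ℕ) :
    (∀ j ∈ J, Pr j ⊆ S1 ∧ (Pr j).Nonempty ∧ 0 ≤ c j ∧ ∀ p ∈ Pr j, Real.log p.1 ≤ c j) →
    (∀ j ∈ J, ∀ S', S0 ⊆ S' → S' ⊆ S1 →
      ∑ p ∈ S', Real.log p.1 ≤ ∑ p ∈ S0, Real.log p.1 + ∑ j' ∈ J with j' ≤ j, t j' * c j' →
      τ j < avg (Pr j) (fun p => Ψ S' - Ψ (insert p S'))) →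
    ∃ S', S0 ⊆ S' ∧ S' ⊆ S1 ∧
      ∑ p ∈ S', Real.log p.1 ≤ ∑ p ∈ S0, Real.log p.1 + ∑ j ∈ J, t j * c j ∧
      ∑ j ∈ J, t j * τ j ≤ Ψ S0 - Ψ S' := by
  induction J using Finset.induction_on_max with
  | empty => intro _ _; exact ⟨S0, Subset.refl _, h01, by simp, by simp⟩
  | insert a s ha ih =>
    intro hJ H
    have has : a ∉ s := fun h => lt_irrefl _ (ha a h)
    obtain ⟨S, a0, a1, a2, a3⟩ := ih (fun j hj => hJ j (mem_insert_of_mem hj)) (by
      intro j hj S' b0 b1 b2
      refine H j (mem_insert_of_mem hj) S' b0 b1 ?_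
      rw [filter_insert, if_neg (not_le.2 (ha j hj))]
      exact b2)
    obtain ⟨c1, c2, c3, c4⟩ := hJ a (mem_insert_self _ _)
    obtain ⟨S', d0, d1, d2, d3⟩ := steps Ψ (Pr a) S0 S1 (τ a) (c a)
      (∑ p ∈ S0, Real.log p.1 + ∑ j ∈ s, t j * c j) (t a) c1 c2 c3 c4 (by
        intro S' b0 b1 b2
        refine H a (mem_insert_self _ _) S' b0 b1 ?_
        rw [filter_true_of_mem (fun j hj => by
          rcases mem_insert.1 hj with rfl | hj
          · exact le_rfl
          · exact (ha j hj).le), sum_insert has]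
        linarith) S a0 a1 a2 (t a) le_rfl
    refine ⟨S', d0, d1, ?_, ?_⟩
    · rw [sum_insert has]; linarith
    · rw [sum_insert has]; linarith

/-- a `g`-separated subset of `range I` has at most `2 I / g` points when `g ≤ I` -/
theorem card_sep_le {I : ℕ} {F : Finset ℕ} {g : ℝ} (hg : 0 < g) (hgI : g ≤ I)
    (hF : F ⊆ range I) (hsep : ∀ j ∈ F, ∀ j' ∈ F, |(j : ℝ) - j'| < g → j = j') :
    (F.card : ℝ) ≤ 2 * I / g := by
  have h1 : F.card ≤ (range (⌊(I : ℝ) / g⌋₊ + 1)).card := by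
    refine card_le_card_of_injOn (fun j => ⌊(j : ℝ) / g⌋₊) (fun j hj => ?_) (fun j hj j' hj' e => ?_)
    · have : j < I := mem_range.1 (hF hj)
      have h2 : (j : ℝ) / g ≤ I / g :=
        div_le_div_of_nonneg_right (by exact_mod_cast this.le) hg.le
      simpa [Nat.lt_succ_iff] using Nat.floor_le_floor h2
    · refine hsep j hj j' hj' ?_
      have p1 : (0 : ℝ) ≤ j / g := by positivity
      have p2 : (0 : ℝ) ≤ j' / g := by positivity
      have a1 := Nat.floor_le p1
      have a2 := Nat.lt_floor_add_one ((j : ℝ) / g)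
      have b1 := Nat.floor_le p2
      have b2 := Nat.lt_floor_add_one ((j' : ℝ) / g)
      simp only at e
      rw [e] at a1 a2
      have h3 : |(j : ℝ) / g - j' / g| < 1 := abs_lt.2 ⟨by linarith, by linarith⟩
      rwa [← sub_div, abs_div, abs_of_pos hg, div_lt_one hg] at h3
  rw [card_range] at h1
  have h2 : (F.card : ℝ) ≤ ⌊(I : ℝ) / g⌋₊ + 1 := by exact_mod_cast h1
  have h3 : (⌊(I : ℝ) / g⌋₊ : ℝ) ≤ I / g := Nat.floor_le (by positivity)
  have h4 : 1 ≤ (I : ℝ) / g := (one_le_div hg).2 hgI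
  rw [mul_div_assoc]
  linarith

theorem resAt_eq_iff (S : Finset SPrime) (v w : GI) :
    resAt S v = resAt S w ↔ ∀ p ∈ S, res p v = res p w := by
  rw [funext_iff]
  refine forall_congr' fun p => ?_
  unfold resAt
  by_cases hp : p ∈ S <;> simp [hp]

theorem avg_law {ι κ : Type} (p : SPrime) (s : Finset ι) (u : ι → GI) (g : ι → κ) (φ : ℝ → ℝ) :
    avg s (fun i => φ (law p (s.filter (fun i' => g i' = g i)) u (res p (u i)))) =
      avg s (fun i => ∑ c, law p (s.filter (fun i' => g i' = g i)) u c *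
        φ (law p (s.filter (fun i' => g i' = g i)) u c)) := by
  rw [avg_class s g (fun cl i => φ (law p (s.filter (fun i' => g i' = cl)) u (res p (u i))))]
  refine avg_congr fun i _ => ?_
  rw [sum_law_mul p _ u (fun c => φ (law p (s.filter (fun i' => g i' = g i)) u c))]

theorem law_eq_fib {ι κ : Type} (p : SPrime) (s : Finset ι) (u : ι → GI) (g : ι → κ) (i : ι) :
    law p (s.filter (fun i' => g i' = g i)) u (res p (u i)) =
      (fib s (fun j => (res p (u j), g j)) i : ℝ) / fib s g i := by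
  unfold law fib
  congr 2
  rw [filter_filter]
  congr 1
  ext j
  simp only [mem_filter, Prod.mk.injEq]
  tauto

theorem light_aux {ι κ : Type} (p : SPrime) {s : Finset ι} (hs : s.Nonempty) (u : ι → GI)
    (g : ι → κ) {h0 : ℝ} (hh : 1 ≤ h0) :
    cH s (fun i => res p (u i)) g ≤ Real.log h0 + 1 + avg s (fun i => ∑ c,
      if law p (s.filter (fun i' => g i' = g i)) u c ≤ 1 / h0 then
        law p (s.filter (fun i' => g i' = g i)) u c else 0) * Real.log p.1 := by
  have hp := p.pos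
  have hlog : 0 ≤ Real.log h0 := Real.log_nonneg hh
  have h1 : cH s (fun i => res p (u i)) g ≤ avg s (fun i => Real.log h0 +
      1 / (p.1 * law p (s.filter (fun i' => g i' = g i)) u (res p (u i))) +
      (if law p (s.filter (fun i' => g i' = g i)) u (res p (u i)) ≤ 1 / h0 then 1 else 0) *
        Real.log p.1) := by
    refine avg_le_avg fun i hi => ?_
    have q1 := fib_pos' (f := g) hi
    have q2 := fib_pos' (f := fun j => (res p (u j), g j)) hi
    have e : (fib s g i : ℝ) / fib s (fun j => (res p (u j), g j)) i =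
        (law p (s.filter (fun i' => g i' = g i)) u (res p (u i)))⁻¹ := by
      rw [law_eq_fib, inv_div]
    have hμ : 0 < law p (s.filter (fun i' => g i' = g i)) u (res p (u i)) := by
      rw [law_eq_fib]; positivity
    simp only
    rw [e]
    generalize law p (s.filter (fun i' => g i' = g i)) u (res p (u i)) = μ at hμ
    have hpos : 0 < 1 / (p.1 * μ) := by positivity
    split_ifs with hl
    · have h2 := Real.log_le_sub_one_of_pos hpos
      rw [one_div, Real.log_inv, Real.log_mul hp.ne' hμ.ne'] at h2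
      rw [Real.log_inv, one_div]
      linarith
    · have h2 : μ⁻¹ ≤ h0 := by
        rw [not_le, one_div] at hl
        exact (inv_le_comm₀ hμ (by linarith)).2 hl.le
      have h3 := Real.log_le_log (inv_pos.2 hμ) h2
      linarith
  refine h1.trans ?_
  rw [avg_add, avg_add, avg_const hs, avg_mul_right,
    avg_law p s u g (fun x => 1 / (p.1 * x)),
    avg_law p s u g (fun x => if x ≤ 1 / h0 then 1 else 0)]
  refine add_le_add (add_le_add le_rfl (avg_le_of_le hs fun i _ => ?_)) (le_of_eq ?_)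
  · calc _ ≤ ∑ _c : ZMod p.1, (1 : ℝ) / p.1 := sum_le_sum fun c _ => by
          generalize law p (s.filter (fun i' => g i' = g i)) u c = μ
          by_cases hμ : μ = 0
          · simp [hμ]
          · exact le_of_eq (by field_simp)
      _ = 1 := by
          rw [sum_const, card_univ, ZMod.card, nsmul_eq_mul]
          field_simp
  · congr 1
    refine avg_congr fun i _ => sum_congr rfl fun c _ => ?_
    split_ifs <;> simp

end Small

theorem greedy : GreedyStmt := by
  intro Ψ J Pr t τ c S0 S1 hmono h01 hJ hlt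
  by_contra hcon
  obtain ⟨S', _, a1, _, a3⟩ := Small.greedy_aux Ψ Pr t τ c S0 S1 h01 J hJ (by
    intro j hj S' b0 b1 b2
    by_contra h
    exact hcon ⟨j, hj, S', b0, b1, b2, not_lt.1 h⟩)
  have := hmono S' S1 a1
  linarith

theorem light : LightStmt := by
  intro p z K k1 S' h0 hh
  exact Small.light_aux p (s := range (2 ^ (K - k1))) ⟨0, mem_range.2 (by positivity)⟩
    (fun i => z (i * 2 ^ k1)) (fun i => resAt S' (z (i * 2 ^ k1))) hh

theorem half : HalfStmt := by
  intro D P K k1 S S' z hD hP hS hne hk hz hPI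
  set I : ℕ := 2 ^ (K - k1) with hI
  have hI0 : 0 < I := by positivity
  have hs : (range I).Nonempty := ⟨0, mem_range.2 hI0⟩
  have hm : (0 : ℝ) < S.card := by exact_mod_cast hne.card_pos
  have hP0 : (0 : ℝ) < P := by positivity
  have hE1 : (1 : ℝ) ≤ D * 2 ^ k1 := by
    have h1 : (1 : ℝ) ≤ D := by exact_mod_cast hD
    have h2 : (1 : ℝ) ≤ 2 ^ k1 := one_le_pow₀ (by norm_num)
    nlinarith
  have hpath : IsPath (D * 2 ^ k1) (fun i => z (i * 2 ^ k1)) I := by
    refine hz.sub (2 ^ k1) I (by positivity) ?_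
    rw [hI, ← pow_add, Nat.sub_add_cancel hk]; omega
  set g : ℝ := √((P : ℝ) ^ S.card) / (D * 2 ^ k1) with hg
  have hsq : 0 < √((P : ℝ) ^ S.card) := Real.sqrt_pos.2 (by positivity)
  have hg0 : 0 < g := by positivity
  have hgI : g ≤ I := by
    have h1 : √((P : ℝ) ^ S.card) ≤ I := by
      rw [Real.sqrt_le_left (by positivity)]
      exact_mod_cast hPI
    exact (div_le_self hsq.le hE1).trans h1
  have hfib : ∀ i ∈ range I, (fib (range I) (fun i => resAt S (z (i * 2 ^ k1))) i : ℝ) ≤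
      2 * I / g := by
    intro i _
    refine Small.card_sep_le hg0 hgI (filter_subset _ _) fun j hj j' hj' hlt => ?_
    by_contra hjj
    obtain ⟨hj1, hj2⟩ := mem_filter.1 hj
    obtain ⟨hj1', hj2'⟩ := mem_filter.1 hj'
    have hp := hpath j (mem_range.1 hj1) j' (mem_range.1 hj1')
    have hne' : z (j * 2 ^ k1) - z (j' * 2 ^ k1) ≠ 0 := fun e => hjj (hp.1 (sub_eq_zero.1 e))
    have h1 := pow_card_le_norm (P := P) (S := S) (fun p hp => (hS p hp).1) hne' (by
      intro p hp
      rw [map_sub, sub_eq_zero]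
      exact (Small.resAt_eq_iff S _ _).1 (hj2.trans hj2'.symm) p hp)
    have h2 : (P : ℝ) ^ S.card ≤ ((D * 2 ^ k1 : ℝ) * ((j : ℝ) - j')) ^ 2 := by
      exact_mod_cast h1.trans hp.2
    have h3 : √((P : ℝ) ^ S.card) ≤ (D * 2 ^ k1 : ℝ) * |(j : ℝ) - j'| := by
      rw [Real.sqrt_le_left (by positivity), mul_pow, sq_abs, ← mul_pow]
      exact h2
    rw [hg, lt_div_iff₀ (by positivity)] at hlt
    linarith
  have hX := le_cH_of_fib hs hfib
  have hI' : (0 : ℝ) < I := by exact_mod_cast hI0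
  have e1 : Real.log (((range I).card : ℝ) / (2 * I / g)) =
      S.card * Real.log P / 2 - Real.log (2 * (D * 2 ^ k1)) := by
    have : ((range I).card : ℝ) / (2 * I / g) = √((P : ℝ) ^ S.card) / (2 * (D * 2 ^ k1)) := by
      rw [card_range, hg]; field_simp
    rw [this, Real.log_div hsq.ne' (by positivity), Real.log_sqrt (by positivity), Real.log_pow]
  rw [e1] at hX
  have h2 := cH_sub_le (range I) (fun i => resAt S (z (i * 2 ^ k1)))
    (fun i => resAt S' (z (i * 2 ^ k1)))
  have h3 := cH_dep_le (s := range I) S (fun p i => res p (z (i * 2 ^ k1)))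
    (fun i => resAt S (z (i * 2 ^ k1))) (fun i => resAt S' (z (i * 2 ^ k1)))
    (fun i _ i' _ _ h => (Small.resAt_eq_iff S _ _).2 h)
  have h4 := cH_dep_le (s := range I) S' (fun p i => res p (z (i * 2 ^ k1)))
    (fun i => resAt S' (z (i * 2 ^ k1))) (fun _ => ())
    (fun i _ i' _ _ h => (Small.resAt_eq_iff S' _ _).2 h)
  have h5 : ∑ p ∈ S', cH (range I) (fun i => res p (z (i * 2 ^ k1))) (fun _ => ()) ≤
      ∑ p ∈ S', Real.log p.1 := sum_le_sum fun p _ => by
    have := cH_le_log_card (s := range I) (f := fun i => res p (z (i * 2 ^ k1))) (fun _ => ())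
      univ (fun _ _ => mem_univ _)
    rwa [card_univ, ZMod.card] at this
  rw [avg, le_div_iff₀ hm, sub_mul, div_mul_cancel₀ _ hm.ne']
  linarith

end Crest.Agent.R2
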